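import Crest.Agent.R101.Defs

open MeasureTheory Complex Metric Set Filter Topology
open scoped Real ComplexConjugate

namespace Crest.Agent.R101

/-- The unit vector at angle `θ`. -/
noncomputable def pomE (θ : ℝ) : ℂ := (Real.cos θ : ℂ) + (Real.sin θ : ℂ) * I

lemma pomE_norm (θ : ℝ) : ‖pomE θ‖ = 1 := by
  have : pomE θ = Complex.exp (θ * I) := by
    rw [Complex.exp_mul_I]; simp [pomE]
  rw [this, Complex.norm_exp_ofReal_mul_I]

lemma pomE_ne (θ : ℝ) : pomE θ ≠ 0 := by
  intro h
  have := pomE_norm θ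
  rw [h] at this
  simp at this

lemma pomE_cont : Continuous pomE := by
  unfold pomE; fun_prop

lemma pomE_deriv (θ : ℝ) : HasDerivAt pomE (I * pomE θ) θ := by
  have h1 := (Real.hasDerivAt_cos θ).ofReal_comp
  have h2 := ((Real.hasDerivAt_sin θ).ofReal_comp).mul_const I
  refine (h1.add h2).congr_deriv ?_
  simp only [pomE]
  push_cast
  linear_combination (-Complex.sin θ) * I_mul_I

lemma pomE_pi : pomE π = pomE (-π) := by
  simp [pomE]

lemma pom_lin (L : ℂ →L[ℝ] ℂ) (θ : ℝ) :
    (L 1 + I * L I) / pomE θ = L (pomE θ) + I * L (I * pomE θ) := by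
  have h1 : pomE θ = Real.cos θ • (1 : ℂ) + Real.sin θ • I := by
    simp [pomE]
  have h2 : I * pomE θ = (-Real.sin θ) • (1 : ℂ) + Real.cos θ • I := by
    simp only [pomE, real_smul]
    push_cast
    linear_combination (Complex.sin θ) * I_mul_I
  have e1 : L (pomE θ) = (Real.cos θ : ℂ) * L 1 + (Real.sin θ : ℂ) * L I := by
    rw [h1, map_add, map_smul, map_smul]; simp
  have e2 : L (I * pomE θ) = -(Real.sin θ : ℂ) * L 1 + (Real.cos θ : ℂ) * L I := by
    rw [h2, map_add, map_smul, map_smul]; simp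
  rw [div_eq_iff (pomE_ne θ), e1, e2]
  have hcs : (Real.cos θ : ℂ) ^ 2 + (Real.sin θ : ℂ) ^ 2 = 1 := by
    exact_mod_cast Real.cos_sq_add_sin_sq θ
  simp only [pomE]
  linear_combination (-(L 1) - I * L I) * hcs
    + ((Real.sin θ : ℂ) ^ 2 * L 1 - (Real.sin θ : ℂ) * (Real.cos θ : ℂ) * L I) * I_mul_I

/-- Global Cauchy–Pompeiu formula for a `C¹` function vanishing to first order outside the disc. -/
lemma pom_global (T : ℂ → ℂ) (hT : ContDiff ℝ 1 T)
    (h0 : ∀ z, 1 ≤ ‖z‖ → T z = 0 ∧ fderiv ℝ T z = 0) {y : ℂ} (hy : ‖y‖ < 1) :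
    ∫ z, wd I T z / (z - y) = -π * T y := by
  have hdiff : Differentiable ℝ T := hT.differentiable one_ne_zero
  have hcont : Continuous (fderiv ℝ T) := hT.continuous_fderiv one_ne_zero
  rw [← integral_add_left_eq_self (fun z => wd I T z / (z - y)) y,
    ← Complex.integral_comp_polarCoord_symm]
  set A : ℝ × ℝ → ℂ := fun p => fderiv ℝ T (y + p.1 * pomE p.2) (pomE p.2) with hA
  set B : ℝ × ℝ → ℂ := fun p => fderiv ℝ T (y + p.1 * pomE p.2) (I * pomE p.2) with hB
  have hE := pomE_cont
  have hAc : Continuous A := by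
    refine Continuous.clm_apply (hcont.comp (by fun_prop)) (by fun_prop)
  have hBc : Continuous B := by
    refine Continuous.clm_apply (hcont.comp (by fun_prop)) (by fun_prop)
  have hfar : ∀ r θ : ℝ, 2 ≤ r → 1 ≤ ‖y + r * pomE θ‖ := by
    intro r θ hr
    have h1 : ‖(r : ℂ) * pomE θ‖ = r := by
      rw [norm_mul, pomE_norm, mul_one, Complex.norm_real, Real.norm_of_nonneg (by linarith)]
    have h2 : ‖(r : ℂ) * pomE θ‖ ≤ ‖y + r * pomE θ‖ + ‖y‖ := by
      have := norm_sub_le (y + r * pomE θ) y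
      simpa using this
    linarith
  have step1 : ∫ p in polarCoord.target,
      p.1 • (wd I T (y + Complex.polarCoord.symm p) / (y + Complex.polarCoord.symm p - y))
      = ∫ p in Ioi (0 : ℝ) ×ˢ Ioo (-π) π, (A p + I * B p) / 2 := by
    refine setIntegral_congr_fun (measurableSet_Ioi.prod measurableSet_Ioo) ?_
    intro p hp
    have hr : (p.1 : ℂ) ≠ 0 := by
      have : (0 : ℝ) < p.1 := hp.1
      exact_mod_cast this.ne'
    have hs : Complex.polarCoord.symm p = p.1 * pomE p.2 := by
      rw [Complex.polarCoord_symm_apply]; rfl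
    simp only [hs, add_sub_cancel_left, hA, hB, ← pom_lin, wd, real_smul]
    have := pomE_ne p.2
    field_simp
  have step2 : ∫ p in Ioi (0 : ℝ) ×ˢ Ioo (-π) π, (A p + I * B p) / 2
      = ∫ p in Ioc (0 : ℝ) 2 ×ˢ Ioc (-π) π, (A p + I * B p) / 2 := by
    rw [setIntegral_eq_of_subset_of_forall_sdiff_eq_zero (s := Ioc (0 : ℝ) 2 ×ˢ Ioo (-π) π)
      (measurableSet_Ioi.prod measurableSet_Ioo) (prod_mono Ioc_subset_Ioi_self subset_rfl)]
    · refine setIntegral_congr_set ?_
      rw [Measure.volume_eq_prod]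
      exact Measure.set_prod_ae_eq (ae_eq_refl _) Ioo_ae_eq_Ioc
    · intro p hp
      have h2 : 2 ≤ p.1 := by
        by_contra hlt
        push Not at hlt
        exact hp.2 ⟨⟨hp.1.1, hlt.le⟩, hp.1.2⟩
      simp [hA, hB, (h0 _ (hfar p.1 p.2 h2)).2]
  have hint : ∀ f : ℝ × ℝ → ℂ, Continuous f →
      IntegrableOn f (Ioc (0 : ℝ) 2 ×ˢ Ioc (-π) π) (volume.prod volume) := by
    intro f hf
    rw [← Measure.volume_eq_prod]
    exact (hf.continuousOn.integrableOn_compact
      ((isCompact_Icc (a := (0 : ℝ)) (b := 2)).prod (isCompact_Icc (a := -π) (b := π)))).mono_set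
      (prod_mono Ioc_subset_Icc_self Ioc_subset_Icc_self)
  have hpi : -π ≤ π := by linarith [Real.pi_pos]
  have intA : ∫ p in Ioc (0 : ℝ) 2 ×ˢ Ioc (-π) π, A p ∂(volume.prod volume) = -(2 * π) * T y := by
    rw [← setIntegral_prod_swap, setIntegral_prod (fun z : ℝ × ℝ => A z.swap) ((hint A hAc).swap)]
    have inner : ∀ θ : ℝ, ∫ r in Ioc (0 : ℝ) 2, A (Prod.swap (θ, r)) = -T y := by
      intro θ
      rw [← intervalIntegral.integral_of_le (by norm_num)]
      have hd : ∀ r ∈ uIcc (0 : ℝ) 2,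
          HasDerivAt (fun r : ℝ => T (y + r * pomE θ)) (A (Prod.swap (θ, r))) r := by
        intro r _
        have h1 : HasDerivAt (fun r : ℝ => y + r * pomE θ) (pomE θ) r := by
          have := (((hasDerivAt_id r).ofReal_comp).mul_const (pomE θ)).const_add y
          simpa using this
        exact (hdiff _).hasFDerivAt.comp_hasDerivAt (f := fun r : ℝ => y + r * pomE θ) r h1
      rw [intervalIntegral.integral_eq_sub_of_hasDerivAt hd
        ((hAc.comp (by fun_prop : Continuous fun r : ℝ => Prod.swap (θ, r))).intervalIntegrable _ _)]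
      rw [(h0 _ (hfar 2 θ le_rfl)).1]
      simp
    simp only [inner]
    rw [← intervalIntegral.integral_of_le hpi]
    simp only [intervalIntegral.integral_const, real_smul]
    push_cast
    ring
  have intB : ∫ p in Ioc (0 : ℝ) 2 ×ˢ Ioc (-π) π, B p ∂(volume.prod volume) = 0 := by
    rw [setIntegral_prod _ (hint B hBc)]
    refine setIntegral_eq_zero_of_forall_eq_zero ?_
    intro r hr
    have hr0 : (r : ℂ) ≠ 0 := by
      have : (0 : ℝ) < r := hr.1
      exact_mod_cast this.ne'
    rw [← intervalIntegral.integral_of_le hpi]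
    have hd : ∀ θ ∈ uIcc (-π) π,
        HasDerivAt (fun θ : ℝ => T (y + r * pomE θ) / r) (B (r, θ)) θ := by
      intro θ _
      have h1 : HasDerivAt (fun θ : ℝ => y + r * pomE θ) (r • (I * pomE θ)) θ := by
        have := ((pomE_deriv θ).const_mul (r : ℂ)).const_add y
        simpa using this
      have h2 := ((hdiff _).hasFDerivAt.comp_hasDerivAt
        (f := fun θ : ℝ => y + r * pomE θ) θ h1).div_const (r : ℂ)
      refine h2.congr_deriv ?_
      rw [map_smul, real_smul]
      simp only [hB]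
      field_simp
    rw [intervalIntegral.integral_eq_sub_of_hasDerivAt hd
      ((hBc.comp (by fun_prop : Continuous fun θ : ℝ => (r, θ))).intervalIntegrable _ _)]
    rw [pomE_pi, sub_self]
  refine step1.trans (step2.trans ?_)
  rw [Measure.volume_eq_prod, integral_div, integral_add (hint A hAc)
    (hint (fun p => I * B p) (continuous_const.mul hBc)), integral_const_mul, intA, intB]
  ring

theorem pompeiu (S : ℂ → ℂ) (hS : Cc S) {y : ℂ} (hy : y ∈ D) :
    ∫ z in D, wd I S z / (z - y) = -π * S y := by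
  obtain ⟨hS1, R, hR, hS0⟩ := hS
  set T : ℂ → ℂ := D.indicator S with hT
  have hin : ∀ z ∈ D, T =ᶠ[𝓝 z] S := by
    intro z hz
    filter_upwards [isOpen_ball.mem_nhds hz] with w hw
    simp [hT, indicator_of_mem hw]
  have hout : ∀ z : ℂ, R < ‖z‖ → T =ᶠ[𝓝 z] fun _ => 0 := by
    intro z hz
    have : ∀ᶠ w in 𝓝 z, R < ‖w‖ := continuous_norm.continuousAt.eventually (lt_mem_nhds hz)
    filter_upwards [this] with w hw
    by_cases hwD : w ∈ D
    · simp [hT, indicator_of_mem hwD, hS0 w hwD hw.le]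
    · simp [hT, indicator_of_notMem hwD]
  have hTc : ContDiff ℝ 1 T := by
    rw [contDiff_iff_contDiffAt]
    intro z
    by_cases hz : z ∈ D
    · exact (hS1.contDiffAt (isOpen_ball.mem_nhds hz)).congr_of_eventuallyEq (hin z hz)
    · have : R < ‖z‖ := by
        have : 1 ≤ ‖z‖ := by simpa using hz
        linarith
      exact contDiffAt_const.congr_of_eventuallyEq (hout z this)
  have h0 : ∀ z, 1 ≤ ‖z‖ → T z = 0 ∧ fderiv ℝ T z = 0 := by
    intro z hz
    have h := hout z (by linarith)
    exact ⟨h.eq_of_nhds, by rw [h.fderiv_eq]; simp⟩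
  have key := pom_global T hTc h0 (by simpa using hy)
  rw [(hin y hy).eq_of_nhds] at key
  rw [← key, ← setIntegral_eq_integral_of_forall_compl_eq_zero (s := D)
    (f := fun z => wd I T z / (z - y))]
  · refine setIntegral_congr_fun measurableSet_ball ?_
    intro z hz
    simp only [wd, (hin z hz).fderiv_eq]
  · intro z hz
    have : 1 ≤ ‖z‖ := by simpa using hz
    simp [wd, (h0 z this).2]

end Crest.Agent.R101
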