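import Crest.Agent.R101.Defs

open MeasureTheory Complex Metric Set Filter Topology
open scoped Real ComplexConjugate

namespace Crest.Agent.R101

theorem berg_intOn {E : Type*} [NormedAddCommGroup E] (g : ℂ → E) (r : ℝ)
    (hg : ContinuousOn g (closedBall 0 r)) : IntegrableOn g (ball 0 r) :=
  (hg.integrableOn_compact (isCompact_closedBall (0 : ℂ) r)).mono_set ball_subset_closedBall

theorem berg_congr {E : Type*} [AddCommMonoid E] [TopologicalSpace E] {f g : ℕ → E} {s t : E}
    (h : HasSum f s) (h1 : ∀ j, g j = f j) (h2 : t = s) : HasSum g t := by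
  rw [h2, funext h1]; exact h

theorem berg_diag (r : ℝ) (hr : 0 < r) (n : ℕ) :
    ∫ z in ball (0 : ℂ) r, ‖z‖ ^ (2 * n) = π * r ^ (2 * n + 2) / (n + 1) := by
  have h1 : ∫ z in ball (0 : ℂ) r, ‖z‖ ^ (2 * n)
      = ∫ z : ℂ, (Iio r).indicator (fun y : ℝ => y ^ (2 * n)) ‖z‖ := by
    rw [← integral_indicator measurableSet_ball]
    congr 1
    funext z
    by_cases hz : ‖z‖ < r
    · rw [indicator_of_mem (by simpa using hz), indicator_of_mem (by simpa using hz)]
    · rw [indicator_of_notMem (by simpa using hz), indicator_of_notMem (by simpa using hz)]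
  rw [h1, integral_fun_norm_addHaar volume]
  have h2 : ∫ y in Ioi (0 : ℝ), y ^ (Module.finrank ℝ ℂ - 1) •
      (Iio r).indicator (fun y : ℝ => y ^ (2 * n)) y = r ^ (2 * n + 2) / (2 * n + 2) := by
    have h3 : ∀ y : ℝ, y ^ (Module.finrank ℝ ℂ - 1) •
      (Iio r).indicator (fun y : ℝ => y ^ (2 * n)) y
        = (Iio r).indicator (fun y : ℝ => y ^ (2 * n + 1)) y := by
      intro y
      by_cases hy : y ∈ Iio r
      · simp only [indicator_of_mem hy, Complex.finrank_real_complex, smul_eq_mul]; ring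
      · simp [indicator_of_notMem hy]
    simp_rw [h3]
    rw [setIntegral_indicator measurableSet_Iio, Ioi_inter_Iio, ← integral_Ioc_eq_integral_Ioo,
      ← intervalIntegral.integral_of_le hr.le, integral_pow]
    push_cast
    simp
    ring
  rw [h2]
  simp only [Complex.finrank_real_complex, Measure.real, Complex.volume_ball]
  simp
  field_simp

theorem berg_off (r : ℝ) (m n : ℕ) (hmn : m ≠ n) :
    ∫ z in ball (0 : ℂ) r, z ^ m * conj z ^ n = 0 := by
  set θ : ℝ := π / ((m : ℝ) - n) with hθ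
  have hne : (m : ℝ) - n ≠ 0 := sub_ne_zero.2 (by exact_mod_cast hmn)
  set ω : Circle := Circle.exp θ with hω
  have hmp : MeasurePreserving (rotation ω) volume volume := (rotation ω).measurePreserving
  have hme : MeasurableEmbedding (rotation ω) := (rotation ω).toHomeomorph.measurableEmbedding
  have h1 := hmp.setIntegral_preimage_emb hme (fun z => z ^ m * conj z ^ n) (ball (0 : ℂ) r)
  have h2 : (rotation ω) ⁻¹' ball (0 : ℂ) r = ball 0 r := by
    ext z
    simp only [mem_preimage, mem_ball, dist_zero_right, LinearIsometryEquiv.norm_map]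
  have h3 : (ω : ℂ) ^ m * conj (ω : ℂ) ^ n = -1 := by
    rw [hω, Circle.coe_exp, ← exp_conj, ← exp_nat_mul, ← exp_nat_mul, ← exp_add, ← exp_pi_mul_I]
    congr 1
    have : (π : ℂ) = ((m : ℂ) - n) * θ := by
      have : π = ((m : ℝ) - n) * θ := by rw [hθ]; field_simp
      exact_mod_cast this
    rw [this]
    simp
    ring
  have h4 : ∀ z : ℂ, (rotation ω z) ^ m * conj (rotation ω z) ^ n = -(z ^ m * conj z ^ n) := by
    intro z
    rw [rotation_apply, map_mul, mul_pow, mul_pow]
    linear_combination (z ^ m * conj z ^ n) * h3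
  rw [h2] at h1
  simp_rw [h4] at h1
  rw [integral_neg] at h1
  linear_combination (-1 / 2 : ℂ) * h1

theorem berg_fin (r : ℝ) (hr : 0 < r) (a : ℕ → ℂ) (N : ℕ) :
    ∫ z in ball (0 : ℂ) r, ‖∑ j ∈ Finset.range N, a j * z ^ j‖ ^ 2
      = ∑ j ∈ Finset.range N, π * ‖a j‖ ^ 2 / (j + 1) * r ^ (2 * j + 2) := by
  apply ofReal_injective
  rw [← integral_complex_ofReal]
  have h1 : ∀ z : ℂ, ((‖∑ j ∈ Finset.range N, a j * z ^ j‖ ^ 2 : ℝ) : ℂ)
      = ∑ m ∈ Finset.range N, ∑ n ∈ Finset.range N,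
        (a m * conj (a n)) * (z ^ m * conj z ^ n) := by
    intro z
    rw [← normSq_eq_norm_sq, ← mul_conj, map_sum, Finset.sum_mul_sum]
    refine Finset.sum_congr rfl fun m _ => Finset.sum_congr rfl fun n _ => ?_
    rw [map_mul, map_pow]; ring
  simp_rw [h1]
  have hi : ∀ m n : ℕ, IntegrableOn (fun z : ℂ => (a m * conj (a n)) * (z ^ m * conj z ^ n))
      (ball 0 r) := fun m n => berg_intOn _ r (Continuous.continuousOn (by fun_prop))
  rw [integral_finsetSum _ fun m _ => integrable_finsetSum _ fun n _ => hi m n, ofReal_sum]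
  refine Finset.sum_congr rfl fun m hm => ?_
  rw [integral_finsetSum _ fun n _ => hi m n, Finset.sum_eq_single_of_mem m hm]
  · rw [integral_const_mul]
    have h2 : ∀ z : ℂ, z ^ m * conj z ^ m = ((‖z‖ ^ (2 * m) : ℝ) : ℂ) := by
      intro z
      rw [← mul_pow, mul_conj, normSq_eq_norm_sq, pow_mul]
      push_cast; ring
    simp_rw [h2]
    rw [integral_complex_ofReal, berg_diag r hr, mul_conj, normSq_eq_norm_sq]
    push_cast; ring
  · intro n _ hn
    rw [integral_const_mul, berg_off r m n (Ne.symm hn), mul_zero]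

theorem berg_ball {f : ℂ → ℂ} {a : ℕ → ℂ} (h : ∀ z ∈ D, HasSum (fun j => a j * z ^ j) (f z))
    {r : ℝ} (hr : 0 < r) (hr1 : r < 1) :
    HasSum (fun j => π * ‖a j‖ ^ 2 / (j + 1) * r ^ (2 * j + 2))
      (∫ z in ball (0 : ℂ) r, ‖f z‖ ^ 2) := by
  rw [hasSum_iff_tendsto_nat_of_nonneg (fun j => by positivity)]
  simp_rw [← berg_fin r hr]
  have hrD : (r : ℂ) ∈ D := by simp [abs_of_pos hr, hr1]
  have hs : Summable fun j => ‖a j * (r : ℂ) ^ j‖ := summable_norm_iff.2 (h r hrD).summable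
  set M : ℝ := ∑' j, ‖a j * (r : ℂ) ^ j‖ with hM
  apply tendsto_integral_of_dominated_convergence (fun _ => M ^ 2)
  · intro N
    exact Continuous.aestronglyMeasurable (by fun_prop)
  · exact berg_intOn _ r continuousOn_const
  · intro N
    filter_upwards [ae_restrict_mem measurableSet_ball] with z hz
    have hz' : ‖z‖ ≤ r := by simpa using ball_subset_closedBall hz
    rw [Real.norm_eq_abs, abs_of_nonneg (by positivity)]
    apply pow_le_pow_left₀ (norm_nonneg _)
    refine (norm_sum_le _ _).trans (le_trans (Finset.sum_le_sum fun j _ => ?_)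
      (hs.sum_le_tsum (Finset.range N) fun j _ => norm_nonneg _))
    rw [norm_mul, norm_mul, norm_pow, norm_pow, norm_real, Real.norm_eq_abs, abs_of_pos hr]
    gcongr
  · filter_upwards [ae_restrict_mem measurableSet_ball] with z hz
    exact ((h z (ball_subset_ball hr1.le hz)).tendsto_sum_nat.norm).pow 2

theorem berg_lower {f : ℂ → ℂ} {a : ℕ → ℂ} (h : ∀ z ∈ D, HasSum (fun j => a j * z ^ j) (f z))
    (hi : IntegrableOn (fun z => ‖f z‖ ^ 2) D) (N : ℕ) :
    ∑ j ∈ Finset.range N, π * ‖a j‖ ^ 2 / (j + 1) ≤ ∫ z in D, ‖f z‖ ^ 2 := by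
  have hc : Continuous fun r : ℝ =>
      ∑ j ∈ Finset.range N, π * ‖a j‖ ^ 2 / (j + 1) * r ^ (2 * j + 2) := by fun_prop
  have ht := (hc.tendsto 1).mono_left (nhdsWithin_le_nhds (s := Iio 1))
  simp only [one_pow, mul_one] at ht
  refine le_of_tendsto ht ?_
  filter_upwards [Ioo_mem_nhdsLT (show (0 : ℝ) < 1 from one_pos)] with r hr
  refine (sum_le_hasSum _ (fun j _ => by have := hr.1; positivity) (berg_ball h hr.1 hr.2)).trans ?_
  exact setIntegral_mono_set hi (Eventually.of_forall fun z => by positivity)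
    (ball_subset_ball hr.2.le).eventuallyLE

theorem berg_upper {f : ℂ → ℂ} {a : ℕ → ℂ} (h : ∀ z ∈ D, HasSum (fun j => a j * z ^ j) (f z))
    (hf : ContinuousOn f D) {S : ℝ} (hS : HasSum (fun j => π * ‖a j‖ ^ 2 / (j + 1)) S) :
    IntegrableOn (fun z => ‖f z‖ ^ 2) D ∧ ∫ z in D, ‖f z‖ ^ 2 ≤ S := by
  have hcov : AECover (volume.restrict D) (𝓝[<] (1 : ℝ)) (fun r => ball (0 : ℂ) r ∩ ball 0 1) := by
    refine ⟨?_, fun r => measurableSet_ball.inter measurableSet_ball⟩
    filter_upwards [ae_restrict_mem measurableSet_ball] with z hz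
    have hz' : ‖z‖ < 1 := by simpa using hz
    filter_upwards [Ioo_mem_nhdsLT hz'] with r hr
    exact ⟨by simpa using hr.1, hz⟩
  have hres : ∀ r : ℝ, r < 1 →
      (volume.restrict D).restrict (ball (0 : ℂ) r ∩ ball 0 1) = volume.restrict (ball 0 r) := by
    intro r hr
    rw [Measure.restrict_restrict (measurableSet_ball.inter measurableSet_ball), inter_assoc,
      inter_self, inter_eq_left.2 (ball_subset_ball hr.le)]
  have hb : ∀ᶠ r in 𝓝[<] (1 : ℝ),
      ∫ z in ball (0 : ℂ) r ∩ ball 0 1, ‖f z‖ ^ 2 ∂(volume.restrict D) ≤ S := by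
    filter_upwards [Ioo_mem_nhdsLT (show (0 : ℝ) < 1 from one_pos)] with r hr
    rw [hres r hr.2]
    refine hasSum_le (fun j => ?_) (berg_ball h hr.1 hr.2) hS
    exact mul_le_of_le_one_right (by positivity) (pow_le_one₀ hr.1.le hr.2.le)
  have hint : Integrable (fun z => ‖f z‖ ^ 2) (volume.restrict D) := by
    refine ⟨(hf.norm.pow 2).aestronglyMeasurable measurableSet_ball, ?_⟩
    rw [hasFiniteIntegral_iff_ofReal (Eventually.of_forall fun z => by positivity)]
    have hm : AEMeasurable (fun z => ENNReal.ofReal (‖f z‖ ^ 2)) (volume.restrict D) :=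
      ((hf.norm.pow 2).aemeasurable measurableSet_ball).ennreal_ofReal
    refine lt_of_le_of_lt (le_of_tendsto (hcov.lintegral_tendsto_of_countably_generated hm) ?_)
      (ENNReal.ofReal_lt_top (r := S))
    filter_upwards [hb, self_mem_nhdsWithin] with r hr hr1
    have hr1' : r < 1 := hr1
    rw [hres r hr1'] at hr ⊢
    have hI : IntegrableOn (fun z => ‖f z‖ ^ 2) (ball 0 r) :=
      berg_intOn _ r ((hf.norm.pow 2).mono (closedBall_subset_ball hr1'))
    rw [← ofReal_integral_eq_lintegral_ofReal hI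
      (Eventually.of_forall fun z => by positivity)]
    exact ENNReal.ofReal_le_ofReal hr
  exact ⟨hint, le_of_tendsto (hcov.integral_tendsto_of_countably_generated hint) hb⟩

theorem bergman_shift (k : ℂ → ℂ) (hk : DifferentiableOn ℂ k D)
    (hi : IntegrableOn (fun z => ‖k z + z * deriv k z‖ ^ 2) D) (c : ℂ) :
    IntegrableOn (fun z => ‖k z‖ ^ 2) D ∧ IntegrableOn (fun z => ‖deriv k z‖ ^ 2) D ∧
    (∫ z in D, ‖deriv k z‖ ^ 2) + (∫ z in D, ‖c + (2 * z * k z + z ^ 2 * deriv k z)‖ ^ 2)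
      ≤ 2 * (∫ z in D, ‖k z + z * deriv k z‖ ^ 2) + π * ‖c‖ ^ 2 := by
  have hk' : DifferentiableOn ℂ (deriv k) D := hk.deriv isOpen_ball
  set a : ℕ → ℂ := fun j => ((j.factorial : ℕ) : ℂ)⁻¹ * iteratedDeriv j k 0 with ha
  have h0 : ∀ z ∈ D, HasSum (fun j => a j * z ^ j) (k z) := by
    intro z hz
    refine berg_congr (hasSum_taylorSeries_on_ball hk hz) (fun j => ?_) rfl
    simp only [ha, sub_zero, smul_eq_mul]; ring
  have h1 : ∀ z ∈ D, HasSum (fun j : ℕ => (((j : ℂ) + 1) * a (j + 1)) * z ^ j) (deriv k z) := by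
    intro z hz
    refine berg_congr (hasSum_taylorSeries_on_ball hk' hz) (fun j => ?_) rfl
    have hj : ((j : ℂ) + 1) ≠ 0 := by exact_mod_cast Nat.succ_ne_zero j
    have hf : ((j.factorial : ℕ) : ℂ) ≠ 0 := by exact_mod_cast Nat.factorial_ne_zero j
    simp only [ha, sub_zero, smul_eq_mul, iteratedDeriv_succ', Nat.factorial_succ]
    push_cast
    field_simp
  have h2 : ∀ z ∈ D, HasSum (fun j : ℕ => ((j : ℂ) * a j) * z ^ j) (z * deriv k z) := by
    intro z hz
    rw [← hasSum_nat_add_iff' 1]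
    simp only [Finset.range_one, Finset.sum_singleton, Nat.cast_zero, zero_mul, sub_zero]
    refine berg_congr ((h1 z hz).mul_left z) (fun j => ?_) rfl
    push_cast; ring
  have h3 : ∀ z ∈ D, HasSum (fun j : ℕ => (((j : ℂ) + 1) * a j) * z ^ j)
      (k z + z * deriv k z) := by
    intro z hz
    refine berg_congr ((h0 z hz).add (h2 z hz)) (fun j => ?_) rfl
    ring
  let e : ℕ → ℂ := fun j => Nat.casesOn j c fun i => ((i : ℂ) + 2) * a i
  have h4 : ∀ z ∈ D, HasSum (fun j : ℕ => e j * z ^ j)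
      (c + (2 * z * k z + z ^ 2 * deriv k z)) := by
    intro z hz
    rw [← hasSum_nat_add_iff' 1]
    simp only [Finset.range_one, Finset.sum_singleton, pow_zero, mul_one]
    refine berg_congr (((h0 z hz).add (h3 z hz)).mul_left z) (fun j => ?_) ?_
    · show ((j : ℂ) + 2) * a j * z ^ (j + 1) = _
      ring
    · show c + (2 * z * k z + z ^ 2 * deriv k z) - c = _
      ring
  set b : ℕ → ℝ := fun j => π * ‖a j‖ ^ 2 with hb
  have hb0 : ∀ j, 0 ≤ b j := fun j => by positivity
  have n1 : ∀ j : ℕ, ‖(j : ℂ) + 1‖ = (j : ℝ) + 1 := fun j => by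
    exact_mod_cast Complex.norm_natCast (j + 1)
  have n2 : ∀ j : ℕ, ‖(j : ℂ) + 2‖ = (j : ℝ) + 2 := fun j => by
    exact_mod_cast Complex.norm_natCast (j + 2)
  have hA : ∀ N, ∑ j ∈ Finset.range N, ((j : ℝ) + 1) * b j ≤ ∫ z in D, ‖k z + z * deriv k z‖ ^ 2 := by
    intro N
    convert berg_lower h3 hi N using 2 with j
    rw [norm_mul, n1, hb]
    field_simp
  have hAs : Summable fun j : ℕ => ((j : ℝ) + 1) * b j :=
    summable_of_sum_range_le (fun j => by have := hb0 j; positivity) hA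
  have hAle := hAs.tsum_le_of_sum_range_le hA
  have hbs : Summable b := by
    refine Summable.of_nonneg_of_le hb0 (fun j => ?_) hAs
    have := hb0 j
    have : (0 : ℝ) ≤ j := Nat.cast_nonneg j
    nlinarith
  have s0 : Summable fun j : ℕ => π * ‖a j‖ ^ 2 / (j + 1) := by
    refine Summable.of_nonneg_of_le (fun j => by positivity) (fun j => ?_) hbs
    have : (0 : ℝ) ≤ j := Nat.cast_nonneg j
    exact div_le_self (hb0 j) (by linarith)
  have s1 : HasSum (fun j : ℕ => π * ‖((j : ℂ) + 1) * a (j + 1)‖ ^ 2 / (j + 1))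
      ((∑' j : ℕ, ((j : ℝ) + 1) * b j) - ∑' j, b j) := by
    have := (hasSum_nat_add_iff' 1).2 (hAs.hasSum.sub hbs.hasSum)
    simp only [Finset.range_one, Finset.sum_singleton, Nat.cast_zero, zero_add, one_mul, sub_self,
      sub_zero] at this
    refine berg_congr this (fun j => ?_) rfl
    rw [norm_mul, n1, hb]
    push_cast
    field_simp
    ring
  have s2 : HasSum (fun j : ℕ => π * ‖e j‖ ^ 2 / (j + 1))
      ((∑' j : ℕ, ((j : ℝ) + 1) * b j) + (∑' j, b j) + π * ‖c‖ ^ 2) := by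
    rw [← hasSum_nat_add_iff' 1]
    simp only [Finset.range_one, Finset.sum_singleton, Nat.cast_zero, zero_add, div_one]
    refine berg_congr (hAs.hasSum.add hbs.hasSum) (fun j => ?_) ?_
    · show π * ‖((j : ℂ) + 2) * a j‖ ^ 2 / (((j + 1 : ℕ) : ℝ) + 1) = _
      rw [norm_mul, n2, hb]
      push_cast
      field_simp
      ring
    · show _ + π * ‖c‖ ^ 2 - π * ‖c‖ ^ 2 = _
      ring
  have u0 := berg_upper h0 hk.continuousOn s0.hasSum
  have u1 := berg_upper h1 hk'.continuousOn s1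
  have u2 := berg_upper h4 (continuousOn_const.add (((continuousOn_const.mul continuousOn_id).mul
    hk.continuousOn).add ((continuousOn_id.pow 2).mul hk'.continuousOn))) s2
  exact ⟨u0.1, u1.1, by linarith [u1.2, u2.2]⟩

end Crest.Agent.R101
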