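import Crest.Agent.R101.Wirt

/-! Integration by parts on the disc, cut-off functions, extension of weak identities. -/

open MeasureTheory Complex Metric Set Filter Topology
open scoped Real ComplexConjugate

namespace Crest.Agent.R101

theorem indicator_eventuallyEq (S : ℂ → ℂ) {z : ℂ} (hz : z ∈ D) : D.indicator S =ᶠ[𝓝 z] S := by
  filter_upwards [D_nhds hz] with w hw using indicator_of_mem hw S

theorem Cc.indicator_eventually_zero {S : ℂ → ℂ} (hS : Cc S) {z : ℂ} (hz : z ∉ D) :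
    D.indicator S =ᶠ[𝓝 z] fun _ => 0 := by
  obtain ⟨-, R, hR, h0⟩ := hS
  have hz1 : R < ‖z‖ := hR.trans_le (by simpa [mem_D] using hz)
  have : {w : ℂ | R < ‖w‖} ∈ 𝓝 z := (isOpen_lt continuous_const continuous_norm).mem_nhds hz1
  filter_upwards [this] with w hw
  by_cases hwD : w ∈ D
  · rw [indicator_of_mem hwD, h0 w hwD (le_of_lt hw)]
  · rw [indicator_of_notMem hwD]

theorem Cc.contDiff_indicator {S : ℂ → ℂ} (hS : Cc S) : ContDiff ℝ 1 (D.indicator S) := by
  rw [contDiff_iff_contDiffAt]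
  intro z
  by_cases hz : z ∈ D
  · exact (hS.1.contDiffAt (D_nhds hz)).congr_of_eventuallyEq (indicator_eventuallyEq S hz)
  · exact contDiffAt_const.congr_of_eventuallyEq (hS.indicator_eventually_zero hz)

theorem hasCompactSupport_indicator (S : ℂ → ℂ) : HasCompactSupport (D.indicator S) := by
  refine HasCompactSupport.intro (isCompact_closedBall (0 : ℂ) 1) fun z hz => ?_
  exact indicator_of_notMem (fun h => hz (ball_subset_closedBall h)) S

theorem Cc.integral_fderiv {S : ℂ → ℂ} (hS : Cc S) (v : ℂ) :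
    IntegrableOn (fun z => fderiv ℝ S z v) D ∧ ∫ z in D, fderiv ℝ S z v = 0 := by
  set T := D.indicator S with hT
  have hTc : ContDiff ℝ 1 T := hS.contDiff_indicator
  have hTs : HasCompactSupport T := hasCompactSupport_indicator S
  have hc : Continuous fun z => fderiv ℝ T z v :=
    (hTc.continuous_fderiv one_ne_zero).clm_apply continuous_const
  have hs : HasCompactSupport fun z => fderiv ℝ T z v := hTs.fderiv_apply (𝕜 := ℝ) v
  have hi : Integrable fun z => fderiv ℝ T z v := hc.integrable_of_hasCompactSupport hs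
  have hiT : Integrable T := hTc.continuous.integrable_of_hasCompactSupport hTs
  have h0 : ∫ z, fderiv ℝ T z v = 0 := by
    have := integral_mul_fderiv_eq_neg_fderiv_mul_of_integrable (μ := (volume : Measure ℂ))
      (f := fun _ : ℂ => (1 : ℂ)) (g := T) (v := v) (by simp) (by simpa using hi)
      (by simpa using hiT) (fun x _ => differentiableAt_const _)
      (fun x _ => hTc.differentiable one_ne_zero x)
    simpa using this
  have heq : ∀ z ∈ D, fderiv ℝ T z v = fderiv ℝ S z v := fun z hz => by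
    rw [(indicator_eventuallyEq S hz).fderiv_eq]
  refine ⟨(hi.integrableOn (s := D)).congr_fun heq measurableSet_D, ?_⟩
  rw [← setIntegral_congr_fun measurableSet_D heq, setIntegral_eq_integral_of_forall_compl_eq_zero,
    h0]
  intro z hz
  rw [(hS.indicator_eventually_zero hz).fderiv_eq]
  simp

theorem Cc.integrableOn_wd {S : ℂ → ℂ} (hS : Cc S) (c : ℂ) : IntegrableOn (wd c S) D :=
  ((hS.integral_fderiv 1).1.add ((hS.integral_fderiv I).1.const_mul c)).div_const 2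

theorem Cc.integral_wd {S : ℂ → ℂ} (hS : Cc S) (c : ℂ) : ∫ z in D, wd c S z = 0 := by
  unfold wd
  rw [integral_div, integral_add (hS.integral_fderiv 1).1 ((hS.integral_fderiv I).1.const_mul c),
    integral_const_mul, (hS.integral_fderiv 1).2, (hS.integral_fderiv I).2]
  simp

theorem Cc.mul_left {S g : ℂ → ℂ} (hS : Cc S) (hg : ContDiffOn ℝ 1 g D) :
    Cc fun z => g z * S z := by
  obtain ⟨h1, R, hR, h0⟩ := hS
  exact ⟨hg.mul h1, R, hR, fun z hz hz' => by simp [h0 z hz hz']⟩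

theorem Cc.conj {S : ℂ → ℂ} (hS : Cc S) : Cc fun z => conj (S z) := by
  obtain ⟨h1, R, hR, h0⟩ := hS
  exact ⟨contDiffOn_conj h1, R, hR, fun z hz hz' => by simp [h0 z hz hz']⟩

theorem Sc.cc {S : ℂ → ℂ} (hS : Sc S) : Cc S := by
  obtain ⟨h1, R, hR, h0⟩ := hS
  exact ⟨(h1.of_le (by norm_num)).contDiffOn, R, hR, fun z _ hz' => h0 z hz'⟩

theorem Sc.conj {S : ℂ → ℂ} (hS : Sc S) : Sc fun z => conj (S z) := by
  obtain ⟨h1, R, hR, h0⟩ := hS
  exact ⟨contDiff_conj' h1, R, hR, fun z hz' => by simp [h0 z hz']⟩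

/-- A continuous function on the disc that vanishes near the circle is bounded. -/
theorem bdd_of_vanish {E : Type*} [NormedAddCommGroup E] {g : ℂ → E} (hg : ContinuousOn g D)
    {R : ℝ} (hR : R < 1) (h0 : ∀ z ∈ D, R ≤ ‖z‖ → g z = 0) : ∃ M : ℝ, ∀ z ∈ D, ‖g z‖ ≤ M := by
  have hsub : closedBall (0 : ℂ) R ⊆ D := closedBall_subset_ball hR
  obtain ⟨M, hM⟩ := (isCompact_closedBall (0 : ℂ) R).exists_bound_of_continuousOn (hg.mono hsub)
  refine ⟨max M 0, fun z hz => ?_⟩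
  by_cases h : R ≤ ‖z‖
  · rw [h0 z hz h, norm_zero]; exact le_max_right _ _
  · exact (hM z (by simpa using (not_le.1 h).le)).trans (le_max_left _ _)

theorem volume_D_lt_top : volume D < ⊤ := measure_ball_lt_top

instance : IsFiniteMeasure (volume.restrict D) := ⟨by rw [Measure.restrict_apply_univ]; exact volume_D_lt_top⟩

theorem integrableOn_of_bdd {E : Type*} [NormedAddCommGroup E] [SecondCountableTopology E]
    {g : ℂ → E} (hg : ContinuousOn g D) {M : ℝ} (hM : ∀ z ∈ D, ‖g z‖ ≤ M) :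
    IntegrableOn g D :=
  (integrable_const M).mono' (hg.aestronglyMeasurable measurableSet_D)
    ((ae_restrict_iff' measurableSet_D).2 (Eventually.of_forall hM))

/-- Integrable times bounded continuous is integrable. -/
theorem integrableOn_mul_bdd {A g : ℂ → ℂ} (hA : IntegrableOn A D) (hg : ContinuousOn g D)
    {M : ℝ} (hM : ∀ z ∈ D, ‖g z‖ ≤ M) : IntegrableOn (fun z => A z * g z) D :=
  Integrable.mul_bdd hA (hg.aestronglyMeasurable measurableSet_D)
    ((ae_restrict_iff' measurableSet_D).2 (Eventually.of_forall hM))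

theorem Cc.integrableOn_mul {S A : ℂ → ℂ} (hS : Cc S) (hA : ContinuousOn A D) :
    IntegrableOn (fun z => A z * S z) D := by
  obtain ⟨h1, R, hR, h0⟩ := hS
  have hc : ContinuousOn (fun z => A z * S z) D := hA.mul h1.continuousOn
  obtain ⟨M, hM⟩ := bdd_of_vanish hc hR fun z hz hz' => by rw [h0 z hz hz', mul_zero]
  exact integrableOn_of_bdd hc hM

theorem Cc.wd_vanish {S : ℂ → ℂ} (hS : Cc S) (c : ℂ) :
    ∃ R : ℝ, R < 1 ∧ ∀ z ∈ D, R ≤ ‖z‖ → wd c S z = 0 := by
  obtain ⟨-, R, hR, h0⟩ := hS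
  refine ⟨(R + 1) / 2, by linarith, fun z hz hz' => ?_⟩
  have : {w : ℂ | R < ‖w‖} ∈ 𝓝 z :=
    (isOpen_lt continuous_const continuous_norm).mem_nhds (by show R < ‖z‖; linarith)
  rw [wd_congr c (g' := fun _ => 0), wd_const]
  filter_upwards [this, D_nhds hz] with w hw hwD using h0 w hwD (le_of_lt hw)

theorem Cc.integrableOn_mul_wd {S A : ℂ → ℂ} (hS : Cc S) (hA : ContinuousOn A D) (c : ℂ) :
    IntegrableOn (fun z => A z * wd c S z) D := by
  obtain ⟨R, hR, h0⟩ := hS.wd_vanish c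
  have hc : ContinuousOn (fun z => A z * wd c S z) D := hA.mul (contOn_wd c hS.1)
  obtain ⟨M, hM⟩ := bdd_of_vanish hc hR fun z hz hz' => by rw [h0 z hz hz', mul_zero]
  exact integrableOn_of_bdd hc hM

/-- Integration by parts against a compactly supported function. -/
theorem ibp (c : ℂ) {A S : ℂ → ℂ} (hA : ContDiffOn ℝ 1 A D) (hS : Cc S) :
    ∫ z in D, (A z * wd c S z + wd c A z * S z) = 0 := by
  rw [← (hS.mul_left hA).integral_wd c]
  refine setIntegral_congr_fun measurableSet_D fun z hz => ?_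
  rw [wd_mul c (diffAt_of_C1 hA hz) (diffAt_of_C1 hS.1 hz)]
  ring

/-! ### Cut-off functions -/

/-- Cut-off: `1` on `1 - |z|² ≥ 2/(k+1)`, `0` on `1 - |z|² ≤ 1/(k+1)`. -/
noncomputable def eta (k : ℕ) (z : ℂ) : ℝ :=
  Real.smoothTransition ((k + 1) * (1 - ‖z‖ ^ 2) - 1)

theorem eta_nonneg (k : ℕ) (z : ℂ) : 0 ≤ eta k z := Real.smoothTransition.nonneg _

theorem eta_le_one (k : ℕ) (z : ℂ) : eta k z ≤ 1 := Real.smoothTransition.le_one _

theorem contDiff_eta (k : ℕ) {n : ℕ∞} : ContDiff ℝ n (eta k) := by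
  unfold eta
  exact Real.smoothTransition.contDiff.comp
    ((contDiff_const.mul (contDiff_const.sub (contDiff_norm_sq ℝ))).sub contDiff_const)

theorem continuous_eta (k : ℕ) : Continuous (eta k) := (contDiff_eta k (n := 0)).continuous

theorem eta_vanish (k : ℕ) : ∃ R : ℝ, R < 1 ∧ ∀ z : ℂ, R ≤ ‖z‖ → eta k z = 0 := by
  have hk : (0 : ℝ) < k + 1 := by positivity
  have h1 : (0 : ℝ) < 1 / (k + 1) := by positivity
  have h2 : 1 / ((k : ℝ) + 1) ≤ 1 := by
    rw [div_le_one hk]; linarith [(Nat.cast_nonneg k : (0 : ℝ) ≤ k)]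
  refine ⟨1 - 1 / (k + 1) / 2, by linarith, fun z hz => ?_⟩
  apply Real.smoothTransition.zero_of_nonpos
  have h3 : (1 - 1 / ((k : ℝ) + 1) / 2) ^ 2 ≤ ‖z‖ ^ 2 := by
    apply pow_le_pow_left₀ (by linarith) hz
  have h4 : 1 - ‖z‖ ^ 2 ≤ 1 / (k + 1) := by nlinarith
  have h5 : ((k : ℝ) + 1) * (1 - ‖z‖ ^ 2) ≤ (k + 1) * (1 / (k + 1)) :=
    mul_le_mul_of_nonneg_left h4 hk.le
  rw [mul_one_div_cancel hk.ne'] at h5
  linarith

theorem eta_eventually_one {z : ℂ} (hz : z ∈ D) :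
    ∀ᶠ k in atTop, eta k =ᶠ[𝓝 z] fun _ => 1 := by
  have hz1 : ‖z‖ < 1 := mem_D.1 hz
  set r := (‖z‖ + 1) / 2 with hr
  have hr1 : r < 1 := by linarith
  have hr0 : 0 ≤ r := by positivity
  have hδ : 0 < 1 - r ^ 2 := by nlinarith
  have hnb : {w : ℂ | ‖w‖ < r} ∈ 𝓝 z :=
    (isOpen_lt continuous_norm continuous_const).mem_nhds (by show ‖z‖ < r; linarith)
  have : ∀ᶠ k : ℕ in atTop, 2 / (1 - r ^ 2) ≤ (k : ℝ) :=
    tendsto_natCast_atTop_atTop.eventually_ge_atTop _
  filter_upwards [this] with k hk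
  filter_upwards [hnb] with w hw
  apply Real.smoothTransition.one_of_one_le
  have h1 : ‖w‖ ^ 2 ≤ r ^ 2 := pow_le_pow_left₀ (norm_nonneg _) (le_of_lt hw) 2
  rw [div_le_iff₀ hδ] at hk
  have hk0 : (0 : ℝ) ≤ k := Nat.cast_nonneg k
  nlinarith

theorem eta_tendsto {z : ℂ} (hz : z ∈ D) : ∀ᶠ k in atTop, eta k z = 1 := by
  filter_upwards [eta_eventually_one hz] with k hk using hk.self_of_nhds

theorem deriv_smoothTransition_bdd : ∃ M : ℝ, 0 ≤ M ∧ ∀ s, |deriv Real.smoothTransition s| ≤ M ∧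
    (1 < s → deriv Real.smoothTransition s = 0) := by
  have hc : Continuous (deriv Real.smoothTransition) :=
    (Real.smoothTransition.contDiff (n := 1)).continuous_deriv le_rfl
  have h1 : ∀ s, 1 < s → deriv Real.smoothTransition s = 0 := fun s hs => by
    have : Real.smoothTransition =ᶠ[𝓝 s] fun _ => 1 := by
      filter_upwards [lt_mem_nhds hs] with t ht using Real.smoothTransition.one_of_one_le ht.le
    rw [this.deriv_eq]; simp
  have h0 : ∀ s, s < 0 → deriv Real.smoothTransition s = 0 := fun s hs => by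
    have : Real.smoothTransition =ᶠ[𝓝 s] fun _ => 0 := by
      filter_upwards [gt_mem_nhds hs] with t ht using Real.smoothTransition.zero_of_nonpos ht.le
    rw [this.deriv_eq]; simp
  obtain ⟨M, hM⟩ := (isCompact_Icc (a := (0 : ℝ)) (b := 1)).exists_bound_of_continuousOn
    hc.continuousOn
  refine ⟨max M 0, le_max_right _ _, fun s => ⟨?_, h1 s⟩⟩
  by_cases hs : s ∈ Icc (0 : ℝ) 1
  · exact (hM s hs).trans (le_max_left _ _)
  · rcases lt_or_ge s 0 with h | h
    · rw [h0 s h, abs_zero]; exact le_max_right _ _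
    · rw [h1 s (by by_contra h'; exact hs ⟨h, not_lt.1 h'⟩), abs_zero]; exact le_max_right _ _

theorem eta_fderiv_bdd : ∃ M : ℝ, 0 ≤ M ∧ ∀ k : ℕ, ∀ z ∈ D,
    ‖fderiv ℝ (eta k) z‖ * (1 - ‖z‖) ≤ M := by
  obtain ⟨M, hM0, hM⟩ := deriv_smoothTransition_bdd
  refine ⟨4 * M, by positivity, fun k z hz => ?_⟩
  have hz1 : ‖z‖ < 1 := mem_D.1 hz
  have hk : (0 : ℝ) < k + 1 := by positivity
  set s := ((k : ℝ) + 1) * (1 - ‖z‖ ^ 2) - 1 with hs
  have hin : HasFDerivAt (fun w : ℂ => ((k : ℝ) + 1) * (1 - ‖w‖ ^ 2) - 1)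
      (((k : ℝ) + 1) • (-((2 : ℕ) • (innerSL ℝ z : ℂ →L[ℝ] ℝ)) : ℂ →L[ℝ] ℝ)) z := by
    have h := (hasStrictFDerivAt_norm_sq z).hasFDerivAt
    exact ((h.const_sub 1).const_mul ((k : ℝ) + 1)).sub_const 1
  have hout : HasDerivAt Real.smoothTransition (deriv Real.smoothTransition s) s :=
    ((Real.smoothTransition.contDiff (n := 1)).differentiable one_ne_zero s).hasDerivAt
  have hcomp : HasFDerivAt (eta k)
      (deriv Real.smoothTransition s • (((k : ℝ) + 1) • (-((2 : ℕ) • (innerSL ℝ z : ℂ →L[ℝ] ℝ)) : ℂ →L[ℝ] ℝ))) z :=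
    hout.comp_hasFDerivAt z hin
  rw [hcomp.fderiv]
  by_cases h1 : 1 < s
  · rw [(hM s).2 h1]; simp; positivity
  · have h2 : ‖((2 : ℕ) • (innerSL ℝ z : ℂ →L[ℝ] ℝ) : ℂ →L[ℝ] ℝ)‖ ≤ 2 := by
      rw [two_smul]
      refine (norm_add_le _ _).trans ?_
      rw [innerSL_apply_norm]; linarith
    rw [norm_smul, norm_smul, norm_neg, Real.norm_eq_abs, Real.norm_eq_abs, abs_of_pos hk]
    have h3 : ((k : ℝ) + 1) * (1 - ‖z‖) ≤ 2 := by
      have : 1 - ‖z‖ ≤ 1 - ‖z‖ ^ 2 := by nlinarith [norm_nonneg z]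
      have := mul_le_mul_of_nonneg_left this hk.le
      linarith [not_lt.1 h1]
    have h4 := (hM s).1
    have h5 : 0 ≤ ((k : ℝ) + 1) * (1 - ‖z‖) := mul_nonneg hk.le (by linarith)
    calc |deriv Real.smoothTransition s| * ((k + 1) * ‖((2 : ℕ) • (innerSL ℝ z : ℂ →L[ℝ] ℝ) : ℂ →L[ℝ] ℝ)‖) *
          (1 - ‖z‖)
        = |deriv Real.smoothTransition s| * (‖((2 : ℕ) • (innerSL ℝ z : ℂ →L[ℝ] ℝ) : ℂ →L[ℝ] ℝ)‖ *
          ((k + 1) * (1 - ‖z‖))) := by ring
      _ ≤ M * (2 * 2) := by gcongr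
      _ = 4 * M := by ring

theorem norm_wd_ofReal_le {c : ℂ} (hc : ‖c‖ ≤ 1) {φ : ℂ → ℝ} {z : ℂ}
    (hφ : DifferentiableAt ℝ φ z) : ‖wd c (fun z => (φ z : ℂ)) z‖ ≤ ‖fderiv ℝ φ z‖ := by
  rw [wd_ofReal c hφ, norm_div]
  have h1 := (fderiv ℝ φ z).le_opNorm 1
  have h2 := (fderiv ℝ φ z).le_opNorm I
  have h3 := norm_add_le ((fderiv ℝ φ z 1 : ℝ) : ℂ) (c * (fderiv ℝ φ z I : ℝ))
  rw [norm_mul, norm_real, norm_real] at h3
  simp only [norm_one, mul_one, norm_I] at h1 h2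
  have h4 : ‖c‖ * ‖fderiv ℝ φ z I‖ ≤ 1 * ‖fderiv ℝ φ z‖ :=
    mul_le_mul hc h2 (norm_nonneg _) zero_le_one
  simp only [Complex.norm_ofNat]
  linarith

theorem cc_eta_mul (k : ℕ) {S : ℂ → ℂ} (hS : ContDiffOn ℝ 1 S D) :
    Cc fun z => (eta k z : ℂ) * S z := by
  obtain ⟨R, hR, h0⟩ := eta_vanish k
  exact ⟨(contDiffOn_ofReal (contDiff_eta k (n := 1)).contDiffOn).mul hS, R, hR,
    fun z _ hz => by simp [h0 z hz]⟩

theorem Zc.bdd {S : ℂ → ℂ} (hS : Zc S) {c : ℂ} (hc : ‖c‖ ≤ 1) :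
    ∃ C : ℝ, ∀ z ∈ D, ‖wd c S z‖ ≤ C ∧ ‖S z‖ ≤ C := by
  obtain ⟨-, C, hC⟩ := hS
  have hC0 : 0 ≤ C := (norm_nonneg _).trans (hC 0 (by simp)).1
  refine ⟨C, fun z hz => ⟨(norm_wd_le hc S z).trans (hC z hz).1, (hC z hz).2.trans ?_⟩⟩
  nlinarith [norm_nonneg z]

/-- A weak identity valid for compactly supported test functions extends to test functions
vanishing linearly at the circle. -/
theorem extend_weak {c : ℂ} (hc : ‖c‖ ≤ 1) {A B : ℂ → ℂ} (hA : IntegrableOn A D)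
    (hB : IntegrableOn B D)
    (h : ∀ S, Cc S → ∫ z in D, (A z * wd c S z + B z * S z) = 0) {S : ℂ → ℂ} (hS : Zc S) :
    ∫ z in D, (A z * wd c S z + B z * S z) = 0 := by
  obtain ⟨M, hM0, hM⟩ := eta_fderiv_bdd
  obtain ⟨hS1, C, hC⟩ := hS
  have hC0 : 0 ≤ C := (norm_nonneg _).trans (hC 0 (by simp)).1
  have hde : ∀ k z, DifferentiableAt ℝ (eta k) z := fun k z =>
    (contDiff_eta k (n := 1)).differentiable one_ne_zero z
  have hlim := tendsto_integral_of_dominated_convergence (μ := volume.restrict D)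
    (F := fun k z => A z * wd c (fun w => (eta k w : ℂ) * S w) z + B z * ((eta k z : ℂ) * S z))
    (f := fun z => A z * wd c S z + B z * S z)
    (fun z => ‖A z‖ * (M * C + C) + ‖B z‖ * C)
    (fun k => (hA.1.mul ((contOn_wd c (cc_eta_mul k hS1).1).aestronglyMeasurable
      measurableSet_D)).add (hB.1.mul
        ((cc_eta_mul k hS1).1.continuousOn.aestronglyMeasurable measurableSet_D)))
    ((hA.norm.mul_const _).add (hB.norm.mul_const _))
    (fun k => (ae_restrict_iff' measurableSet_D).2 (Eventually.of_forall fun z hz => by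
      have hz1 : ‖z‖ < 1 := mem_D.1 hz
      rw [wd_mul c (diffAt_ofReal (hde k z)) (diffAt_of_C1 hS1 hz)]
      have e1 : ‖(eta k z : ℂ)‖ ≤ 1 := by
        rw [norm_real, Real.norm_eq_abs, abs_of_nonneg (eta_nonneg k z)]; exact eta_le_one k z
      have e2 : ‖wd c S z‖ ≤ C := (norm_wd_le hc S z).trans (hC z hz).1
      have e3 : ‖wd c (fun w => (eta k w : ℂ)) z * S z‖ ≤ M * C := by
        rw [norm_mul]
        calc _ ≤ ‖fderiv ℝ (eta k) z‖ * (C * (1 - ‖z‖)) :=
              mul_le_mul (norm_wd_ofReal_le hc (hde k z)) (hC z hz).2 (norm_nonneg _)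
                (norm_nonneg _)
          _ = ‖fderiv ℝ (eta k) z‖ * (1 - ‖z‖) * C := by ring
          _ ≤ M * C := mul_le_mul_of_nonneg_right (hM k z hz) hC0
      have e4 : ‖(eta k z : ℂ) * wd c S z‖ ≤ C := by
        rw [norm_mul]
        calc _ ≤ 1 * C := mul_le_mul e1 e2 (norm_nonneg _) zero_le_one
          _ = C := one_mul C
      have e5 : ‖(eta k z : ℂ) * S z‖ ≤ C := by
        rw [norm_mul]
        have : ‖S z‖ ≤ C := (hC z hz).2.trans (by nlinarith [norm_nonneg z])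
        calc _ ≤ 1 * C := mul_le_mul e1 this (norm_nonneg _) zero_le_one
          _ = C := one_mul C
      refine (norm_add_le _ _).trans (add_le_add ?_ ?_)
      · rw [norm_mul]
        exact mul_le_mul_of_nonneg_left ((norm_add_le _ _).trans (add_le_add e3 e4))
          (norm_nonneg _)
      · rw [norm_mul]
        exact mul_le_mul_of_nonneg_left e5 (norm_nonneg _)))
    ((ae_restrict_iff' measurableSet_D).2 (Eventually.of_forall fun z hz => by
      refine tendsto_const_nhds.congr' ?_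
      filter_upwards [eta_eventually_one hz] with k hk
      have : (fun w => (eta k w : ℂ) * S w) =ᶠ[𝓝 z] S := by
        filter_upwards [hk] with w hw
        rw [hw]; simp
      rw [wd_congr c this, hk.self_of_nhds]
      simp))
  have h0 : (fun k => ∫ z in D, (A z * wd c (fun w => (eta k w : ℂ) * S w) z +
      B z * ((eta k z : ℂ) * S z))) = fun _ => 0 := funext fun k => h _ (cc_eta_mul k hS1)
  rw [h0] at hlim
  exact tendsto_nhds_unique hlim tendsto_const_nhds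

/-- Integration by parts against a function vanishing linearly at the circle. -/
theorem ibp_Zc {c : ℂ} (hc : ‖c‖ ≤ 1) {A S : ℂ → ℂ} (hA : ContDiffOn ℝ 1 A D)
    (hAi : IntegrableOn A D) (hAi' : IntegrableOn (wd c A) D) (hS : Zc S) :
    ∫ z in D, (A z * wd c S z + wd c A z * S z) = 0 :=
  extend_weak hc hAi hAi' (fun _ hT => ibp c hA hT) hS

theorem bdd_of_contDiff {T : ℂ → ℂ} (hT : ContDiff ℝ 1 T) :
    ∃ C : ℝ, 0 ≤ C ∧ ∀ z, ‖z‖ ≤ 1 → ‖fderiv ℝ T z‖ ≤ C ∧ ‖T z‖ ≤ C := by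
  obtain ⟨C1, h1⟩ := (isCompact_closedBall (0 : ℂ) 1).exists_bound_of_continuousOn
    (hT.continuous_fderiv one_ne_zero).continuousOn
  obtain ⟨C2, h2⟩ := (isCompact_closedBall (0 : ℂ) 1).exists_bound_of_continuousOn
    hT.continuous.continuousOn
  refine ⟨max (max C1 C2) 0, le_max_right _ _, fun z hz => ⟨?_, ?_⟩⟩
  · exact (h1 z (by simpa using hz)).trans ((le_max_left _ _).trans (le_max_left _ _))
  · exact (h2 z (by simpa using hz)).trans ((le_max_right _ _).trans (le_max_left _ _))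

theorem Zc.mul_left {S T : ℂ → ℂ} (hS : Zc S) (hT : ContDiff ℝ 1 T) :
    Zc fun z => T z * S z := by
  obtain ⟨hS1, C, hC⟩ := hS
  obtain ⟨K, hK0, hK⟩ := bdd_of_contDiff hT
  have hC0 : 0 ≤ C := (norm_nonneg _).trans (hC 0 (by simp)).1
  refine ⟨hT.contDiffOn.mul hS1, 2 * K * C, fun z hz => ?_⟩
  have hz1 : ‖z‖ < 1 := mem_D.1 hz
  have hSz : ‖S z‖ ≤ C := (hC z hz).2.trans (by nlinarith [norm_nonneg z])
  constructor
  · rw [((hT.differentiable one_ne_zero z).hasFDerivAt.fun_mul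
      (diffAt_of_C1 hS1 hz).hasFDerivAt).fderiv]
    refine (norm_add_le _ _).trans ?_
    rw [norm_smul, norm_smul]
    have e1 := mul_le_mul (hK z hz1.le).2 (hC z hz).1 (norm_nonneg _) hK0
    have e2 := mul_le_mul hSz (hK z hz1.le).1 (norm_nonneg _) hC0
    linarith
  · rw [norm_mul]
    have e1 := mul_le_mul (hK z hz1.le).2 (hC z hz).2 (norm_nonneg _) hK0
    have : 0 ≤ K * (C * (1 - ‖z‖)) := by
      have : 0 ≤ 1 - ‖z‖ := by linarith
      positivity
    nlinarith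

theorem Zc.conj {S : ℂ → ℂ} (hS : Zc S) : Zc fun z => conj (S z) := by
  obtain ⟨hS1, C, hC⟩ := hS
  refine ⟨contDiffOn_conj hS1, C, fun z hz => ⟨?_, by simpa using (hC z hz).2⟩⟩
  refine le_trans (ContinuousLinearMap.opNorm_le_bound _ (norm_nonneg _) fun w => ?_) (hC z hz).1
  rw [fderiv_conj, RCLike.norm_conj]
  exact ContinuousLinearMap.le_opNorm _ _

/-- A global `C¹` function that vanishes on the circle vanishes there linearly. -/
theorem zc_of_contDiff {S : ℂ → ℂ} (hS : ContDiff ℝ 1 S) (h0 : ∀ z, ‖z‖ = 1 → S z = 0) :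
    Zc S := by
  obtain ⟨C, hC0, hC⟩ := bdd_of_contDiff hS
  refine ⟨hS.contDiffOn, C, fun z hz => ⟨(hC z (mem_D.1 hz).le).1, ?_⟩⟩
  have hz1 : ‖z‖ < 1 := mem_D.1 hz
  obtain ⟨w, hw1, hw⟩ : ∃ w : ℂ, ‖w‖ = 1 ∧ ‖z - w‖ = 1 - ‖z‖ := by
    by_cases h : z = 0
    · exact ⟨1, by simp, by simp [h]⟩
    · have hz0 : 0 < ‖z‖ := norm_pos_iff.2 h
      refine ⟨(‖z‖⁻¹ : ℝ) • z, ?_, ?_⟩
      · rw [norm_smul, Real.norm_eq_abs, abs_of_pos (inv_pos.2 hz0), inv_mul_cancel₀ hz0.ne']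
      · have : z - (‖z‖⁻¹ : ℝ) • z = (1 - ‖z‖⁻¹ : ℝ) • z := by rw [sub_smul, one_smul]
        rw [this, norm_smul, Real.norm_eq_abs, abs_of_nonpos]
        · field_simp
          ring
        · have := (one_le_inv₀ hz0).2 hz1.le
          linarith
  have := (convex_closedBall (0 : ℂ) 1).norm_image_sub_le_of_norm_fderiv_le (𝕜 := ℝ) (f := S)
    (C := C) (fun x _ => hS.differentiable one_ne_zero x)
    (fun x hx => (hC x (by simpa using hx)).1) (x := w) (y := z) (by simp [hw1])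
    (by simpa using hz1.le)
  rwa [h0 w hw1, sub_zero, hw] at this

end Crest.Agent.R101
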