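import Crest.Agent.R101.Defs

open MeasureTheory Complex Metric Set Filter Topology
open scoped Real ComplexConjugate Convolution

namespace Crest.Agent.R101

/-- Directional derivative of a mollification. -/
theorem weyl_fderiv_conv (b : ℂ → ℝ) (hb : ContDiff ℝ 1 b) (hbc : HasCompactSupport b)
    (g : ℂ → ℂ) (hg : LocallyIntegrable g) (x v : ℂ) :
    fderiv ℝ (b ⋆[ContinuousLinearMap.lsmul ℝ ℝ, volume] g) x v
      = ∫ t, (fderiv ℝ b (x - t) v) • g t := by
  have h1 := (hbc.hasFDerivAt_convolution_left (ContinuousLinearMap.lsmul ℝ ℝ) hb hg x).fderiv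
  rw [h1, convolution_eq_swap]
  have hex : ConvolutionExistsAt (fderiv ℝ b) g x
      ((ContinuousLinearMap.lsmul ℝ ℝ : ℝ →L[ℝ] ℂ →L[ℝ] ℂ).precompL ℂ) volume :=
    (hbc.fderiv ℝ).convolutionExists_left _ (hb.continuous_fderiv one_ne_zero) hg x
  rw [ContinuousLinearMap.integral_apply hex.integrable_swap]
  rfl

theorem weyl_integrable (b : ℂ → ℝ) (hb : ContDiff ℝ 1 b) (hbc : HasCompactSupport b)
    (g : ℂ → ℂ) (hg : LocallyIntegrable g) (x v : ℂ) :
    Integrable (fun t => (fderiv ℝ b (x - t) v) • g t) := by
  have hc : Continuous fun y => fderiv ℝ b y v :=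
    (hb.continuous_fderiv one_ne_zero).clm_apply continuous_const
  have hs : HasCompactSupport fun y => fderiv ℝ b y v := hbc.fderiv_apply ℝ v
  have hex : ConvolutionExistsAt (fun y => fderiv ℝ b y v) g x
      (ContinuousLinearMap.lsmul ℝ ℝ : ℝ →L[ℝ] ℂ →L[ℝ] ℂ) volume :=
    hs.convolutionExists_left _ hc hg x
  exact hex.integrable_swap

theorem weyl_fderiv_test (b : ℂ → ℝ) (hb : ContDiff ℝ 1 b) (x y v : ℂ) :
    fderiv ℝ (fun y : ℂ => ((b (x - y) : ℝ) : ℂ)) y v = -((fderiv ℝ b (x - y) v : ℝ) : ℂ) := by
  have h1 : HasFDerivAt b (fderiv ℝ b (x - y)) (x - y) :=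
    (hb.differentiable one_ne_zero (x - y)).hasFDerivAt
  have h2 : HasFDerivAt (fun y : ℂ => x - y) (-(ContinuousLinearMap.id ℝ ℂ)) y := by
    simpa using (hasFDerivAt_id y).const_sub x
  have h3 := (ofRealCLM.hasFDerivAt (x := b (x - y))).comp y (h1.comp y h2)
  have h4 : HasFDerivAt (fun y : ℂ => ((b (x - y) : ℝ) : ℂ))
      (ofRealCLM.comp ((fderiv ℝ b (x - y)).comp (-(ContinuousLinearMap.id ℝ ℂ)))) y := h3
  rw [h4.fderiv]
  simp

theorem weyl (H : ℂ → ℂ) (hc : ContinuousOn H D)
    (h : ∀ S : ℂ → ℂ, Sc S → ∫ z in D, H z * wd I S z = 0) : DifferentiableOn ℂ H D := by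
  intro z0 hz0
  have hz0' : ‖z0‖ < 1 := by simpa using hz0
  set r : ℝ := (1 - ‖z0‖) / 4 with hr
  have hr0 : 0 < r := by rw [hr]; linarith
  have hsub : closedBall z0 (3 * r) ⊆ D := by
    intro y hy
    have h1 : ‖y - z0‖ ≤ 3 * r := by simpa [dist_eq_norm] using hy
    have h2 : ‖y‖ ≤ ‖y - z0‖ + ‖z0‖ := by simpa using norm_add_le (y - z0) z0
    simp only [mem_ball, dist_zero_right]
    rw [hr] at h1; linarith
  set K : Set ℂ := closedBall z0 (3 * r) with hK
  have hKc : IsCompact K := isCompact_closedBall _ _
  have hHK : ContinuousOn H K := hc.mono hsub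
  set g : ℂ → ℂ := K.indicator H with hg
  have hgi : Integrable g := by
    rw [hg, integrable_indicator_iff measurableSet_closedBall]
    exact hHK.integrableOn_compact hKc
  -- bumps
  let φ : ℕ → ContDiffBump (0 : ℂ) := fun n =>
    ⟨r / (2 * ((n : ℝ) + 1)), r / ((n : ℝ) + 1), by positivity, by
      have : (0 : ℝ) < (n : ℝ) + 1 := by positivity
      rw [div_lt_div_iff₀ (by positivity) this]; nlinarith⟩
  have hφr : ∀ n, (φ n).rOut ≤ r := by
    intro n
    show r / ((n : ℝ) + 1) ≤ r
    have : (1 : ℝ) ≤ (n : ℝ) + 1 := by have := Nat.cast_nonneg (α := ℝ) n; linarith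
    exact div_le_self hr0.le this
  let F : ℕ → ℂ → ℂ := fun n =>
    (φ n).normed volume ⋆[ContinuousLinearMap.lsmul ℝ ℝ, volume] g
  have hF : ∀ n, DifferentiableOn ℂ (F n) (ball z0 r) := by
    intro n x hx
    apply DifferentiableAt.differentiableWithinAt
    have hb : ContDiff ℝ 1 ((φ n).normed volume) := (φ n).contDiff_normed
    have hb2 : ContDiff ℝ 2 ((φ n).normed volume) := (φ n).contDiff_normed
    have hbc : HasCompactSupport ((φ n).normed volume) := (φ n).hasCompactSupport_normed
    have hx' : ‖x - z0‖ < r := by simpa [dist_eq_norm] using hx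
    rw [differentiableAt_complex_iff_differentiableAt_real]
    refine ⟨(hbc.hasFDerivAt_convolution_left (ContinuousLinearMap.lsmul ℝ ℝ) hb
      hgi.locallyIntegrable x).differentiableAt, ?_⟩
    have e1 := weyl_fderiv_conv _ hb hbc g hgi.locallyIntegrable x 1
    have eI := weyl_fderiv_conv _ hb hbc g hgi.locallyIntegrable x I
    have i1 := weyl_integrable _ hb hbc g hgi.locallyIntegrable x 1
    have iI := weyl_integrable _ hb hbc g hgi.locallyIntegrable x I
    set b := (φ n).normed volume with hbdef
    have hS : Sc (fun y : ℂ => ((b (x - y) : ℝ) : ℂ)) := by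
      refine ⟨?_, ‖z0‖ + 3 * r, by rw [hr]; linarith, ?_⟩
      · exact ofRealCLM.contDiff.comp (hb2.comp (contDiff_const.sub contDiff_id))
      · intro y hy
        have h2 : ‖y‖ ≤ ‖x - y‖ + ‖x - z0‖ + ‖z0‖ := by
          have := norm_add₃_le (a := -(x - y)) (b := x - z0) (c := z0)
          rw [norm_neg] at this
          simpa using this
        have : x - y ∉ Function.support b := by
          rw [hbdef, (φ n).support_normed_eq]
          simp only [mem_ball, dist_zero_right, not_lt]
          have := hφr n
          linarith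
        simp only [Function.mem_support, not_not] at this
        simp [this]
    have h0 := h _ hS
    have hpt : ∀ t, D.indicator (fun z => H z * wd I (fun y : ℂ => ((b (x - y) : ℝ) : ℂ)) z) t
        = -(1 / 2 : ℂ) * ((fderiv ℝ b (x - t) 1) • g t + I * ((fderiv ℝ b (x - t) I) • g t)) := by
      intro t
      by_cases ht : t ∈ K
      · rw [indicator_of_mem (hsub ht), hg, indicator_of_mem ht, wd, weyl_fderiv_test b hb,
          weyl_fderiv_test b hb]
        simp only [real_smul]
        ring
      · have hz : fderiv ℝ b (x - t) = 0 := by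
          by_contra hne
          have hm : x - t ∈ tsupport b := support_fderiv_subset ℝ hne
          rw [hbdef, (φ n).tsupport_normed_eq] at hm
          have h1 : ‖x - t‖ ≤ r := by
            have := hφr n
            simp only [mem_closedBall, dist_zero_right] at hm
            linarith
          apply ht
          have h2 : ‖t - z0‖ ≤ ‖x - t‖ + ‖x - z0‖ := by
            have := norm_add_le (-(x - t)) (x - z0)
            rw [norm_neg] at this
            simpa using this
          simp only [hK, mem_closedBall, dist_eq_norm]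
          linarith
        rw [hg, indicator_of_notMem ht]
        by_cases htD : t ∈ D
        · rw [indicator_of_mem htD, wd, weyl_fderiv_test b hb, weyl_fderiv_test b hb, hz]
          simp
        · rw [indicator_of_notMem htD]
          simp
    rw [← integral_indicator measurableSet_ball] at h0
    simp_rw [hpt] at h0
    rw [integral_const_mul, integral_add i1 (iI.const_mul I), integral_const_mul, ← e1, ← eI] at h0
    have h1 : fderiv ℝ (F n) x 1 + I * fderiv ℝ (F n) x I = 0 := by
      have := mul_eq_zero.1 h0
      rcases this with h | h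
      · norm_num at h
      · exact h
    rw [smul_eq_mul]
    have hI : I * I = -1 := I_mul_I
    linear_combination (-I) * h1 + (fderiv ℝ (F n) x I) * hI
  have hlim : TendstoUniformlyOn F H atTop (ball z0 r) := by
    rw [Metric.tendstoUniformlyOn_iff]
    intro ε hε
    obtain ⟨δ, hδ, hu⟩ := Metric.uniformContinuousOn_iff.1
      (hKc.uniformContinuousOn_of_continuous hHK) (ε / 2) (by positivity)
    have ht : Tendsto (fun n : ℕ => r / ((n : ℝ) + 1)) atTop (𝓝 0) := by
      have := tendsto_one_div_add_atTop_nhds_zero_nat (𝕜 := ℝ).const_mul r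
      simpa [div_eq_mul_inv] using this
    filter_upwards [ht.eventually (gt_mem_nhds hδ)] with n hn x hx
    have hxK : x ∈ K := (ball_subset_closedBall.trans
      (closedBall_subset_closedBall (by linarith))) hx
    have hd := (φ n).dist_normed_convolution_le (μ := volume) (x₀ := x) (ε := ε / 2)
      hgi.aestronglyMeasurable (by
        intro y hy
        have hyK : y ∈ K := by
          have h1 : dist y x < r := lt_of_lt_of_le hy (hφr n)
          have h2 : dist x z0 < r := hx
          have := dist_triangle y x z0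
          simp only [hK, mem_closedBall]
          linarith
        rw [hg, indicator_of_mem hyK, indicator_of_mem hxK]
        exact (hu y hyK x hxK (lt_trans hy hn)).le)
    have hgx : g x = H x := by rw [hg, indicator_of_mem hxK]
    rw [hgx] at hd
    rw [dist_comm]
    exact lt_of_le_of_lt hd (by linarith)
  have hd := hlim.tendstoLocallyUniformlyOn.differentiableOn (Eventually.of_forall hF) isOpen_ball
  exact (hd.differentiableAt (ball_mem_nhds z0 hr0)).differentiableWithinAt

end Crest.Agent.R101
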