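import Crest.Agent.R101.Weighted
import Crest.Agent.R101.Weyl

/-! The gradient field of the eigenfunction and its harmonic decomposition. -/

open MeasureTheory Complex Metric Set Filter Topology
open scoped Real ComplexConjugate

namespace Crest.Agent.R101

namespace Data

variable (d : Data)

/-- `∂U`. -/
noncomputable def P (z : ℂ) : ℂ := wd (-I) (fun w => (d.U w : ℂ)) z

/-- The gradient field. -/
noncomputable def v (z : ℂ) : ℂ := d.P z / deriv d.f z

/-- `∂̄ v`. -/
noncomputable def n (z : ℂ) : ℂ := -(d.μ / 4 : ℂ) * conj (deriv d.f z) * d.U z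

/-- `-Δ v`. -/
noncomputable def src (z : ℂ) : ℂ := d.μ * conj (deriv d.f z) * d.P z

theorem UC1 : ContDiffOn ℝ 1 (fun w => (d.U w : ℂ)) D := contDiffOn_ofReal d.hU

theorem contOn_P : ContinuousOn d.P D := contOn_wd _ d.UC1

theorem contOn_conj_f' : ContinuousOn (fun z => conj (deriv d.f z)) D :=
  continuous_conj.comp_continuousOn' d.contOn_f'

theorem contOn_n : ContinuousOn d.n D :=
  (continuousOn_const.mul d.contOn_conj_f').mul d.UC1.continuousOn

theorem contOn_src : ContinuousOn d.src D :=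
  (continuousOn_const.mul d.contOn_conj_f').mul d.contOn_P

theorem f'_mul_v {z : ℂ} (hz : z ∈ D) : deriv d.f z * d.v z = d.P z := by
  have := d.hf' z hz
  rw [v]; field_simp

theorem normSq_P {z : ℂ} (hz : z ∈ D) : ‖d.P z‖ ^ 2 = gsq d.U z / 4 := by
  rw [← normSq_wd_negI_ofReal (diffAt_of_C1 d.hU hz), P]; ring

theorem int_P2 : IntegrableOn (fun z => ‖d.P z‖ ^ 2) D :=
  IntegrableOn.congr_fun (d.hUg.div_const 4) (fun _ hz => (d.normSq_P hz).symm) measurableSet_D

theorem int_P : IntegrableOn d.P D :=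
  int_of_sq (d.contOn_P.aestronglyMeasurable measurableSet_D) d.int_P2

theorem integral_P2 : ∫ z in D, ‖d.P z‖ ^ 2 = (∫ z in D, gsq d.U z) / 4 := by
  rw [← integral_div]
  exact setIntegral_congr_fun measurableSet_D fun _ hz => d.normSq_P hz

theorem normSq_src {z : ℂ} (hz : z ∈ D) : ‖d.src z‖ ^ 2 / d.ρ z = d.μ ^ 2 * ‖d.P z‖ ^ 2 := by
  have := (d.ρ_pos hz).ne'
  rw [src, norm_mul, norm_mul, RCLike.norm_conj, norm_real, mul_pow, mul_pow, Real.norm_eq_abs,
    sq_abs, ← ρ]
  field_simp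

theorem SS_src : d.SS d.src :=
  ⟨d.contOn_src, IntegrableOn.congr_fun (d.int_P2.const_mul (d.μ ^ 2))
    (fun _ hz => (d.normSq_src hz).symm) measurableSet_D⟩

theorem normSq_n (z : ℂ) : ‖d.n z‖ ^ 2 = d.μ ^ 2 / 16 * (d.ρ z * d.U z ^ 2) := by
  rw [n, norm_mul, norm_mul, RCLike.norm_conj, norm_real, mul_pow, mul_pow, Real.norm_eq_abs,
    sq_abs, ← ρ, norm_neg, norm_div, norm_real, div_pow, Real.norm_eq_abs, sq_abs]
  simp only [Complex.norm_ofNat]
  ring

theorem int_n2 : IntegrableOn (fun z => ‖d.n z‖ ^ 2) D := by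
  simp only [normSq_n]
  exact d.hU2.const_mul _

theorem integral_n2 : 4 * ∫ z in D, ‖d.n z‖ ^ 2 = d.μ * ∫ z in D, ‖d.P z‖ ^ 2 := by
  simp only [normSq_n]
  rw [integral_const_mul, integral_P2, d.hE]
  simp only [ρ]
  ring

theorem f'_mul_n (z : ℂ) :
    deriv d.f z * d.n z = ((-(d.μ / 4) * (d.ρ z * d.U z) : ℝ) : ℂ) := by
  rw [n]; push_cast; rw [← d.mul_conj_f' z]; ring

theorem int_f'n : IntegrableOn (fun z => deriv d.f z * d.n z) D := by
  simp only [f'_mul_n]
  exact (d.H1_U.int_ell.const_mul _).ofReal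

theorem lam_real {φ : ℂ → ℝ} (hφ : ContDiff ℝ 1 φ) :
    (∫ z in D, (d.P z * wd I (fun w => (φ w : ℂ)) z + deriv d.f z * d.n z * φ z)).re = 0 := by
  have hH := H1_of_contDiff (d := d) hφ
  have hC := contDiff_ofReal' hφ
  obtain ⟨C, -, hb⟩ := bdd_wd_of_contDiff hC (c := I) (by simp)
  have i1 := integrableOn_mul_bdd d.int_P (contOn_wd I hC.contDiffOn) fun z hz => (hb z hz).1
  have i2 := integrableOn_mul_bdd d.int_f'n hC.continuous.continuousOn fun z hz => (hb z hz).2
  have h := weakU hH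
  rw [Q, ← integral_const_mul, ← integral_sub (d.H1_U.int_gdot hH)
    ((d.H1_U.int_mul hH).const_mul _)] at h
  rw [re_int (iadd i1 i2), ← mul_eq_zero_iff_left (a := 4) (by norm_num), ← integral_const_mul,
    ← h]
  refine setIntegral_congr_fun measurableSet_D fun z hz => ?_
  rw [← re_wd_mul_wd (diffAt_of_C1 d.hU hz) (diffAt_of_C1 hH.1 hz), add_re, f'_mul_n,
    ← ofReal_mul, ofReal_re, P]
  ring

theorem lam_split {T : ℂ → ℂ} (hT : ContDiff ℝ 1 T) :
    ∫ z in D, (d.P z * wd I T z + deriv d.f z * d.n z * T z) =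
      (∫ z in D, (d.P z * wd I (fun w => ((T w).re : ℂ)) z + deriv d.f z * d.n z * (T z).re)) +
      I * ∫ z in D, (d.P z * wd I (fun w => ((T w).im : ℂ)) z + deriv d.f z * d.n z * (T z).im) := by
  have key : ∀ S : ℂ → ℂ, ContDiff ℝ 1 S →
      IntegrableOn (fun z => d.P z * wd I S z + deriv d.f z * d.n z * S z) D := fun S hS => by
    obtain ⟨C, -, hb⟩ := bdd_wd_of_contDiff hS (c := I) (by simp)
    exact iadd (integrableOn_mul_bdd d.int_P (contOn_wd I hS.contDiffOn) fun z hz => (hb z hz).1)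
      (integrableOn_mul_bdd d.int_f'n hS.continuous.continuousOn fun z hz => (hb z hz).2)
  rw [← integral_const_mul, ← integral_add (key _ (contDiff_ofReal' (contDiff_re' hT)))
    ((key _ (contDiff_ofReal' (contDiff_im' hT))).const_mul I)]
  congr 1
  ext z
  rw [wd_re_im I (hT.differentiable one_ne_zero z)]
  conv_lhs => rw [← re_add_im (T z)]
  ring

theorem lam_Sc_real {a : ℂ → ℝ} (ha : ContDiff ℝ 2 a) (hS : Sc fun w => (a w : ℂ)) :
    ∫ z in D, (d.P z * wd I (fun w => (a w : ℂ)) z + deriv d.f z * d.n z * a z) = 0 := by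
  apply Complex.ext
  · exact d.lam_real (ha.of_le (by norm_num))
  have i1 := hS.cc.integrableOn_mul_wd d.contOn_P I
  have i2 := hS.cc.integrableOn_mul (d.contOn_f'.fun_mul d.contOn_n)
  have h : (∫ z in D, ((d.U z : ℂ) * wd (-I) (wd I fun w => (a w : ℂ)) z +
      d.P z * wd I (fun w => (a w : ℂ)) z)).im = (0 : ℂ).im :=
    congrArg Complex.im (ibp (-I) d.UC1 (hS.cc_wd I))
  have j1 := (hS.cc_wd I).integrableOn_mul_wd d.UC1.continuousOn (-I)
  rw [im_int (iadd j1 i1)] at h
  rw [im_int (iadd i1 i2), ← h]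
  congr 1
  ext z
  rw [add_im, add_im, f'_mul_n, ← ofReal_mul, ofReal_im, im_ofReal_mul, lap_real ha]
  ring

theorem lam_Sc {T : ℂ → ℂ} (hT : Sc T) :
    ∫ z in D, (d.P z * wd I T z + deriv d.f z * d.n z * T z) = 0 := by
  obtain ⟨h2, R, hR, h0⟩ := hT
  rw [d.lam_split (h2.of_le (by norm_num)),
    d.lam_Sc_real (contDiff_re' h2) ⟨contDiff_ofReal' (contDiff_re' h2), R, hR,
      fun z hz => by simp [h0 z hz]⟩,
    d.lam_Sc_real (contDiff_im' h2) ⟨contDiff_ofReal' (contDiff_im' h2), R, hR,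
      fun z hz => by simp [h0 z hz]⟩]
  simp

theorem conj_f'_C1 : ContDiffOn ℝ 1 (fun z => conj (deriv d.f z)) D :=
  contDiffOn_conj (holo_C1 (holo_deriv d.hf))

theorem n_C1 : ContDiffOn ℝ 1 d.n D := (contDiffOn_const.mul d.conj_f'_C1).mul d.UC1

theorem wd_n {z : ℂ} (hz : z ∈ D) : wd (-I) d.n z = -(d.src z / 4) := by
  have h1 := diffAt_of_C1 d.conj_f'_C1 hz
  have : d.n = fun z => (-(d.μ / 4 : ℂ) * conj (deriv d.f z)) * d.U z := rfl
  rw [this, wd_mul _ (h1.const_mul _) (diffAt_of_C1 d.UC1 hz), wd_const_mul _ _ h1,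
    wd_negI_antiholo (holo_at (holo_deriv d.hf) hz), src, P]
  ring

theorem holo_minus :
    DifferentiableOn ℂ (fun z => conj (d.n z - wd I (pot d.src) z)) D := by
  have hΓ := contOn_wd I d.SS_src.adm.contDiffOn_pot
  refine weyl _ (continuous_conj.comp_continuousOn' (d.contOn_n.sub hΓ)) fun S hS => ?_
  have hc := hS.cc.conj
  have h1 := ibp (-I) d.n_C1 hc
  have h2 := d.SS_src.adm.poisson hc
  have i1 := hc.integrableOn_mul_wd d.contOn_n (-I)
  have i2 := hc.integrableOn_mul (contOn_wd (-I) d.n_C1)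
  have i3 := hc.integrableOn_mul_wd hΓ (-I)
  have h3 : ∫ z in D, wd (-I) d.n z * conj (S z) = -((∫ z in D, d.src z * conj (S z)) / 4) := by
    rw [← integral_div, ← integral_neg]
    refine setIntegral_congr_fun measurableSet_D fun z hz => ?_
    rw [d.wd_n hz]; ring
  rw [integral_add i1 i2, h3, ← h2] at h1
  have h4 : ∫ z in D, (d.n z - wd I (pot d.src) z) * wd (-I) (fun z => conj (S z)) z = 0 := by
    simp only [sub_mul]
    rw [integral_sub i1 i3]
    linear_combination h1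
  have h5 := congrArg conj h4
  rw [← integral_conj, map_zero] at h5
  simpa only [wd_negI_conj, map_mul, conj_conj] using h5

theorem decomp : ∃ (kp km : ℂ → ℂ) (c : ℂ), DifferentiableOn ℂ kp D ∧ DifferentiableOn ℂ km D ∧
    (∀ z ∈ D, d.v z = c + z * kp z + conj (z * km z) + pot d.src z) ∧
    ∀ z ∈ D, d.n z = conj (km z + z * deriv km z) + wd I (pot d.src) z := by
  obtain ⟨g, hg⟩ := d.holo_minus.isExactOn_ball
  have h0 : (0 : ℂ) ∈ D := by simp
  have hgd : DifferentiableOn ℂ g D := fun z hz =>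
    (hg z hz).differentiableAt.differentiableWithinAt
  set hm : ℂ → ℂ := fun z => g z - g 0 with hhm
  have hmd : DifferentiableOn ℂ hm D := hgd.sub_const _
  have hm' : ∀ z ∈ D, conj (deriv hm z) = d.n z - wd I (pot d.src) z := fun z hz => by
    rw [((hg z hz).sub_const (g 0)).deriv, conj_conj]
  have hψ := d.SS_src.adm.contDiffOn_pot
  have hA : ContDiffOn ℝ 1 (fun z => deriv d.f z * (conj (hm z) + pot d.src z)) D :=
    (holo_C1 (holo_deriv d.hf)).mul ((contDiffOn_conj (holo_C1 hmd)).add hψ)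
  have hAw : ∀ z ∈ D, wd I (fun z => deriv d.f z * (conj (hm z) + pot d.src z)) z =
      deriv d.f z * d.n z := fun z hz => by
    have e1 := diffAt_of_C1 (contDiffOn_conj (holo_C1 hmd)) hz
    have e2 := diffAt_of_C1 hψ hz
    rw [wd_mul I (diffAt_of_C1 (holo_C1 (holo_deriv d.hf)) hz) (e1.fun_add e2), wd_add I e1 e2,
      wd_I_holo (holo_at (holo_deriv d.hf) hz), wd_I_antiholo (holo_at hmd hz), hm' z hz]
    ring
  have hH : DifferentiableOn ℂ (fun z => d.P z - deriv d.f z * (conj (hm z) + pot d.src z)) D := by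
    refine weyl _ (d.contOn_P.sub hA.continuousOn) fun S hS => ?_
    have h1 := ibp I hA hS.cc
    have h2 := d.lam_Sc hS
    have i1 := hS.cc.integrableOn_mul_wd d.contOn_P I
    have i2 := hS.cc.integrableOn_mul (d.contOn_f'.fun_mul d.contOn_n)
    have i3 := hS.cc.integrableOn_mul_wd hA.continuousOn I
    have i4 := hS.cc.integrableOn_mul (contOn_wd I hA)
    have h3 : ∫ z in D, wd I (fun z => deriv d.f z * (conj (hm z) + pot d.src z)) z * S z =
        ∫ z in D, deriv d.f z * d.n z * S z :=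
      setIntegral_congr_fun measurableSet_D fun z hz => by simp only [hAw z hz]
    rw [integral_add i3 i4, h3] at h1
    rw [integral_add i1 i2] at h2
    simp only [sub_mul]
    rw [integral_sub i1 i3]
    linear_combination h2 - h1
  set hp : ℂ → ℂ := fun z => (d.P z - deriv d.f z * (conj (hm z) + pot d.src z)) / deriv d.f z
    with hhp
  have hpd : DifferentiableOn ℂ hp D := hH.div (holo_deriv d.hf) d.hf'
  have e : ∀ (h : ℂ → ℂ) z, z * dslope h 0 z = h z - h 0 := fun h z => by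
    simpa using sub_smul_dslope h 0 z
  have hkm : DifferentiableOn ℂ (dslope hm 0) D := (differentiableOn_dslope (D_nhds h0)).2 hmd
  have hm0 : hm 0 = 0 := sub_self _
  refine ⟨dslope hp 0, dslope hm 0, hp 0, (differentiableOn_dslope (D_nhds h0)).2 hpd, hkm,
    fun z hz => ?_, fun z hz => ?_⟩
  · have := d.hf' z hz
    rw [e, e, hm0, sub_zero, v]
    simp only [hhp]
    field_simp
    ring
  · have h1 : HasDerivAt (fun w => w * dslope hm 0 w)
        (1 * dslope hm 0 z + z * deriv (dslope hm 0) z) z :=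
      (hasDerivAt_id z).mul (holo_at hkm hz).hasDerivAt
    simp only [e, hm0, sub_zero, one_mul] at h1
    rw [← h1.deriv, hm' z hz]
    ring

theorem v_C1 : ContDiffOn ℝ 1 d.v D ∧ ∀ z ∈ D, wd I d.v z = d.n z := by
  obtain ⟨kp, km, c, hp, hm, hv, hn⟩ := d.decomp
  have h1 : DifferentiableOn ℂ (fun z => c + z * kp z) D := (differentiableOn_id.mul hp).const_add c
  have h2 : DifferentiableOn ℂ (fun z => z * km z) D := differentiableOn_id.mul hm
  have hψ := d.SS_src.adm.contDiffOn_pot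
  refine ⟨(((holo_C1 h1).add (contDiffOn_conj (holo_C1 h2))).add hψ).congr hv, fun z hz => ?_⟩
  have e1 := diffAt_of_C1 (holo_C1 h1) hz
  have e2 := diffAt_of_C1 (contDiffOn_conj (holo_C1 h2)) hz
  rw [wd_congr_D I hv hz, wd_add I (e1.fun_add e2) (diffAt_of_C1 hψ hz), wd_add I e1 e2,
    wd_I_holo (holo_at h1 hz), wd_I_antiholo (holo_at h2 hz), hn z hz,
    ((hasDerivAt_id' z).fun_mul (holo_at hm hz).hasDerivAt).deriv]
  simp

theorem lam_Zc {T : ℂ → ℂ} (hT : Zc T) :
    ∫ z in D, (d.P z * wd I T z + deriv d.f z * d.n z * T z) = 0 := by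
  obtain ⟨h1, h2⟩ := d.v_C1
  have hf := holo_C1 (n := 1) (holo_deriv d.hf)
  have hP : ContDiffOn ℝ 1 d.P D := (hf.mul h1).congr fun z hz => (d.f'_mul_v hz).symm
  have hw : ∀ z ∈ D, wd I d.P z = deriv d.f z * d.n z := fun z hz => by
    rw [wd_congr_D I (fun z hz => (d.f'_mul_v hz).symm) hz,
      wd_mul I (diffAt_of_C1 hf hz) (diffAt_of_C1 h1 hz), h2 z hz,
      wd_I_holo (holo_at (holo_deriv d.hf) hz)]
    ring
  rw [← ibp_Zc (c := I) (by simp) hP d.int_P
    (d.int_f'n.congr_fun (fun z hz => (hw z hz).symm) measurableSet_D) hT]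
  exact setIntegral_congr_fun measurableSet_D fun z hz => by simp only [hw z hz]

theorem lam_tangent {T : ℂ → ℂ} (hT : ContDiff ℝ 1 T) (h0 : ∀ z, ‖z‖ = 1 → (T z).im = 0) :
    (∫ z in D, (d.P z * wd I T z + deriv d.f z * d.n z * T z)).re = 0 := by
  rw [d.lam_split hT, d.lam_Zc (zc_of_contDiff (contDiff_ofReal' (contDiff_im' hT))
    fun z hz => by simp [h0 z hz]), mul_zero, add_zero, d.lam_real (contDiff_re' hT)]

end Data

end Crest.Agent.R101
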