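import Mathlib

/-!
Row 101 (hot spots on simply connected planar domains): definitions shared by all files.
Everything lives on the unit disc `D` of `ℂ`.
-/

open MeasureTheory Complex Metric Set Filter Topology
open scoped Real ComplexConjugate

namespace Crest.Agent.R101

/-- The open unit disc. -/
abbrev D : Set ℂ := ball (0 : ℂ) 1

/-- Wirtinger-type derivative `(∂ₓ + c ∂_y) / 2`; `c = I` gives `∂̄`, `c = -I` gives `∂`. -/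
noncomputable def wd (c : ℂ) (g : ℂ → ℂ) (z : ℂ) : ℂ :=
  (fderiv ℝ g z 1 + c * fderiv ℝ g z I) / 2

/-- `C¹` on the disc and zero near the unit circle. -/
def Cc (S : ℂ → ℂ) : Prop :=
  ContDiffOn ℝ 1 S D ∧ ∃ R : ℝ, R < 1 ∧ ∀ z ∈ D, R ≤ ‖z‖ → S z = 0

/-- `C¹` on the disc, bounded derivative, linear decay at the unit circle. -/
def Zc (S : ℂ → ℂ) : Prop :=
  ContDiffOn ℝ 1 S D ∧ ∃ C : ℝ, ∀ z ∈ D, ‖fderiv ℝ S z‖ ≤ C ∧ ‖S z‖ ≤ C * (1 - ‖z‖)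

/-- Globally `C²`, zero outside a smaller disc. -/
def Sc (S : ℂ → ℂ) : Prop :=
  ContDiff ℝ 2 S ∧ ∃ R : ℝ, R < 1 ∧ ∀ z, R ≤ ‖z‖ → S z = 0

/-- Squared length of the gradient of a real function on `ℂ`. -/
noncomputable def gsq (φ : ℂ → ℝ) (z : ℂ) : ℝ :=
  (fderiv ℝ φ z 1) ^ 2 + (fderiv ℝ φ z I) ^ 2

/-- Inner product of the gradients of two real functions on `ℂ`. -/
noncomputable def gdot (φ ψ : ℂ → ℝ) (z : ℂ) : ℝ :=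
  fderiv ℝ φ z 1 * fderiv ℝ ψ z 1 + fderiv ℝ φ z I * fderiv ℝ ψ z I

/-- The Neumann problem pulled back to the disc by a conformal map `f`. -/
structure Data where
  f : ℂ → ℂ
  U : ℂ → ℝ
  μ : ℝ
  hf : DifferentiableOn ℂ f D
  hf' : ∀ z ∈ D, deriv f z ≠ 0
  hb : ∃ M : ℝ, ∀ z ∈ D, ‖f z‖ ≤ M
  hρ : IntegrableOn (fun z => ‖deriv f z‖ ^ 2) D
  hμ : 0 < μ
  hU : ContDiffOn ℝ 1 U D
  hU2 : IntegrableOn (fun z => ‖deriv f z‖ ^ 2 * U z ^ 2) D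
  hUg : IntegrableOn (gsq U) D
  hmean : ∫ z in D, ‖deriv f z‖ ^ 2 * U z = 0
  hE : ∫ z in D, gsq U z = μ * ∫ z in D, ‖deriv f z‖ ^ 2 * U z ^ 2
  hpos : 0 < ∫ z in D, gsq U z
  hN : ∀ φ : ℂ → ℝ, ContDiffOn ℝ 1 φ D →
    IntegrableOn (fun z => ‖deriv f z‖ ^ 2 * φ z ^ 2) D → IntegrableOn (gsq φ) D →
    ∫ z in D, ‖deriv f z‖ ^ 2 * φ z = 0 →
    μ * ∫ z in D, ‖deriv f z‖ ^ 2 * φ z ^ 2 ≤ ∫ z in D, gsq φ z

/-- Green function of the disc. -/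
noncomputable def G (x y : ℂ) : ℝ :=
  1 / (4 * π) * Real.log (1 + (1 - ‖x‖ ^ 2) * (1 - ‖y‖ ^ 2) / ‖x - y‖ ^ 2)

/-- `t(x) = log (1 / |x|)`. -/
noncomputable def tt (x : ℂ) : ℝ := -Real.log ‖x‖

/-- `t coth t`. -/
noncomputable def kap (x : ℂ) : ℝ := tt x * (1 + ‖x‖ ^ 2) / (1 - ‖x‖ ^ 2)

/-- `e^{iθ} t / sinh t`. -/
noncomputable def mm (x : ℂ) : ℂ := ((2 * tt x / (1 - ‖x‖ ^ 2) : ℝ) : ℂ) * x

/-- `π(x)`, the square root of the diagonal of the kernel. -/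
noncomputable def pp (x : ℂ) : ℝ := Real.sqrt (2 * kap x - ‖mm x‖ ^ 2 - 1)

/-- Green potential. -/
noncomputable def pot (F : ℂ → ℂ) (x : ℂ) : ℂ := ∫ y in D, (G x y : ℂ) * F y

end Crest.Agent.R101
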