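import Crest.Agent.R101.Defs

open MeasureTheory Complex Metric Set Filter Topology
open scoped Real ComplexConjugate

namespace Crest.Agent.R101

/-- Functions of the form `∂̄ S` with `S` of class `C²` and real on the circle. -/
def DensP (p : ℂ → ℂ) : Prop :=
  ∃ S : ℂ → ℂ, ContDiff ℝ 2 S ∧ (∀ z, ‖z‖ = 1 → (S z).im = 0) ∧ ∀ z, wd I S z = p z

theorem DensP.add {p q : ℂ → ℂ} (hp : DensP p) (hq : DensP q) : DensP (fun z => p z + q z) := by
  obtain ⟨S, hS, hS1, hS2⟩ := hp
  obtain ⟨T, hT, hT1, hT2⟩ := hq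
  refine ⟨fun z => S z + T z, hS.add hT, fun z hz => by simp [hS1 z hz, hT1 z hz], fun z => ?_⟩
  have h1 : DifferentiableAt ℝ S z := hS.differentiable (by norm_num) z
  have h2 : DifferentiableAt ℝ T z := hT.differentiable (by norm_num) z
  show _ = p z + q z
  rw [← hS2 z, ← hT2 z]
  simp only [wd]
  rw [fderiv_fun_add h1 h2]
  simp only [add_apply]
  ring

theorem dens_wd_mono (c e : ℂ) (a b k : ℕ) (z : ℂ) :
    wd I (fun z : ℂ => c * z ^ a * conj (z ^ (b + 1)) + e * z ^ k) z
      = c * (b + 1) * z ^ a * conj z ^ b := by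
  have h1 : HasFDerivAt (fun z : ℂ => c * z ^ a) _ z :=
    ((hasDerivAt_pow a z).const_mul c).complexToReal_fderiv
  have h2 : HasFDerivAt (fun z : ℂ => z ^ (b + 1)) _ z :=
    (hasDerivAt_pow (b + 1) z).complexToReal_fderiv
  have h3 : HasFDerivAt (fun z : ℂ => conj (z ^ (b + 1))) _ z :=
    (conjCLE.hasFDerivAt (x := z ^ (b + 1))).comp z h2
  have h4 : HasFDerivAt (fun z : ℂ => e * z ^ k) _ z :=
    ((hasDerivAt_pow k z).const_mul e).complexToReal_fderiv
  have h5 := (h1.fun_mul h3).fun_add h4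
  rw [wd, h5.fderiv]
  have hI : I * I = -1 := I_mul_I
  simp
  linear_combination (-(c * z ^ a * (b + 1) * conj z ^ b) / 2
    + (conj z ^ (b + 1) * c * a * z ^ (a - 1) + e * k * z ^ (k - 1)) / 2) * hI

theorem dens_contDiff_mono (c e : ℂ) (a b k : ℕ) :
    ContDiff ℝ 2 (fun z : ℂ => c * z ^ a * conj (z ^ (b + 1)) + e * z ^ k) := by
  have h1 : ContDiff ℝ 2 (fun z : ℂ => conj (z ^ (b + 1))) :=
    conjCLE.contDiff.comp (contDiff_id.pow (b + 1))
  exact ((contDiff_const.mul (contDiff_id.pow a)).mul h1).add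
    (contDiff_const.mul (contDiff_id.pow k))

theorem densP_mono (c : ℂ) (a b : ℕ) : DensP (fun z => c * z ^ a * conj z ^ b) := by
  have hb : ((b : ℂ) + 1) ≠ 0 := by exact_mod_cast Nat.succ_ne_zero b
  have hunit : ∀ z : ℂ, ‖z‖ = 1 → z * conj z = 1 := by
    intro z hz
    rw [mul_conj, normSq_eq_norm_sq, hz]; simp
  rcases le_total (b + 1) a with hab | hab
  · obtain ⟨k, rfl⟩ := Nat.exists_eq_add_of_le hab
    refine ⟨fun z => (c / (b + 1)) * z ^ (b + 1 + k) * conj (z ^ (b + 1)) + (-(c / (b + 1))) * z ^ k,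
      dens_contDiff_mono _ _ _ _ _, fun z hz => ?_, fun z => ?_⟩
    · have : (c / (b + 1)) * z ^ (b + 1 + k) * conj (z ^ (b + 1)) + (-(c / (b + 1))) * z ^ k = 0 := by
        have h1 : z ^ (b + 1 + k) * conj (z ^ (b + 1)) = (z * conj z) ^ (b + 1) * z ^ k := by
          rw [map_pow, mul_pow]; ring
        rw [mul_assoc, h1, hunit z hz]; ring
      simp only [this, zero_im]
    · rw [dens_wd_mono]; field_simp
  · obtain ⟨k, hk⟩ := Nat.exists_eq_add_of_le hab
    refine ⟨fun z => (c / (b + 1)) * z ^ a * conj (z ^ (b + 1)) + (conj (c / (b + 1))) * z ^ k,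
      dens_contDiff_mono _ _ _ _ _, fun z hz => ?_, fun z => ?_⟩
    · have : (c / (b + 1)) * z ^ a * conj (z ^ (b + 1)) + (conj (c / (b + 1))) * z ^ k
          = conj ((conj (c / (b + 1))) * z ^ k) + (conj (c / (b + 1))) * z ^ k := by
        have h1 : z ^ a * conj (z ^ (b + 1)) = (z * conj z) ^ a * conj (z ^ k) := by
          rw [hk, map_pow, map_pow, mul_pow]; ring
        rw [mul_assoc, h1, hunit z hz, map_mul, conj_conj]; ring
      simp only [this, add_im, conj_im]; ring
    · rw [dens_wd_mono]; field_simp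

theorem densP_poly (Q : MvPolynomial (Fin 2) ℂ) :
    DensP (fun z => MvPolynomial.eval ![z, conj z] Q) := by
  induction Q using MvPolynomial.induction_on' with
  | monomial u a =>
    have : (fun z : ℂ => MvPolynomial.eval ![z, conj z] (MvPolynomial.monomial u a))
        = fun z => a * z ^ (u 0) * conj z ^ (u 1) := by
      funext z
      rw [MvPolynomial.eval_monomial, Finsupp.prod_fintype _ _ (by simp), Fin.prod_univ_two]
      simp [mul_assoc]
    rw [this]; exact densP_mono _ _ _
  | add p q hp hq =>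
    simpa using hp.add hq

theorem dens_approx (g : ℂ → ℂ) (hg : Continuous g) (ε : ℝ) (hε : 0 < ε) :
    ∃ p : ℂ → ℂ, DensP p ∧ ∀ z ∈ D, ‖p z - g z‖ ≤ ε := by
  set s : Set ℂ := closedBall 0 1 with hs
  have : CompactSpace s := isCompact_iff_compactSpace.1 (isCompact_closedBall _ _)
  let X : C(s, ℂ) := (ContinuousMap.id ℂ).restrict s
  let ev : MvPolynomial (Fin 2) ℂ →ₐ[ℂ] C(s, ℂ) := MvPolynomial.aeval ![X, star X]
  have hev : ∀ (Q : MvPolynomial (Fin 2) ℂ) (z : s),
      ev Q z = MvPolynomial.eval ![(z : ℂ), conj (z : ℂ)] Q := by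
    intro Q z
    induction Q using MvPolynomial.induction_on with
    | C a => simp [ev]
    | add p q hp hq => simp [hp, hq]
    | mul_X p i hp =>
      rw [map_mul, map_mul, ContinuousMap.mul_apply, hp]
      congr 1
      fin_cases i <;> simp [ev, X]
  have hall : ∀ f : C(s, ℂ), f ∈ ev.range.topologicalClosure := by
    intro f
    induction f using ContinuousMap.induction_on_of_compact with
    | const r =>
      exact ev.range.topologicalClosure.algebraMap_mem r
    | id =>
      apply ev.range.le_topologicalClosure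
      exact ⟨MvPolynomial.X 0, by simp [ev, X]⟩
    | star_id =>
      apply ev.range.le_topologicalClosure
      exact ⟨MvPolynomial.X 1, by simp [ev, X]⟩
    | add f g hf hg => exact add_mem hf hg
    | mul f g hf hg => exact mul_mem hf hg
    | frequently f hf =>
      exact ev.range.isClosed_topologicalClosure.mem_of_frequently_of_tendsto hf tendsto_id
  have h1 : (⟨g, hg⟩ : C(ℂ, ℂ)).restrict s ∈ closure (ev.range : Set C(s, ℂ)) := hall _
  obtain ⟨f, ⟨Q, rfl⟩, hQ⟩ := Metric.mem_closure_iff.1 h1 ε hε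
  refine ⟨_, densP_poly Q, fun z hz => ?_⟩
  have hzs : z ∈ s := ball_subset_closedBall hz
  have h2 := (ContinuousMap.dist_apply_le_dist (f := (⟨g, hg⟩ : C(ℂ, ℂ)).restrict s) (g := ev Q)
    ⟨z, hzs⟩).trans hQ.le
  rw [hev, dist_comm, dist_eq_norm] at h2
  exact h2

theorem dens_integrableOn {E : Type*} [NormedAddCommGroup E] (g : ℂ → E) (hg : Continuous g) :
    IntegrableOn g D :=
  (hg.continuousOn.integrableOn_compact (isCompact_closedBall (0 : ℂ) 1)).mono_set
    ball_subset_closedBall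

theorem DensP.continuous {p : ℂ → ℂ} (hp : DensP p) : Continuous p := by
  obtain ⟨S, hS, -, hS2⟩ := hp
  have h1 : Continuous (fderiv ℝ S) := hS.continuous_fderiv (by norm_num)
  have : p = fun z => (fderiv ℝ S z 1 + I * fderiv ℝ S z I) / 2 := by
    funext z; rw [← hS2 z]; rfl
  rw [this]
  exact ((h1.clm_apply continuous_const).add
    (continuous_const.mul (h1.clm_apply continuous_const))).div_const _

theorem dens_mul_integrable (A : ℂ → ℂ) (hAi : IntegrableOn A D) (g : ℂ → ℂ)
    (hg : Continuous g) : IntegrableOn (fun z => A z * g z) D :=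
  hAi.mul_continuousOn_of_subset hg.continuousOn measurableSet_ball
    (isCompact_closedBall (0 : ℂ) 1) ball_subset_closedBall

theorem dens_cont (A : ℂ → ℂ) (hAi : IntegrableOn A D) (K : ℝ) (hK : 0 ≤ K)
    (h : ∀ S : ℂ → ℂ, ContDiff ℝ 2 S → (∀ z, ‖z‖ = 1 → (S z).im = 0) →
      (∫ z in D, A z * wd I S z).re ≤ K * Real.sqrt (∫ z in D, ‖wd I S z‖ ^ 2))
    (g : ℂ → ℂ) (hg : Continuous g) :
    (∫ z in D, A z * g z).re ≤ K * Real.sqrt (∫ z in D, ‖g z‖ ^ 2) := by
  set a : ℝ := ∫ z in D, ‖A z‖ with ha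
  set u : ℝ := ∫ z in D, ‖g z‖ ^ 2 with hu
  set v : ℝ := ∫ z in D, ‖g z‖ with hv
  set w : ℝ := ∫ _ in D, (1 : ℝ) with hw
  have key : ∀ ε : ℝ, 0 < ε → (∫ z in D, A z * g z).re
      ≤ K * Real.sqrt (u + 2 * ε * v + ε ^ 2 * w) + ε * a := by
    intro ε hε
    obtain ⟨p, hp, hpg⟩ := dens_approx g hg ε hε
    have hpc := hp.continuous
    obtain ⟨S, hS, hS1, hS2⟩ := hp
    have h1 := h S hS hS1
    simp only [hS2] at h1
    have h2 : ∫ z in D, ‖p z‖ ^ 2 ≤ u + 2 * ε * v + ε ^ 2 * w := by
      have i1 : IntegrableOn (fun z => ‖g z‖ ^ 2) D := dens_integrableOn _ (by fun_prop)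
      have i2 : IntegrableOn (fun z => 2 * ε * ‖g z‖) D := dens_integrableOn _ (by fun_prop)
      have i3 : IntegrableOn (fun _ : ℂ => ε ^ 2 * (1 : ℝ)) D := dens_integrableOn _ (by fun_prop)
      have i4 : IntegrableOn (fun z => ‖g z‖ ^ 2 + 2 * ε * ‖g z‖) D := i1.add i2
      rw [hu, hv, hw, ← integral_const_mul, ← integral_const_mul, ← integral_add i1 i2,
        ← integral_add i4 i3]
      apply setIntegral_mono_on (dens_integrableOn _ (by fun_prop)) (i4.add i3)
        measurableSet_ball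
      intro z hz
      have h3 : ‖p z‖ ≤ ‖g z‖ + ε := by
        have := norm_add_le (p z - g z) (g z)
        rw [sub_add_cancel] at this
        linarith [hpg z hz]
      have h4 := norm_nonneg (p z)
      simp only [Pi.add_apply]
      nlinarith
    have h3 : ‖(∫ z in D, A z * g z) - ∫ z in D, A z * p z‖ ≤ ε * a := by
      rw [← integral_sub (dens_mul_integrable A hAi g hg) (dens_mul_integrable A hAi p hpc), ha,
        ← integral_const_mul]
      apply norm_integral_le_of_norm_le (hAi.norm.const_mul ε)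
      filter_upwards [ae_restrict_mem measurableSet_ball] with z hz
      rw [← mul_sub, norm_mul, norm_sub_rev, mul_comm]
      exact mul_le_mul_of_nonneg_right (hpg z hz) (norm_nonneg _)
    have h4 := (re_le_norm _).trans h3
    rw [sub_re] at h4
    have h5 := mul_le_mul_of_nonneg_left (Real.sqrt_le_sqrt h2) hK
    linarith
  have hc : Continuous fun ε : ℝ => K * Real.sqrt (u + 2 * ε * v + ε ^ 2 * w) + ε * a := by
    fun_prop
  have ht : Tendsto (fun ε : ℝ => K * Real.sqrt (u + 2 * ε * v + ε ^ 2 * w) + ε * a) (𝓝[>] 0)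
      (𝓝 (K * Real.sqrt u)) := by
    have := hc.tendsto 0
    simp only [mul_zero, zero_mul, add_zero, ne_eq, OfNat.ofNat_ne_zero, not_false_eq_true,
      zero_pow] at this
    exact this.mono_left nhdsWithin_le_nhds
  exact ge_of_tendsto ht (eventually_nhdsWithin_of_forall fun ε hε => key ε hε)

/-- Cutoff functions. -/
noncomputable def densEta (n : ℕ) (z : ℂ) : ℝ := min 1 (max 0 (((n : ℝ) + 1) * (1 - ‖z‖) - 1))

theorem densEta_cont (n : ℕ) : Continuous (densEta n) := by
  unfold densEta; fun_prop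

theorem densEta_nonneg (n : ℕ) (z : ℂ) : 0 ≤ densEta n z :=
  le_min zero_le_one (le_max_left _ _)

theorem densEta_le (n : ℕ) (z : ℂ) : densEta n z ≤ 1 := min_le_left _ _

theorem densEta_cutoff {E : Type*} [NormedAddCommGroup E] [NormedSpace ℝ E] (n : ℕ) (B : ℂ → E)
    (hB : ContinuousOn B D) : Continuous fun z => densEta n z • B z := by
  have hn : (0 : ℝ) < (n : ℝ) + 1 := by positivity
  apply ContinuousOn.continuous_of_tsupport_subset
    ((densEta_cont n).continuousOn.smul hB) isOpen_ball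
  have h1 : Function.support (fun z => densEta n z • B z)
      ⊆ closedBall (0 : ℂ) (1 - 1 / ((n : ℝ) + 1)) := by
    intro z hz
    by_contra hz'
    apply hz
    simp only [mem_closedBall, dist_zero_right, not_le] at hz'
    have h2 : ((n : ℝ) + 1) * (1 - ‖z‖) - 1 ≤ 0 := by
      have h3 : 1 - ‖z‖ ≤ 1 / ((n : ℝ) + 1) := by linarith
      rw [le_div_iff₀ hn] at h3
      linarith
    simp [densEta, max_eq_left h2]
  refine (closure_minimal h1 isClosed_closedBall).trans (closedBall_subset_ball ?_)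
  have : 0 < 1 / ((n : ℝ) + 1) := by positivity
  linarith

theorem densEta_eventually (z : ℂ) (hz : z ∈ D) : ∀ᶠ n in atTop, densEta n z = 1 := by
  have h1 : 0 < 1 - ‖z‖ := by
    have : ‖z‖ < 1 := by simpa using hz
    linarith
  obtain ⟨N, hN⟩ := exists_nat_ge (2 / (1 - ‖z‖))
  filter_upwards [eventually_ge_atTop N] with n hn
  have h2 : (N : ℝ) ≤ n := by exact_mod_cast hn
  rw [div_le_iff₀ h1] at hN
  apply min_eq_left
  apply le_max_of_le_right
  nlinarith

theorem density (A : ℂ → ℂ) (hA : ContinuousOn A D) (hAi : IntegrableOn A D) (K : ℝ)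
    (hK : 0 ≤ K)
    (h : ∀ S : ℂ → ℂ, ContDiff ℝ 2 S → (∀ z, ‖z‖ = 1 → (S z).im = 0) →
      (∫ z in D, A z * wd I S z).re ≤ K * Real.sqrt (∫ z in D, ‖wd I S z‖ ^ 2)) :
    IntegrableOn (fun z => ‖A z‖ ^ 2) D ∧ ∫ z in D, ‖A z‖ ^ 2 ≤ K ^ 2 := by
  have hA2 : ContinuousOn (fun z => ‖A z‖ ^ 2) D := hA.norm.pow 2
  have hc : ∀ n, Continuous fun z => densEta n z * ‖A z‖ ^ 2 := fun n =>
    densEta_cutoff n _ hA2
  have hn : ∀ n, ∫ z in D, densEta n z * ‖A z‖ ^ 2 ≤ K ^ 2 := by
    intro n
    have hg : Continuous fun z => densEta n z • conj (A z) :=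
      densEta_cutoff n _ (continuous_conj.comp_continuousOn hA)
    have h1 := dens_cont A hAi K hK h _ hg
    have h2 : ∀ z, A z * (densEta n z • conj (A z)) = ((densEta n z * ‖A z‖ ^ 2 : ℝ) : ℂ) := by
      intro z
      rw [real_smul, mul_left_comm, mul_conj, normSq_eq_norm_sq]
      push_cast; ring
    simp only [h2] at h1
    rw [integral_complex_ofReal, ofReal_re] at h1
    have h3 : ∫ z in D, ‖densEta n z • conj (A z)‖ ^ 2 ≤ ∫ z in D, densEta n z * ‖A z‖ ^ 2 := by
      apply integral_mono (dens_integrableOn _ (hg.norm.pow 2)) (dens_integrableOn _ (hc n))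
      intro z
      have a1 := densEta_nonneg n z
      have a2 := densEta_le n z
      show ‖densEta n z • conj (A z)‖ ^ 2 ≤ densEta n z * ‖A z‖ ^ 2
      simp only [norm_smul, Real.norm_eq_abs, abs_of_nonneg a1, norm_conj, mul_pow]
      have a3 : densEta n z ^ 2 ≤ densEta n z := by nlinarith
      exact mul_le_mul_of_nonneg_right a3 (by positivity)
    have h4 := h1.trans (mul_le_mul_of_nonneg_left (Real.sqrt_le_sqrt h3) hK)
    set J : ℝ := ∫ z in D, densEta n z * ‖A z‖ ^ 2 with hJ
    have hJ0 : 0 ≤ J := integral_nonneg fun z => mul_nonneg (densEta_nonneg n z) (by positivity)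
    have h5 := Real.sq_sqrt hJ0
    have h6 := Real.sqrt_nonneg J
    nlinarith [sq_nonneg (K - Real.sqrt J)]
  have hl : ∫⁻ z in D, ENNReal.ofReal (‖A z‖ ^ 2) ≤ ENNReal.ofReal (K ^ 2) := by
    have h1 := lintegral_liminf_le' (μ := volume.restrict D)
      (f := fun (n : ℕ) z => ENNReal.ofReal (densEta n z * ‖A z‖ ^ 2)) (u := atTop)
      (fun n => (hc n).measurable.ennreal_ofReal.aemeasurable)
    have h2 : ∫⁻ z in D, ENNReal.ofReal (‖A z‖ ^ 2)
        = ∫⁻ z in D, liminf (fun n : ℕ => ENNReal.ofReal (densEta n z * ‖A z‖ ^ 2)) atTop := by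
      apply setLIntegral_congr_fun measurableSet_ball
      intro z hz
      symm
      apply Tendsto.liminf_eq
      apply tendsto_const_nhds.congr'
      filter_upwards [densEta_eventually z hz] with n hn
      simp [hn]
    rw [h2]
    refine h1.trans (liminf_le_of_frequently_le' (Frequently.of_forall fun n => ?_))
    rw [← ofReal_integral_eq_lintegral_ofReal (dens_integrableOn _ (hc n))
      (Eventually.of_forall fun z => mul_nonneg (densEta_nonneg n z) (by positivity))]
    exact ENNReal.ofReal_le_ofReal (hn n)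
  have hi : IntegrableOn (fun z => ‖A z‖ ^ 2) D := by
    refine ⟨hA2.aestronglyMeasurable measurableSet_ball, ?_⟩
    rw [hasFiniteIntegral_iff_ofReal (Eventually.of_forall fun z => by positivity)]
    exact hl.trans_lt ENNReal.ofReal_lt_top
  refine ⟨hi, ?_⟩
  rw [← ofReal_integral_eq_lintegral_ofReal hi (Eventually.of_forall fun z => by positivity)] at hl
  exact (ENNReal.ofReal_le_ofReal_iff (by positivity)).1 hl

end Crest.Agent.R101
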