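import Crest.Agent.R101.Neumann

/-! Plane waves give a strict lower bound for functions vanishing on the circle; the
inequality for tangential fields. -/

open MeasureTheory Complex Metric Set Filter Topology
open scoped Real ComplexConjugate

namespace Crest.Agent.R101

namespace Data

variable (d : Data)

/-- Plane wave. -/
noncomputable def wave (q : ℂ) (α : ℝ) (z : ℂ) : ℝ := Real.cos ((conj q * d.f z).re + α)

theorem wave_C1 (q : ℂ) (α : ℝ) : ContDiffOn ℝ 1 (d.wave q α) D := by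
  unfold wave
  exact Real.contDiff_cos.comp_contDiffOn
    ((contDiffOn_re (contDiffOn_const.mul (holo_C1 d.hf))).add contDiffOn_const)

theorem wd_negI_wave (q : ℂ) (α : ℝ) {z : ℂ} (hz : z ∈ D) :
    wd (-I) (fun w => (d.wave q α w : ℂ)) z =
      conj q * deriv d.f z / 2 * (d.wave q (α + π / 2) z : ℂ) := by
  have h1 := ((holo_at d.hf hz).hasDerivAt.const_mul (conj q)).hasFDerivAt.restrictScalars ℝ
  have h2 := ((reCLM.hasFDerivAt (x := conj q * d.f z)).comp z h1).add_const α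
  have h3 := (Real.hasDerivAt_cos ((conj q * d.f z).re + α)).comp_hasFDerivAt z h2
  have h4 : HasFDerivAt (d.wave q α) _ z := h3
  rw [wd_ofReal _ h4.differentiableAt, h4.fderiv]
  simp only [wave, ← add_assoc, Real.cos_add_pi_div_two]
  generalize Real.sin ((conj q * d.f z).re + α) = s
  generalize conj q * deriv d.f z = c
  apply Complex.ext <;> simp <;> ring

theorem wd_I_wave (q : ℂ) (α : ℝ) {z : ℂ} (hz : z ∈ D) :
    wd I (fun w => (d.wave q α w : ℂ)) z =
      q * conj (deriv d.f z) / 2 * (d.wave q (α + π / 2) z : ℂ) := by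
  have := wd_I_conj (fun w => (d.wave q α w : ℂ)) z
  simp only [conj_ofReal] at this
  rw [this, d.wd_negI_wave q α hz]
  simp [map_ofNat]

theorem mul_conj_f' (z : ℂ) : deriv d.f z * conj (deriv d.f z) = (d.ρ z : ℂ) := by
  rw [Complex.mul_conj, ρ, Complex.sq_norm]

theorem gdot_wave (q q' : ℂ) (α α' : ℝ) {z : ℂ} (hz : z ∈ D) :
    gdot (d.wave q α) (d.wave q' α') z =
      (conj q * q').re * d.ρ z * (d.wave q (α + π / 2) z * d.wave q' (α' + π / 2) z) := by
  rw [← re_wd_mul_wd (diffAt_of_C1 (d.wave_C1 q α) hz) (diffAt_of_C1 (d.wave_C1 q' α') hz),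
    d.wd_negI_wave q α hz, d.wd_I_wave q' α' hz]
  have : conj q * deriv d.f z / 2 * (d.wave q (α + π / 2) z : ℂ) *
      (q' * conj (deriv d.f z) / 2 * (d.wave q' (α' + π / 2) z : ℂ)) =
      conj q * q' * ((d.ρ z * (d.wave q (α + π / 2) z * d.wave q' (α' + π / 2) z) / 4 : ℝ) : ℂ) := by
    push_cast
    rw [← d.mul_conj_f' z]
    ring
  rw [this, re_mul_ofReal]
  ring

theorem abs_wave_le (q : ℂ) (α : ℝ) (z : ℂ) : |d.wave q α z| ≤ 1 := Real.abs_cos_le_one _

theorem H1_wave (q : ℂ) (α : ℝ) : d.H1 (d.wave q α) := by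
  refine H1_of_bdd (d.wave_C1 q α) (C := 1) (fun z _ => d.abs_wave_le q α z) ?_
  rw [← gdot_self]
  refine (d.int_ρ.const_mul |(conj q * q).re|).mono' ((contOn_gdot (d.wave_C1 q α)
    (d.wave_C1 q α)).aestronglyMeasurable measurableSet_D) ?_
  filter_upwards [ae_D] with z hz
  rw [d.gdot_wave q q α α hz, Real.norm_eq_abs, abs_mul, abs_mul, abs_of_nonneg (d.ρ_nonneg z),
    abs_mul]
  refine mul_le_of_le_one_right (mul_nonneg (abs_nonneg _) (d.ρ_nonneg z)) ?_
  exact mul_le_one₀ (d.abs_wave_le _ _ z) (abs_nonneg _) (d.abs_wave_le _ _ z)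

theorem int_f' : IntegrableOn (deriv d.f) D :=
  (cs (α := fun z => ‖deriv d.f z‖) (β := fun _ => 1)
    (d.contOn_f'.aestronglyMeasurable measurableSet_D) d.hρ (by simp) (by simp)).1

theorem wave_add_pi (q : ℂ) (α : ℝ) (z : ℂ) :
    d.wave q (α + π / 2 + π / 2) z = -d.wave q α z := by
  simp only [wave]
  rw [← Real.cos_add_pi]
  congr 1
  ring

theorem Q_wave_Zc {q : ℂ} (hq : (conj q * q).re = d.μ) (α : ℝ) {ψ : ℂ → ℝ}
    (hψ : Zc fun w => (ψ w : ℂ)) : d.Q (d.wave q α) ψ = 0 := by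
  have hqq : conj q * q = d.μ := by
    rw [← hq, mul_comm, Complex.mul_conj]; simp
  set A : ℂ → ℂ := fun z => conj q * deriv d.f z / 2 * (d.wave q (α + π / 2) z : ℂ) with hA
  have hh : DifferentiableOn ℂ (fun z => conj q * deriv d.f z / 2) D :=
    ((holo_deriv d.hf).const_mul _).div_const _
  have hw := contDiffOn_ofReal (d.wave_C1 q (α + π / 2))
  have hA1 : ContDiffOn ℝ 1 A D := (holo_C1 hh).mul hw
  have hwd : ∀ z ∈ D, wd I A z = ((-(d.μ / 4) * (d.ρ z * d.wave q α z) : ℝ) : ℂ) := fun z hz => by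
    rw [hA, wd_mul I (diffAt_of_C1 (holo_C1 hh) hz) (diffAt_of_C1 hw hz), wd_I_holo (holo_at hh hz),
      d.wd_I_wave _ _ hz, d.wave_add_pi]
    push_cast
    rw [← d.mul_conj_f' z, ← hqq]
    ring
  have hAi : IntegrableOn A D :=
    integrableOn_mul_bdd ((d.int_f'.const_mul _).div_const _) hw.continuousOn (M := 1)
      fun z _ => by simpa using d.abs_wave_le _ _ z
  have hAi' : IntegrableOn (wd I A) D :=
    IntegrableOn.congr_fun ((d.H1_wave q α).int_ell.const_mul (-(d.μ / 4))).ofReal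
      (fun z hz => (hwd z hz).symm) measurableSet_D
  have h := ibp_Zc (c := I) (by simp) hA1 hAi hAi' hψ
  obtain ⟨C, hC⟩ := hψ.bdd (c := I) (by simp)
  have i1 := integrableOn_mul_bdd hAi (contOn_wd I hψ.1) fun z hz => (hC z hz).1
  have i2 := integrableOn_mul_bdd hAi' hψ.1.continuousOn fun z hz => (hC z hz).2
  have h2 := congrArg (fun w : ℂ => 4 * w.re) h
  simp only [zero_re, mul_zero] at h2
  have hH := H1_of_Zc (d := d) hψ
  rw [Q, ← integral_const_mul, ← integral_sub ((d.H1_wave q α).int_gdot hH)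
    (((d.H1_wave q α).int_mul hH).const_mul _), ← h2, re_int (iadd i1 i2),
    ← integral_const_mul]
  refine setIntegral_congr_fun measurableSet_D fun z hz => ?_
  simp only [add_re]
  rw [← re_wd_mul_wd (diffAt_of_C1 (d.wave_C1 q α) hz) (diffAt_of_C1 hH.1 hz),
    d.wd_negI_wave q α hz, hwd z hz, ← ofReal_mul, ofReal_re]
  ring

theorem exists_neg : ∃ e, d.H1 e ∧ d.Q e e < 0 ∧
    ∀ ψ : ℂ → ℝ, (Zc fun w => (ψ w : ℂ)) → d.Q e ψ = 0 := by
  obtain ⟨M, hM⟩ := d.hb
  have hM0 : 0 ≤ M := (norm_nonneg _).trans (hM 0 (by simp))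
  have hμ := d.hμ
  set b := min √d.μ (1 / (2 * (M + 1))) with hb
  have hb0 : 0 < b := lt_min (Real.sqrt_pos.2 hμ) (by positivity)
  have hb1 : b ^ 2 ≤ d.μ := by
    rw [← Real.sq_sqrt hμ.le]; exact pow_le_pow_left₀ hb0.le (min_le_left _ _) 2
  have hb2 : 2 * b * M ≤ 1 := by
    have : b ≤ 1 / (2 * (M + 1)) := min_le_right _ _
    rw [le_div_iff₀ (by positivity)] at this
    nlinarith
  set a := √(d.μ - b ^ 2) with ha
  have ha2 : a ^ 2 = d.μ - b ^ 2 := Real.sq_sqrt (by linarith)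
  set q : ℂ := ⟨a, b⟩ with hq
  set q' : ℂ := ⟨a, -b⟩ with hq'
  have hqq : (conj q * q).re = d.μ := by simp [hq]; linarith
  have hqq' : (conj q' * q').re = d.μ := by simp [hq']; linarith
  have hqq2 : (conj q * q').re = d.μ - 2 * b ^ 2 := by simp [hq, hq']; linarith
  have hQ : ∀ (p p' : ℂ), d.Q (d.wave p 0) (d.wave p' 0) +
      d.Q (d.wave p (π / 2)) (d.wave p' (π / 2)) = ((conj p * p').re - d.μ) *
        ∫ z in D, d.ρ z * Real.cos ((conj p * d.f z).re - (conj p' * d.f z).re) := fun p p' => by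
    have i1 := (d.H1_wave p 0).int_gdot (d.H1_wave p' 0)
    have i2 := (d.H1_wave p (π / 2)).int_gdot (d.H1_wave p' (π / 2))
    have i3 := ((d.H1_wave p 0).int_mul (d.H1_wave p' 0)).const_mul d.μ
    have i4 := ((d.H1_wave p (π / 2)).int_mul (d.H1_wave p' (π / 2))).const_mul d.μ
    rw [Q, Q, ← integral_const_mul, ← integral_const_mul, ← integral_sub i1 i3,
      ← integral_sub i2 i4, ← integral_add (isub i1 i3) (isub i2 i4), ← integral_const_mul]
    refine setIntegral_congr_fun measurableSet_D fun z hz => ?_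
    rw [d.gdot_wave _ _ _ _ hz, d.gdot_wave _ _ _ _ hz]
    simp only [wave, zero_add, add_zero, add_halves, Real.cos_add_pi_div_two, Real.cos_add_pi,
      Real.cos_sub]
    ring
  have hpos : 0 < ∫ z in D, d.ρ z * Real.cos ((conj q * d.f z).re - (conj q' * d.f z).re) := by
    have hc : ∀ z ∈ D, 1 / 2 ≤ Real.cos ((conj q * d.f z).re - (conj q' * d.f z).re) := by
      intro z hz
      have e : (conj q * d.f z).re - (conj q' * d.f z).re = 2 * b * (d.f z).im := by
        simp [hq, hq']; ring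
      have h1 : |2 * b * (d.f z).im| ≤ 1 := by
        rw [abs_mul, abs_of_pos (by positivity)]
        exact (mul_le_mul_of_nonneg_left ((abs_im_le_norm _).trans (hM z hz))
          (by positivity)).trans hb2
      have h2 := Real.one_sub_sq_div_two_le_cos (x := 2 * b * (d.f z).im)
      have h3 : (2 * b * (d.f z).im) ^ 2 ≤ 1 := by
        rw [← sq_abs]; exact pow_le_one₀ (abs_nonneg _) h1
      rw [e]; linarith
    have hi : IntegrableOn
        (fun z => d.ρ z * Real.cos ((conj q * d.f z).re - (conj q' * d.f z).re)) D := by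
      refine d.int_ρ.mul_bdd (c := 1) ?_ (Eventually.of_forall fun z => Real.abs_cos_le_one _)
      have := d.hf.continuousOn
      exact ContinuousOn.aestronglyMeasurable (by fun_prop) measurableSet_D
    calc 0 < (∫ z in D, d.ρ z) * (1 / 2) := by have := d.int_ρ_pos; positivity
      _ ≤ _ := by
        rw [← integral_mul_const]
        exact setIntegral_mono_on (d.int_ρ.mul_const _) hi measurableSet_D fun z hz =>
          mul_le_mul_of_nonneg_left (hc z hz) (d.ρ_nonneg z)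
  have hsum : ∀ α, d.Q (fun w => 1 * d.wave q α w + 1 * d.wave q' α w)
      (fun w => 1 * d.wave q α w + 1 * d.wave q' α w) = _ := fun α =>
    Q_comb_self (d.H1_wave q α) (d.H1_wave q' α) 1 1
  have hz : ∀ α, ∀ ψ : ℂ → ℝ, (Zc fun w => (ψ w : ℂ)) →
      d.Q (fun w => 1 * d.wave q α w + 1 * d.wave q' α w) ψ = 0 := fun α ψ hψ => by
    rw [Q_comm, Q_comb (H1_of_Zc hψ) (d.H1_wave q α) (d.H1_wave q' α), Q_comm, Q_comm ψ,
      d.Q_wave_Zc hqq α hψ, d.Q_wave_Zc hqq' α hψ]
    ring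
  by_contra hcon
  push Not at hcon
  have h1 : ∀ α, 0 ≤ d.Q (fun w => 1 * d.wave q α w + 1 * d.wave q' α w)
      (fun w => 1 * d.wave q α w + 1 * d.wave q' α w) := fun α => by
    by_contra h
    obtain ⟨ψ, hψ, h2⟩ := hcon _ ((d.H1_wave q α).comb (d.H1_wave q' α) 1 1) (not_le.1 h)
    exact h2 (hz α ψ hψ)
  have e1 := hQ q q
  have e2 := hQ q' q'
  have e3 := hQ q q'
  rw [hqq, sub_self, zero_mul] at e1
  rw [hqq', sub_self, zero_mul] at e2
  rw [hqq2] at e3
  have f1 := h1 0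
  have f2 := h1 (π / 2)
  rw [hsum] at f1 f2
  have : 0 < b ^ 2 * ∫ z in D, d.ρ z * Real.cos ((conj q * d.f z).re - (conj q' * d.f z).re) := by
    positivity
  nlinarith

theorem dirichlet_real : ∃ c : ℝ, 0 < c ∧
    ∀ ψ : ℂ → ℝ, (Zc fun w => (ψ w : ℂ)) → c * d.ell ψ ^ 2 ≤ d.Q ψ ψ := by
  obtain ⟨e, he, hneg, hz⟩ := d.exists_neg
  have hl : d.ell e ≠ 0 := fun h => absurd (Q_nonneg he h) (not_le.2 hneg)
  have hl2 : 0 < d.ell e ^ 2 := by positivity
  refine ⟨-d.Q e e / d.ell e ^ 2, div_pos (by linarith) hl2, fun ψ hψ => ?_⟩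
  have hH := H1_of_Zc (d := d) hψ
  have := Q_nonneg (he.comb hH (d.ell ψ) (-d.ell e)) (by rw [ell_comb he hH]; ring)
  rw [Q_comb_self he hH, hz ψ hψ] at this
  rw [div_mul_eq_mul_div, div_le_iff₀ hl2]
  linarith

end Data

end Crest.Agent.R101
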