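import Crest.Agent.R101.Decomp
import Crest.Agent.R101.Bergman

/-! The two tangential test fields and the upper bound for their energy. -/

open MeasureTheory Complex Metric Set Filter Topology
open scoped Real ComplexConjugate

namespace Crest.Agent.R101

/-- Continuous and square integrable on the disc. -/
def L2 (g : ℂ → ℂ) : Prop := ContinuousOn g D ∧ IntegrableOn (fun z => ‖g z‖ ^ 2) D

theorem L2.mul_int {a b : ℂ → ℂ} (ha : L2 a) (hb : L2 b) : IntegrableOn (fun z => a z * b z) D :=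
  (cs (α := fun z => ‖a z‖) (β := fun z => ‖b z‖)
    ((ha.1.mul hb.1).aestronglyMeasurable measurableSet_D) ha.2 hb.2 fun _ _ => (norm_mul _ _).le).1

theorem L2.mono {a b : ℂ → ℂ} (ha : L2 a) (hb : ContinuousOn b D) {C : ℝ}
    (h : ∀ z ∈ D, ‖b z‖ ≤ C * ‖a z‖) : L2 b := by
  refine ⟨hb, (ha.2.const_mul (C ^ 2)).mono' ((hb.norm.pow 2).aestronglyMeasurable
    measurableSet_D) ?_⟩
  filter_upwards [ae_D] with z hz
  rw [norm_pow, norm_norm, ← mul_pow]
  exact pow_le_pow_left₀ (norm_nonneg _) (h z hz) 2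

theorem L2.conj {a : ℂ → ℂ} (ha : L2 a) : L2 fun z => conj (a z) :=
  ha.mono (continuous_conj.comp_continuousOn' ha.1) (C := 1) fun z _ => by simp

theorem L2.bdd_mul {a g : ℂ → ℂ} (ha : L2 a) (hg : ContinuousOn g D) {C : ℝ}
    (h : ∀ z ∈ D, ‖g z‖ ≤ C) : L2 fun z => g z * a z :=
  ha.mono (hg.mul ha.1) (C := C) fun z hz => by
    rw [norm_mul]; exact mul_le_mul_of_nonneg_right (h z hz) (norm_nonneg _)

theorem L2.const_mul {a : ℂ → ℂ} (ha : L2 a) (c : ℂ) : L2 fun z => c * a z :=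
  ha.bdd_mul continuousOn_const (C := ‖c‖) fun _ _ => le_rfl

theorem L2.id_mul {a : ℂ → ℂ} (ha : L2 a) : L2 fun z => z * a z :=
  ha.bdd_mul continuousOn_id (C := 1) fun _ hz => (mem_D.1 hz).le

theorem L2_const (c : ℂ) : L2 fun _ => c := ⟨continuousOn_const, by simp⟩

theorem normSq_add_eq (a b : ℂ) : ‖a + b‖ ^ 2 = ‖a‖ ^ 2 + ‖b‖ ^ 2 + 2 * (conj a * b).re := by
  simp only [Complex.sq_norm, Complex.normSq_apply]
  simp
  ring

theorem L2.add {a b : ℂ → ℂ} (ha : L2 a) (hb : L2 b) : L2 fun z => a z + b z := by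
  refine ⟨ha.1.add hb.1, ?_⟩
  simp only [normSq_add_eq]
  exact iadd (iadd ha.2 hb.2) ((ha.conj.mul_int hb).re.const_mul 2)

theorem L2.sub {a b : ℂ → ℂ} (ha : L2 a) (hb : L2 b) : L2 fun z => a z - b z := by
  simpa [sub_eq_add_neg] using ha.add (hb.const_mul (-1))

theorem L2.congr {a b : ℂ → ℂ} (ha : L2 a) (h : ∀ z ∈ D, b z = a z) : L2 b :=
  ha.mono (ha.1.congr h) (C := 1) fun z hz => by simp [h z hz]

theorem L2.int {a : ℂ → ℂ} (ha : L2 a) : IntegrableOn a D := by
  simpa using ha.mul_int (L2_const 1)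

theorem L2.pyth {a b : ℂ → ℂ} (ha : L2 a) (hb : L2 b) (h : ∫ z in D, conj (a z) * b z = 0) :
    ∫ z in D, ‖a z + b z‖ ^ 2 = (∫ z in D, ‖a z‖ ^ 2) + ∫ z in D, ‖b z‖ ^ 2 := by
  simp only [normSq_add_eq]
  have i := ha.conj.mul_int hb
  have i2 : IntegrableOn (fun z => 2 * (conj (a z) * b z).re) D := i.re.const_mul 2
  rw [integral_add (iadd ha.2 hb.2) i2, integral_add ha.2 hb.2, integral_const_mul, ← re_int i, h]
  simp

theorem int_of_id_mul {g : ℂ → ℂ} (hg : ContinuousOn g D)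
    (h : IntegrableOn (fun z => z * g z) D) : IntegrableOn g D := by
  obtain ⟨M, hM⟩ := (isCompact_closedBall (0 : ℂ) (1 / 2)).exists_bound_of_continuousOn
    (hg.mono (closedBall_subset_ball (by norm_num)))
  have hM0 : 0 ≤ M := (norm_nonneg _).trans (hM 0 (by simp))
  refine ((integrable_const M).add (h.norm.const_mul 2)).mono'
    (hg.aestronglyMeasurable measurableSet_D) (Eventually.of_forall fun z => ?_)
  simp only [Pi.add_apply, norm_mul]
  by_cases hz : ‖z‖ ≤ 1 / 2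
  · have := hM z (by simpa using hz)
    have : 0 ≤ ‖z‖ * ‖g z‖ := by positivity
    linarith
  · nlinarith [norm_nonneg (g z), not_le.1 hz]

theorem wd_I_id (z : ℂ) : wd I (fun w => w) z = 0 := wd_I_holo differentiableAt_id

theorem wd_I_conj_id (z : ℂ) : wd I (fun w => conj w) z = 1 := by
  rw [wd_I_antiholo (h := fun w => w) differentiableAt_id]; simp

theorem contDiff_conj_id : ContDiff ℝ 1 fun w : ℂ => conj w := contDiff_conj' contDiff_id

theorem wd_lin (a b e : ℂ) {S : ℂ → ℂ} (hS : ContDiff ℝ 1 S) (z : ℂ) :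
    wd I (fun w => (a * w + b * conj w + e * (1 - w * conj w)) * S w) z =
      (b - e * z) * S z + (a * z + b * conj z + e * (1 - z * conj z)) * wd I S z := by
  have h1 : DifferentiableAt ℝ (fun w : ℂ => w) z := differentiableAt_id
  have h2 : DifferentiableAt ℝ (fun w : ℂ => conj w) z :=
    contDiff_conj_id.differentiable one_ne_zero z
  have h3 : DifferentiableAt ℝ (fun w : ℂ => 1 - w * conj w) z := (h1.fun_mul h2).const_sub 1
  rw [wd_mul I (((h1.const_mul a).fun_add (h2.const_mul b)).fun_add (h3.const_mul e))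
    (hS.differentiable one_ne_zero z),
    wd_add I ((h1.const_mul a).fun_add (h2.const_mul b)) (h3.const_mul e),
    wd_add I (h1.const_mul a) (h2.const_mul b), wd_const_mul I a h1, wd_const_mul I b h2,
    wd_const_mul I e h3, wd_sub I (differentiableAt_const _) (h1.fun_mul h2), wd_mul I h1 h2,
    wd_const, wd_I_id, wd_I_conj_id]
  ring

theorem contDiff_lin (a b e : ℂ) {S : ℂ → ℂ} (hS : ContDiff ℝ 1 S) :
    ContDiff ℝ 1 fun w => (a * w + b * conj w + e * (1 - w * conj w)) * S w :=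
  (((contDiff_const.mul contDiff_id).add (contDiff_const.mul contDiff_conj_id)).add
    (contDiff_const.mul (contDiff_const.sub (contDiff_id.mul contDiff_conj_id)))).mul hS

namespace Data

variable {d : Data}

theorem L2_f' (d : Data) : L2 (deriv d.f) := ⟨d.contOn_f', d.hρ⟩

theorem SS.L2_wd {F : ℂ → ℂ} (hF : d.SS F) : L2 (wd I (pot F)) :=
  ⟨contOn_wd I hF.adm.contDiffOn_pot, hF.est.2.1⟩

theorem SS.L2_pot {F : ℂ → ℂ} (hF : d.SS F) : L2 fun z => deriv d.f z * pot F z :=
  ⟨d.contOn_f'.mul hF.adm.contDiffOn_pot.continuousOn, by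
    simp only [norm_mul, mul_pow]; exact hF.est.1.1⟩

theorem orth {B F : ℂ → ℂ} (hB : DifferentiableOn ℂ B D) (hB2 : L2 B) (hF : d.SS F) :
    ∫ z in D, ‖conj (B z) + wd I (pot F) z‖ ^ 2 =
      (∫ z in D, ‖B z‖ ^ 2) + ∫ z in D, ‖wd I (pot F) z‖ ^ 2 := by
  rw [hB2.conj.pyth hF.L2_wd]
  · simp
  have h0 : d.SS fun _ => 0 := ⟨continuousOn_const, by simp⟩
  have := extend_pot hB2.1 hB2.2 h0 (fun S hS => by
    refine Eq.trans (setIntegral_congr_fun measurableSet_D fun z hz => ?_) (ibp I (holo_C1 hB) hS)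
    simp only [wd_I_holo (holo_at hB hz)]) hF
  simpa using this

theorem lam_pot {F T : ℂ → ℂ} (hF : d.SS F) (hT : ContDiff ℝ 1 T) :
    IntegrableOn (fun z => deriv d.f z * pot F z * wd I T z +
      deriv d.f z * wd I (pot F) z * T z) D ∧
    ∫ z in D, (deriv d.f z * pot F z * wd I T z + deriv d.f z * wd I (pot F) z * T z) = 0 := by
  obtain ⟨C, -, hC⟩ := bdd_wd_of_contDiff hT (c := I) (by simp)
  have hw := contOn_wd I hT.contDiffOn
  have hA : L2 fun z => T z * deriv d.f z :=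
    d.L2_f'.bdd_mul hT.continuous.continuousOn fun z hz => (hC z hz).2
  have hB : d.SS fun z => wd I T z * deriv d.f z :=
    ⟨hw.mul d.contOn_f', (int_wd_sq_of_bdd hT.contDiffOn fun z hz => (hC z hz).1).congr_fun
      (fun z hz => by
        have := (d.ρ_pos hz).ne'
        simp only [norm_mul, mul_pow, ← ρ.eq_1]
        field_simp) measurableSet_D⟩
  have hf := holo_C1 (n := 1) (holo_deriv d.hf)
  have := extend_pot hA.1 hA.2 hB (fun S hS => by
    rw [← ibp I (hT.contDiffOn.mul hf) hS]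
    refine setIntegral_congr_fun measurableSet_D fun z hz => ?_
    simp only [wd_mul I (hT.differentiable one_ne_zero z) (diffAt_of_C1 hf hz),
      wd_I_holo (holo_at (holo_deriv d.hf) hz)]
    ring) hF
  refine ⟨iadd (integrableOn_mul_bdd hF.L2_pot.int hw fun z hz => (hC z hz).1)
    (integrableOn_mul_bdd (d.L2_f'.mul_int hF.L2_wd) hT.continuous.continuousOn
      fun z hz => (hC z hz).2), ?_⟩
  rw [← this]
  congr 1
  ext z
  ring

end Data

/-- The harmonic decomposition of the gradient field. -/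
structure Dec (d : Data) where
  kp : ℂ → ℂ
  km : ℂ → ℂ
  c : ℂ
  hp : DifferentiableOn ℂ kp D
  hm : DifferentiableOn ℂ km D
  hv : ∀ z ∈ D, d.v z = c + z * kp z + conj (z * km z) + pot d.src z
  hn : ∀ z ∈ D, d.n z = conj (km z + z * deriv km z) + wd I (pot d.src) z

namespace Dec

open Data

variable {d : Data} (e : Dec d)

/-- First test field. -/
noncomputable def Wp (F : ℂ → ℂ) (z : ℂ) : ℂ := z * (e.c + z * e.kp z) + conj (e.km z) + pot F z

/-- Second test field. -/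
noncomputable def Wm (F : ℂ → ℂ) (z : ℂ) : ℂ :=
  e.kp z + conj z * (e.c + conj (z * e.km z)) + pot F z

/-- `∂̄` of the first test field. -/
noncomputable def np (F : ℂ → ℂ) (z : ℂ) : ℂ := conj (deriv e.km z) + wd I (pot F) z

/-- `∂̄` of the second test field. -/
noncomputable def nm (F : ℂ → ℂ) (z : ℂ) : ℂ :=
  conj (conj e.c + (2 * z * e.km z + z ^ 2 * deriv e.km z)) + wd I (pot F) z

theorem L2_h' : L2 fun z => e.km z + z * deriv e.km z := by
  have : L2 d.n := ⟨d.contOn_n, d.int_n2⟩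
  refine (this.sub d.SS_src.L2_wd).conj.congr fun z hz => ?_
  rw [e.hn z hz]; simp

theorem L2_km : L2 e.km := ⟨e.hm.continuousOn, (bergman_shift _ e.hm e.L2_h'.2 0).1⟩

theorem L2_km' : L2 (deriv e.km) :=
  ⟨(holo_deriv e.hm).continuousOn, (bergman_shift _ e.hm e.L2_h'.2 0).2.1⟩

theorem L2_B : L2 fun z => conj e.c + (2 * z * e.km z + z ^ 2 * deriv e.km z) :=
  ((L2_const _).add ((e.L2_km.id_mul.const_mul 2).add e.L2_km'.id_mul.id_mul)).congr
    fun z _ => by ring

theorem L2_np {F : ℂ → ℂ} (hF : d.SS F) : L2 (e.np F) := e.L2_km'.conj.add hF.L2_wd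

theorem L2_nm {F : ℂ → ℂ} (hF : d.SS F) : L2 (e.nm F) := e.L2_B.conj.add hF.L2_wd

theorem upper_n {F₁ F₂ : ℂ → ℂ} (h1 : d.SS F₁) (h2 : d.SS F₂) :
    4 * ((∫ z in D, ‖e.np F₁ z‖ ^ 2) + ∫ z in D, ‖e.nm F₂ z‖ ^ 2) ≤
      2 * (d.μ * ∫ z in D, ‖d.P z‖ ^ 2) - 2 * (∫ z in D, conj (d.src z) * pot d.src z).re +
      4 * π * ‖e.c‖ ^ 2 + (∫ z in D, conj (F₁ z) * pot F₁ z).re +
      (∫ z in D, conj (F₂ z) * pot F₂ z).re := by
  have hd := holo_deriv e.hm
  have k1 := orth hd e.L2_km' h1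
  have k2 := orth (B := fun z => conj e.c + (2 * z * e.km z + z ^ 2 * deriv e.km z))
    ((((differentiableOn_id.const_mul 2).mul e.hm).add
      ((differentiableOn_id.pow 2).mul hd)).const_add _) e.L2_B h2
  have k3 := orth (B := fun z => e.km z + z * deriv e.km z)
    (e.hm.add (differentiableOn_id.mul hd)) e.L2_h' d.SS_src
  have k4 := (bergman_shift _ e.hm e.L2_h'.2 (conj e.c)).2.2
  have k5 : ∫ z in D, ‖conj (e.km z + z * deriv e.km z) + wd I (pot d.src) z‖ ^ 2 =
      ∫ z in D, ‖d.n z‖ ^ 2 :=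
    setIntegral_congr_fun measurableSet_D fun z hz => by simp only [e.hn z hz]
  rw [← green_self h1, ← green_self h2, ← green_self d.SS_src, ← d.integral_n2]
  simp only [np, nm]
  rw [RCLike.norm_conj] at k4
  rw [k1, k2, ← k5, k3]
  linarith

theorem int_f'kp : IntegrableOn (fun z => deriv d.f z * e.kp z) D := by
  refine int_of_id_mul (d.contOn_f'.mul e.hp.continuousOn) ?_
  refine IntegrableOn.congr_fun (isub (isub (isub d.int_P (d.L2_f'.mul_int (L2_const e.c)))
    (d.L2_f'.mul_int e.L2_km.id_mul.conj)) d.SS_src.L2_pot.int) (fun z hz => ?_) measurableSet_D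
  rw [← d.f'_mul_v hz, e.hv z hz]
  ring

theorem tangent {F₁ F₂ : ℂ → ℂ} (h1 : d.SS F₁) (h2 : d.SS F₂) (α : ℂ) :
    IntegrableOn (fun z => ‖deriv d.f z * (α * e.Wp F₁ z + conj α * e.Wm F₂ z)‖ ^ 2) D ∧
    d.μ * ∫ z in D, ‖deriv d.f z * (α * e.Wp F₁ z + conj α * e.Wm F₂ z)‖ ^ 2 ≤
      4 * ∫ z in D, ‖α * e.np F₁ z + conj α * e.nm F₂ z‖ ^ 2 := by
  have hn := ((e.L2_np h1).const_mul α).add ((e.L2_nm h2).const_mul (conj α))
  have c1 := h1.adm.contDiffOn_pot.continuousOn
  have c2 := h2.adm.contDiffOn_pot.continuousOn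
  have c3 := e.hp.continuousOn
  have c4 := e.hm.continuousOn
  have c5 := d.contOn_f'
  have hb : ∀ z ∈ D, ‖z‖ ≤ 1 := fun z hz => (mem_D.1 hz).le
  have hb' : ∀ z ∈ D, ‖conj z‖ ≤ 1 := fun z hz => by simpa using hb z hz
  have cc : ContinuousOn (fun z : ℂ => conj z) D := continuous_conj.continuousOn
  refine d.hodge ?_ ?_ hn.1 hn.2 fun S hS h0 => ?_
  · unfold Wp Wm
    fun_prop
  · have i1 : IntegrableOn (fun z => deriv d.f z * e.Wp F₁ z) D := by
      refine IntegrableOn.congr_fun (iadd (iadd (iadd (d.L2_f'.mul_int (L2_const e.c).id_mul)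
        (integrableOn_mul_bdd (integrableOn_mul_bdd e.int_f'kp continuousOn_id hb)
          continuousOn_id hb)) (d.L2_f'.mul_int e.L2_km.conj)) h1.L2_pot.int) (fun z _ => ?_)
        measurableSet_D
      simp only [Wp, id]
      ring
    have i2 : IntegrableOn (fun z => deriv d.f z * e.Wm F₂ z) D := by
      refine IntegrableOn.congr_fun (iadd (iadd e.int_f'kp (d.L2_f'.mul_int
        (((L2_const e.c).add e.L2_km.id_mul.conj).bdd_mul cc hb'))) h2.L2_pot.int) (fun z _ => ?_)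
        measurableSet_D
      simp only [Wm]
      ring
    refine IntegrableOn.congr_fun (iadd (i1.const_mul α) (i2.const_mul (conj α))) (fun z _ => ?_)
      measurableSet_D
    ring
  · have hS1 : ContDiff ℝ 1 S := hS.of_le (by norm_num)
    have hT := contDiff_lin α (conj α) 0 hS1
    have hT' := contDiff_lin 0 0 1 hS1
    have hZ := zc_of_contDiff hT' fun z hz => by
      rw [Complex.mul_conj, Complex.normSq_eq_norm_sq, hz]; simp
    have k0 := d.lam_tangent hT fun z hz => by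
      have := h0 z hz
      simp [this]
      left; ring
    obtain ⟨j1, k1⟩ := lam_pot d.SS_src hT
    obtain ⟨j2, k2⟩ := lam_pot h1 hS1
    obtain ⟨j3, k3⟩ := lam_pot h2 hS1
    have hf := holo_C1 (n := 1) (holo_deriv d.hf)
    have hA : ContDiffOn ℝ 1 (fun z => deriv d.f z * (α * conj (e.km z) + conj α * e.kp z)) D :=
      hf.mul ((contDiffOn_const.mul (contDiffOn_conj (holo_C1 e.hm))).add
        (contDiffOn_const.mul (holo_C1 e.hp)))
    have hAw : ∀ z ∈ D, wd I (fun z => deriv d.f z * (α * conj (e.km z) + conj α * e.kp z)) z =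
        α * (deriv d.f z * conj (deriv e.km z)) := fun z hz => by
      have e1 := diffAt_of_C1 (contDiffOn_conj (holo_C1 e.hm)) hz
      have e2 := diffAt_of_C1 (holo_C1 e.hp) hz
      rw [wd_mul I (diffAt_of_C1 hf hz) ((e1.const_mul α).fun_add (e2.const_mul _)),
        wd_add I (e1.const_mul α) (e2.const_mul _), wd_const_mul I α e1, wd_const_mul I _ e2,
        wd_I_holo (holo_at (holo_deriv d.hf) hz), wd_I_antiholo (holo_at e.hm hz),
        wd_I_holo (holo_at e.hp hz)]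
      ring
    have hAi : IntegrableOn (fun z => deriv d.f z * (α * conj (e.km z) + conj α * e.kp z)) D := by
      refine IntegrableOn.congr_fun (iadd ((d.L2_f'.mul_int e.L2_km.conj).const_mul α)
        (e.int_f'kp.const_mul (conj α))) (fun z _ => ?_) measurableSet_D
      ring
    have hAi' := IntegrableOn.congr_fun ((d.L2_f'.mul_int e.L2_km'.conj).const_mul α)
      (fun z hz => (hAw z hz).symm) measurableSet_D
    have k4 := ibp_Zc (c := I) (by simp) hA hAi hAi' hZ
    obtain ⟨C, hC⟩ := hZ.bdd (c := I) (by simp)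
    have j4 := iadd (integrableOn_mul_bdd hAi (contOn_wd I hZ.1) fun z hz => (hC z hz).1)
      (integrableOn_mul_bdd hAi' hZ.1.continuousOn fun z hz => (hC z hz).2)
    obtain ⟨K, -, hK⟩ := bdd_wd_of_contDiff hT (c := I) (by simp)
    have j0 := iadd (integrableOn_mul_bdd d.int_P (contOn_wd I hT.contDiffOn)
      fun z hz => (hK z hz).1)
      (integrableOn_mul_bdd d.int_f'n hT.continuous.continuousOn fun z hz => (hK z hz).2)
    have key := integral_add (iadd (iadd (isub j0 j1) (j2.const_mul α)) (j3.const_mul (conj α))) j4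
    rw [integral_add (iadd (isub j0 j1) (j2.const_mul α)) (j3.const_mul (conj α)),
      integral_add (isub j0 j1) (j2.const_mul α), integral_sub j0 j1, integral_const_mul,
      integral_const_mul, k1, k2, k3, k4] at key
    simp only [sub_zero, mul_zero, add_zero] at key
    rw [← k0, ← key]
    congr 1
    refine setIntegral_congr_fun measurableSet_D fun z hz => ?_
    simp only [wd_lin _ _ _ hS1, hAw z hz, Wp, Wm, np, nm, ← d.f'_mul_v hz, e.hv z hz, e.hn z hz,
      map_add, map_mul, conj_conj, map_pow, map_ofNat]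
    ring

theorem upper {F₁ F₂ : ℂ → ℂ} (h1 : d.SS F₁) (h2 : d.SS F₂) :
    IntegrableOn (fun z => d.ρ z * (‖e.Wp F₁ z‖ ^ 2 + ‖e.Wm F₂ z‖ ^ 2)) D ∧
    d.μ * ∫ z in D, d.ρ z * (‖e.Wp F₁ z‖ ^ 2 + ‖e.Wm F₂ z‖ ^ 2) ≤
      2 * (d.μ * ∫ z in D, ‖d.P z‖ ^ 2) - 2 * (∫ z in D, conj (d.src z) * pot d.src z).re +
      4 * π * ‖e.c‖ ^ 2 + (∫ z in D, conj (F₁ z) * pot F₁ z).re +
      (∫ z in D, conj (F₂ z) * pot F₂ z).re := by
  obtain ⟨i1, k1⟩ := e.tangent h1 h2 1
  obtain ⟨i2, k2⟩ := e.tangent h1 h2 I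
  have par : ∀ a b : ℂ, ‖1 * a + conj 1 * b‖ ^ 2 + ‖I * a + conj I * b‖ ^ 2 =
      2 * (‖a‖ ^ 2 + ‖b‖ ^ 2) := fun a b => by
    simp only [Complex.sq_norm, Complex.normSq_apply]
    simp
    ring
  have e1 : ∀ z, d.ρ z * (‖e.Wp F₁ z‖ ^ 2 + ‖e.Wm F₂ z‖ ^ 2) =
      (‖deriv d.f z * (1 * e.Wp F₁ z + conj 1 * e.Wm F₂ z)‖ ^ 2 +
        ‖deriv d.f z * (I * e.Wp F₁ z + conj I * e.Wm F₂ z)‖ ^ 2) / 2 := fun z => by
    rw [norm_mul, norm_mul, mul_pow, mul_pow, ← mul_add, par, ρ]
    ring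
  have j1 := (((e.L2_np h1).const_mul 1).add ((e.L2_nm h2).const_mul (conj 1))).2
  have j2 := (((e.L2_np h1).const_mul I).add ((e.L2_nm h2).const_mul (conj I))).2
  have e2 := integral_add j1 j2
  simp only [par] at e2
  rw [integral_const_mul, integral_add (e.L2_np h1).2 (e.L2_nm h2).2] at e2
  simp only [e1]
  refine ⟨(iadd i1 i2).div_const 2, le_trans ?_ (e.upper_n h1 h2)⟩
  rw [integral_div, integral_add i1 i2]
  linarith

end Dec

end Crest.Agent.R101
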