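import Crest.Agent.R101.Cutoff

/-! Pointwise facts on the Green function of the disc and its regularisations. -/

open MeasureTheory Complex Metric Set Filter Topology
open scoped Real ComplexConjugate

namespace Crest.Agent.R101

/-- `|1 - x ȳ|²`. -/
noncomputable def QQ (x y : ℂ) : ℝ := ‖x - y‖ ^ 2 + (1 - ‖x‖ ^ 2) * (1 - ‖y‖ ^ 2)

/-- Regularised Green function. -/
noncomputable def Ge (ε : ℝ) (x y : ℂ) : ℝ :=
  1 / (4 * π) * Real.log (1 + (1 - ‖x‖ ^ 2) * (1 - ‖y‖ ^ 2) / (‖x - y‖ ^ 2 + ε))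

/-- Gradient in `x` of the regularised Green function. -/
noncomputable def ge (ε : ℝ) (x y : ℂ) : ℂ :=
  (1 / (2 * π) : ℝ) • ((QQ x y + ε)⁻¹ • ((‖y‖ ^ 2 : ℝ) • x - y) - (‖x - y‖ ^ 2 + ε)⁻¹ • (x - y))

/-- Error kernel. -/
noncomputable def rr (ε : ℝ) (w : ℂ) : ℝ := ε / (‖w‖ * (‖w‖ ^ 2 + ε))

theorem Ge_zero (x y : ℂ) : Ge 0 x y = G x y := by simp [Ge, G]

theorem one_sub_sq_pos {x : ℂ} (hx : x ∈ D) : 0 < 1 - ‖x‖ ^ 2 := by
  have := mem_D.1 hx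
  nlinarith [norm_nonneg x]

theorem QQ_pos {x y : ℂ} (hx : x ∈ D) (hy : y ∈ D) : 0 < QQ x y :=
  add_pos_of_nonneg_of_pos (sq_nonneg _) (mul_pos (one_sub_sq_pos hx) (one_sub_sq_pos hy))

theorem QQ_eq (x y : ℂ) : QQ x y = ‖1 - conj x * y‖ ^ 2 := by
  simp only [QQ, Complex.sq_norm, Complex.normSq_apply]
  simp
  ring

theorem norm_num_sq (x y : ℂ) : ‖(‖y‖ ^ 2 : ℝ) • x - y‖ ^ 2 = ‖y‖ ^ 2 * QQ x y := by
  simp only [QQ, Complex.sq_norm, Complex.normSq_apply]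
  simp
  ring

theorem Ge_nonneg {ε : ℝ} (hε : 0 ≤ ε) {x y : ℂ} (hx : x ∈ D) (hy : y ∈ D) : 0 ≤ Ge ε x y := by
  have h1 := one_sub_sq_pos hx
  have h2 := one_sub_sq_pos hy
  refine mul_nonneg (by positivity) (Real.log_nonneg ?_)
  have : 0 ≤ (1 - ‖x‖ ^ 2) * (1 - ‖y‖ ^ 2) / (‖x - y‖ ^ 2 + ε) := by positivity
  linarith

theorem G_nonneg {x y : ℂ} (hx : x ∈ D) (hy : y ∈ D) : 0 ≤ G x y := by
  rw [← Ge_zero]; exact Ge_nonneg le_rfl hx hy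

theorem log_one_add_le {s : ℝ} (hs : 0 ≤ s) : Real.log (1 + s) ≤ 2 * √s := by
  have h1 : 0 ≤ √s := Real.sqrt_nonneg s
  have h2 : 1 + s ≤ (1 + √s) ^ 2 := by nlinarith [Real.sq_sqrt hs]
  calc Real.log (1 + s) ≤ Real.log ((1 + √s) ^ 2) := Real.log_le_log (by linarith) h2
    _ = 2 * Real.log (1 + √s) := by rw [Real.log_pow]; norm_num
    _ ≤ 2 * √s := by
      have := Real.log_le_sub_one_of_pos (show 0 < 1 + √s by linarith)
      linarith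

theorem Ge_le {ε : ℝ} (hε : 0 ≤ ε) {x y : ℂ} (hx : x ∈ D) (hy : y ∈ D) (hxy : x ≠ y) :
    Ge ε x y ≤ √(1 - ‖x‖ ^ 2) * ‖x - y‖⁻¹ := by
  have h1 := one_sub_sq_pos hx
  have h2 := one_sub_sq_pos hy
  have h3 : 0 < ‖x - y‖ := norm_pos_iff.2 (sub_ne_zero.2 hxy)
  have h4 : (1 - ‖x‖ ^ 2) * (1 - ‖y‖ ^ 2) / (‖x - y‖ ^ 2 + ε) ≤
      (√(1 - ‖x‖ ^ 2) * ‖x - y‖⁻¹) ^ 2 := by
    rw [mul_pow, Real.sq_sqrt h1.le, inv_pow, ← div_eq_mul_inv]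
    apply div_le_div₀ h1.le _ (by positivity) (by linarith)
    nlinarith [sq_nonneg ‖y‖]
  have h5 : √((1 - ‖x‖ ^ 2) * (1 - ‖y‖ ^ 2) / (‖x - y‖ ^ 2 + ε)) ≤
      √(1 - ‖x‖ ^ 2) * ‖x - y‖⁻¹ := by
    rw [Real.sqrt_le_left (by positivity)]; exact h4
  have h6 := log_one_add_le
    (show 0 ≤ (1 - ‖x‖ ^ 2) * (1 - ‖y‖ ^ 2) / (‖x - y‖ ^ 2 + ε) by positivity)
  have h7 : 1 / (4 * π) ≤ 1 / 2 := by
    apply one_div_le_one_div_of_le (by norm_num); linarith [Real.pi_gt_three]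
  have h8 : 0 ≤ √(1 - ‖x‖ ^ 2) * ‖x - y‖⁻¹ := by positivity
  unfold Ge
  calc _ ≤ 1 / (4 * π) * (2 * (√(1 - ‖x‖ ^ 2) * ‖x - y‖⁻¹)) := by
        gcongr; linarith
    _ ≤ 1 / 2 * (2 * (√(1 - ‖x‖ ^ 2) * ‖x - y‖⁻¹)) := by gcongr
    _ = _ := by ring

theorem Ge_le' {ε : ℝ} (hε : 0 ≤ ε) {x y : ℂ} (hx : x ∈ D) (hy : y ∈ D) (hxy : x ≠ y) :
    Ge ε x y ≤ ‖x - y‖⁻¹ := by
  refine (Ge_le hε hx hy hxy).trans ?_
  have : √(1 - ‖x‖ ^ 2) ≤ 1 := by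
    rw [Real.sqrt_le_left zero_le_one]; nlinarith [sq_nonneg ‖x‖]
  exact mul_le_of_le_one_left (by positivity) this

theorem G_zero_left {y : ℂ} (hy0 : y ≠ 0) : G 0 y = tt y / (2 * π) := by
  have h : 0 < ‖y‖ := norm_pos_iff.2 hy0
  have : 1 + (1 - ‖(0 : ℂ)‖ ^ 2) * (1 - ‖y‖ ^ 2) / ‖0 - y‖ ^ 2 = (‖y‖ ^ 2)⁻¹ := by
    simp only [norm_zero, zero_sub, norm_neg]
    field_simp
    ring
  rw [G, this, Real.log_inv, Real.log_pow, tt]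
  field_simp
  ring

theorem tendsto_Ge {x y : ℂ} (hxy : x ≠ y) (hx : x ∈ D) (hy : y ∈ D) {e : ℕ → ℝ}
    (he : Tendsto e atTop (𝓝 0)) : Tendsto (fun n => Ge (e n) x y) atTop (𝓝 (G x y)) := by
  have h1 := one_sub_sq_pos hx
  have h2 := one_sub_sq_pos hy
  have h3 : 0 < ‖x - y‖ := norm_pos_iff.2 (sub_ne_zero.2 hxy)
  have hc : ContinuousAt (fun ε => Ge ε x y) 0 := by
    unfold Ge
    refine continuousAt_const.mul (ContinuousAt.log (continuousAt_const.add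
      (continuousAt_const.div (by fun_prop) (by positivity))) ?_)
    positivity
  rw [← Ge_zero]
  exact hc.tendsto.comp he

theorem hasFDerivAt_Ge {ε : ℝ} (hε : 0 < ε) {x y : ℂ} (hx : x ∈ D) (hy : y ∈ D) :
    HasFDerivAt (fun x => Ge ε x y) (innerSL ℝ (ge ε x y)) x := by
  have hq := QQ_pos hx hy
  have h1 : HasFDerivAt (fun w : ℂ => ‖w - y‖ ^ 2) ((2 : ℕ) • innerSL ℝ (x - y)) x := by
    have := (hasStrictFDerivAt_norm_sq (x - y)).hasFDerivAt.comp x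
      ((hasFDerivAt_id x).sub_const y)
    exact this.congr_fderiv (ContinuousLinearMap.comp_id _)
  have h2 : HasFDerivAt (fun w : ℂ => ‖w‖ ^ 2) ((2 : ℕ) • innerSL ℝ x) x :=
    (hasStrictFDerivAt_norm_sq x).hasFDerivAt
  have h3 := ((h1.add ((h2.const_sub 1).mul_const (1 - ‖y‖ ^ 2))).add_const ε).log
    (by change QQ x y + ε ≠ 0; positivity)
  have h4 := (h1.add_const ε).log (by positivity)
  have h5 := (h3.sub h4).const_mul (1 / (4 * π))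
  refine (h5.congr_of_eventuallyEq ?_).congr_fderiv ?_
  · filter_upwards [D_nhds hx] with w hw
    have hq' := QQ_pos hw hy
    simp only [Ge, Pi.sub_apply, Pi.add_apply]
    congr 1
    rw [← Real.log_div (by change QQ w y + ε ≠ 0; positivity) (by positivity)]
    congr 1
    field_simp
    ring
  · ext w
    change _ = inner ℝ (ge ε x y) w
    simp only [ge, real_inner_smul_left, inner_sub_left, _root_.smul_apply, _root_.sub_apply,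
      _root_.add_apply, _root_.neg_apply, innerSL_apply_apply, Pi.add_apply, smul_eq_mul,
      nsmul_eq_mul, QQ]
    push_cast
    ring

theorem aux_div_le {a ε : ℝ} (ha : 0 < a) (hε : 0 ≤ ε) : (a ^ 2 + ε)⁻¹ * a ≤ a⁻¹ := by
  rw [inv_mul_le_iff₀ (by positivity), ← div_eq_mul_inv, le_div_iff₀ ha]
  nlinarith

theorem norm_num_le {x y : ℂ} (hx : x ∈ D) (hy : y ∈ D) :
    ‖(‖y‖ ^ 2 : ℝ) • x - y‖ ≤ √(QQ x y) := by
  apply Real.le_sqrt_of_sq_le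
  rw [norm_num_sq]
  have := one_sub_sq_pos hy
  have := QQ_pos hx hy
  nlinarith

theorem norm_sub_le_sqrt {x y : ℂ} (hx : x ∈ D) (hy : y ∈ D) : ‖x - y‖ ≤ √(QQ x y) := by
  apply Real.le_sqrt_of_sq_le
  have := mul_pos (one_sub_sq_pos hx) (one_sub_sq_pos hy)
  unfold QQ
  linarith

theorem one_div_two_pi_le : |1 / (2 * π)| ≤ 1 / 2 := by
  rw [abs_of_pos (by positivity)]
  apply one_div_le_one_div_of_le (by norm_num); linarith [Real.pi_gt_three]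

theorem norm_ge_le {ε : ℝ} (hε : 0 ≤ ε) {x y : ℂ} (hx : x ∈ D) (hy : y ∈ D) (hxy : x ≠ y) :
    ‖ge ε x y‖ ≤ ‖x - y‖⁻¹ := by
  have h3 : 0 < ‖x - y‖ := norm_pos_iff.2 (sub_ne_zero.2 hxy)
  have hq := QQ_pos hx hy
  have hs : 0 < √(QQ x y) := Real.sqrt_pos.2 hq
  have h1 : ‖(QQ x y + ε)⁻¹ • ((‖y‖ ^ 2 : ℝ) • x - y)‖ ≤ ‖x - y‖⁻¹ := by
    rw [norm_smul, Real.norm_eq_abs, abs_of_pos (by positivity)]
    calc _ ≤ (√(QQ x y) ^ 2 + ε)⁻¹ * √(QQ x y) := by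
          rw [Real.sq_sqrt hq.le]; gcongr; exact norm_num_le hx hy
      _ ≤ (√(QQ x y))⁻¹ := aux_div_le hs hε
      _ ≤ _ := inv_anti₀ h3 (norm_sub_le_sqrt hx hy)
  have h2 : ‖(‖x - y‖ ^ 2 + ε)⁻¹ • (x - y)‖ ≤ ‖x - y‖⁻¹ := by
    rw [norm_smul, Real.norm_eq_abs, abs_of_pos (by positivity)]
    exact aux_div_le h3 hε
  rw [ge, norm_smul, Real.norm_eq_abs]
  calc _ ≤ 1 / 2 * (‖x - y‖⁻¹ + ‖x - y‖⁻¹) :=
        mul_le_mul one_div_two_pi_le ((norm_sub_le _ _).trans (add_le_add h1 h2)) (norm_nonneg _)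
          (by norm_num)
    _ = _ := by ring

theorem aux_div_le' {a ε : ℝ} (_ha : 0 ≤ a) (hε : 0 < ε) : (a ^ 2 + ε)⁻¹ * a ≤ 1 + ε⁻¹ := by
  rw [inv_mul_le_iff₀ (by positivity)]
  have h1 : ε * ε⁻¹ = 1 := mul_inv_cancel₀ hε.ne'
  have h2 : 0 ≤ a ^ 2 * ε⁻¹ := by positivity
  nlinarith [sq_nonneg (a - 1)]

theorem norm_ge_le' {ε : ℝ} (hε : 0 < ε) {x y : ℂ} (hx : x ∈ D) (hy : y ∈ D) :
    ‖ge ε x y‖ ≤ 1 + ε⁻¹ := by
  have hq := QQ_pos hx hy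
  have h1 : ‖(QQ x y + ε)⁻¹ • ((‖y‖ ^ 2 : ℝ) • x - y)‖ ≤ 1 + ε⁻¹ := by
    rw [norm_smul, Real.norm_eq_abs, abs_of_pos (by positivity)]
    calc _ ≤ (√(QQ x y) ^ 2 + ε)⁻¹ * √(QQ x y) := by
          rw [Real.sq_sqrt hq.le]; gcongr; exact norm_num_le hx hy
      _ ≤ _ := aux_div_le' (Real.sqrt_nonneg _) hε
  have h2 : ‖(‖x - y‖ ^ 2 + ε)⁻¹ • (x - y)‖ ≤ 1 + ε⁻¹ := by
    rw [norm_smul, Real.norm_eq_abs, abs_of_pos (by positivity)]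
    exact aux_div_le' (norm_nonneg _) hε
  rw [ge, norm_smul, Real.norm_eq_abs]
  calc _ ≤ 1 / 2 * ((1 + ε⁻¹) + (1 + ε⁻¹)) :=
        mul_le_mul one_div_two_pi_le ((norm_sub_le _ _).trans (add_le_add h1 h2)) (norm_nonneg _)
          (by norm_num)
    _ = _ := by ring

theorem aux_diff {a b ε : ℝ} (ha : 0 < a) (hab : a ≤ b) (hε : 0 ≤ ε) :
    |(b ^ 2 + ε)⁻¹ - (b ^ 2 + 0)⁻¹| * b ≤ ε / (a * (a ^ 2 + ε)) := by
  have hb : 0 < b := ha.trans_le hab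
  have : (b ^ 2 + ε)⁻¹ - (b ^ 2 + 0)⁻¹ = -(ε / (b ^ 2 * (b ^ 2 + ε))) := by
    field_simp
    ring
  rw [this, abs_neg, abs_of_nonneg (by positivity)]
  calc ε / (b ^ 2 * (b ^ 2 + ε)) * b = ε / (b * (b ^ 2 + ε)) := by field_simp
    _ ≤ _ := by gcongr

theorem norm_ge_sub_le {ε : ℝ} (hε : 0 ≤ ε) {x y : ℂ} (hx : x ∈ D) (hy : y ∈ D) (hxy : x ≠ y) :
    ‖ge ε x y - ge 0 x y‖ ≤ rr ε (x - y) := by
  have h3 : 0 < ‖x - y‖ := norm_pos_iff.2 (sub_ne_zero.2 hxy)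
  have hq := QQ_pos hx hy
  have e : ge ε x y - ge 0 x y = (1 / (2 * π) : ℝ) •
      (((QQ x y + ε)⁻¹ - (QQ x y + 0)⁻¹) • ((‖y‖ ^ 2 : ℝ) • x - y) -
        ((‖x - y‖ ^ 2 + ε)⁻¹ - (‖x - y‖ ^ 2 + 0)⁻¹) • (x - y)) := by
    simp only [ge]
    module
  have h1 : ‖((QQ x y + ε)⁻¹ - (QQ x y + 0)⁻¹) • ((‖y‖ ^ 2 : ℝ) • x - y)‖ ≤ rr ε (x - y) := by
    rw [norm_smul, Real.norm_eq_abs]
    calc _ ≤ |(√(QQ x y) ^ 2 + ε)⁻¹ - (√(QQ x y) ^ 2 + 0)⁻¹| * √(QQ x y) := by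
          rw [Real.sq_sqrt hq.le]; gcongr; exact norm_num_le hx hy
      _ ≤ _ := aux_diff h3 (norm_sub_le_sqrt hx hy) hε
  have h2 : ‖((‖x - y‖ ^ 2 + ε)⁻¹ - (‖x - y‖ ^ 2 + 0)⁻¹) • (x - y)‖ ≤ rr ε (x - y) := by
    rw [norm_smul, Real.norm_eq_abs]
    exact aux_diff h3 le_rfl hε
  rw [e, norm_smul, Real.norm_eq_abs]
  calc _ ≤ 1 / 2 * (rr ε (x - y) + rr ε (x - y)) :=
        mul_le_mul one_div_two_pi_le ((norm_sub_le _ _).trans (add_le_add h1 h2)) (norm_nonneg _)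
          (by norm_num)
    _ = _ := by ring

theorem rr_nonneg {ε : ℝ} (hε : 0 ≤ ε) (w : ℂ) : 0 ≤ rr ε w := by unfold rr; positivity

theorem rr_le {ε : ℝ} (hε : 0 ≤ ε) (w : ℂ) : rr ε w ≤ ‖w‖⁻¹ := by
  by_cases hw : w = 0
  · simp [rr, hw]
  have h : 0 < ‖w‖ := norm_pos_iff.2 hw
  rw [rr, div_le_iff₀ (by positivity), ← mul_assoc, inv_mul_cancel₀ h.ne']
  nlinarith

theorem rr_le_far {ε δ : ℝ} (hε : 0 ≤ ε) (hδ : 0 < δ) {w : ℂ} (hw : δ ≤ ‖w‖) :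
    rr ε w ≤ ε / δ ^ 3 := by
  have h : 0 < ‖w‖ := hδ.trans_le hw
  unfold rr
  apply div_le_div_of_nonneg_left hε (by positivity)
  calc δ ^ 3 = δ * (δ ^ 2 + 0) := by ring
    _ ≤ _ := by gcongr

theorem tendsto_rr (w : ℂ) {e : ℕ → ℝ} (he : Tendsto e atTop (𝓝 0)) :
    Tendsto (fun n => rr (e n) w) atTop (𝓝 0) := by
  by_cases hw : w = 0
  · simp [rr, hw]
  have h : 0 < ‖w‖ := norm_pos_iff.2 hw
  have hc : ContinuousAt (fun ε => rr ε w) 0 := by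
    unfold rr
    exact continuousAt_id.div (by fun_prop) (by positivity)
  have := hc.tendsto.comp he
  rwa [show rr 0 w = 0 by simp [rr]] at this

theorem measurable_rr (ε : ℝ) : Measurable (rr ε) := by unfold rr; fun_prop

theorem measurable_Ge (ε : ℝ) : Measurable fun p : ℂ × ℂ => Ge ε p.1 p.2 := by
  unfold Ge; fun_prop

theorem measurable_ge (ε : ℝ) : Measurable fun p : ℂ × ℂ => ge ε p.1 p.2 := by
  unfold ge QQ; fun_prop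

theorem continuousOn_ge {ε : ℝ} (hε : 0 < ε) {y : ℂ} (hy : y ∈ D) :
    ContinuousOn (fun x => ge ε x y) D := by
  have h1 : ContinuousOn (fun x => (QQ x y + ε)⁻¹) D :=
    ContinuousOn.inv₀ (by unfold QQ; fun_prop) fun x hx => by have := QQ_pos hx hy; positivity
  have h2 : ContinuousOn (fun x : ℂ => (‖x - y‖ ^ 2 + ε)⁻¹) D :=
    ContinuousOn.inv₀ (by fun_prop) fun x _ => by positivity
  unfold ge
  fun_prop

theorem ge_zero_eq {x y : ℂ} (hx : x ∈ D) (hy : y ∈ D) :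
    ge 0 x y = -(1 / (2 * π)) * (conj (conj y / (1 - x * conj y)) + conj (1 / (x - y))) := by
  have hq := QQ_pos hx hy
  have h1 : (1 - conj x * y) ≠ 0 := by
    intro h; rw [QQ_eq, h] at hq; simp at hq
  have h1' : (1 - x * conj y) ≠ 0 := by
    intro h; apply h1
    have := congrArg conj h
    simpa using this
  have e1 : ((QQ x y : ℝ) : ℂ) = (1 - conj x * y) * (1 - x * conj y) := by
    rw [QQ_eq, Complex.sq_norm, ← Complex.mul_conj]; simp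
  have e2 : ((‖y‖ ^ 2 : ℝ) : ℂ) = y * conj y := by
    rw [Complex.sq_norm, Complex.mul_conj]
  have e3 : ((‖x - y‖ ^ 2 : ℝ) : ℂ) = (x - y) * conj (x - y) := by
    rw [Complex.sq_norm, Complex.mul_conj]
  simp only [ge, add_zero, real_smul, ofReal_inv, e1, e2, e3, map_div₀, map_sub, map_mul,
    map_one, conj_conj]
  by_cases hxy : x - y = 0
  · have : conj x - conj y = 0 := by rw [← map_sub, hxy, map_zero]
    rw [hxy, this]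
    push_cast
    field_simp
    ring
  · have : conj x - conj y ≠ 0 := by rw [← map_sub]; exact (map_ne_zero _).2 hxy
    push_cast
    field_simp
    ring

end Crest.Agent.R101
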