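import Crest.Agent.R101.Dirichlet

/-! Complex form of the Dirichlet bound and the inequality for tangential fields. -/

open MeasureTheory Complex Metric Set Filter Topology
open scoped Real ComplexConjugate

namespace Crest.Agent.R101

theorem int_wd_sq_of_bdd {c : ℂ} {S : ℂ → ℂ} (hS : ContDiffOn ℝ 1 S D) {C : ℝ}
    (hC : ∀ z ∈ D, ‖wd c S z‖ ≤ C) : IntegrableOn (fun z => ‖wd c S z‖ ^ 2) D :=
  integrableOn_of_bdd ((contOn_wd c hS).norm.pow 2) (M := C ^ 2) fun z hz => by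
    rw [norm_pow, norm_norm]
    exact pow_le_pow_left₀ (norm_nonneg _) (hC z hz) 2

theorem Zc.int_wd_sq {S : ℂ → ℂ} (hS : Zc S) {c : ℂ} (hc : ‖c‖ ≤ 1) :
    IntegrableOn (fun z => ‖wd c S z‖ ^ 2) D := by
  obtain ⟨C, hC⟩ := hS.bdd hc
  exact int_wd_sq_of_bdd hS.1 fun z hz => (hC z hz).1

theorem bdd_wd_of_contDiff {S : ℂ → ℂ} (hS : ContDiff ℝ 1 S) {c : ℂ} (hc : ‖c‖ ≤ 1) :
    ∃ C : ℝ, 0 ≤ C ∧ ∀ z ∈ D, ‖wd c S z‖ ≤ C ∧ ‖S z‖ ≤ C := by
  obtain ⟨C, hC0, hC⟩ := bdd_of_contDiff hS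
  exact ⟨C, hC0, fun z hz =>
    ⟨(norm_wd_le hc _ z).trans (hC z (mem_D.1 hz).le).1, (hC z (mem_D.1 hz).le).2⟩⟩

theorem cross_zero {S : ℂ → ℂ} (hS : ContDiff ℝ 2 S) (h0 : ∀ z, ‖z‖ = 1 → (S z).im = 0) :
    ∫ z in D, ‖wd (-I) S z‖ ^ 2 = ∫ z in D, ‖wd I S z‖ ^ 2 := by
  have hS1 : ContDiff ℝ 1 S := hS.of_le (by norm_num)
  obtain ⟨C, -, hC⟩ := bdd_wd_of_contDiff hS1 (c := I) (by simp)
  obtain ⟨C', -, hC'⟩ := bdd_wd_of_contDiff hS1 (c := -I) (by simp)
  have i1 := int_wd_sq_of_bdd hS1.contDiffOn fun z hz => (hC z hz).1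
  have i2 := int_wd_sq_of_bdd hS1.contDiffOn fun z hz => (hC' z hz).1
  have ha : ContDiff ℝ 2 fun w => (S w).re := contDiff_re' hS
  have hA : ContDiff ℝ 1 (wd I fun w => ((S w).re : ℂ)) := contDiff_wd I (contDiff_ofReal' ha)
  have hb : Zc fun w => ((S w).im : ℂ) :=
    zc_of_contDiff (contDiff_ofReal' (contDiff_im' hS1)) fun z hz => by simp [h0 z hz]
  obtain ⟨K, -, hK⟩ := bdd_wd_of_contDiff hA (c := -I) (by simp)
  have j1 := integrableOn_of_bdd hA.continuous.continuousOn fun z hz => (hK z hz).2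
  have j2 := integrableOn_of_bdd (contOn_wd (-I) hA.contDiffOn) fun z hz => (hK z hz).1
  have h := ibp_Zc (c := -I) (by simp) hA.contDiffOn j1 j2 hb
  obtain ⟨L, hL⟩ := hb.bdd (c := -I) (by simp)
  have k1 := integrableOn_mul_bdd j1 (contOn_wd (-I) hb.1) fun z hz => (hL z hz).1
  have k2 := integrableOn_mul_bdd j2 hb.1.continuousOn fun z hz => (hL z hz).2
  have h2 := congrArg (fun w : ℂ => 4 * w.im) h
  simp only [zero_im, mul_zero] at h2
  rw [im_int (iadd k1 k2), ← integral_const_mul] at h2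
  rw [eq_comm, ← sub_eq_zero, ← integral_sub i1 i2, ← h2]
  refine setIntegral_congr_fun measurableSet_D fun z _ => ?_
  rw [cross_term (hS1.differentiable one_ne_zero z), add_im, im_mul_ofReal, lap_real ha]
  ring

namespace Data

variable (d : Data)

theorem int_ρ_mul {S : ℂ → ℂ} (hS : ContinuousOn S D) {C : ℝ} (hC : ∀ z ∈ D, ‖S z‖ ≤ C) :
    IntegrableOn (fun z => (d.ρ z : ℂ) * S z) D :=
  integrableOn_mul_bdd d.int_ρ.ofReal hS hC

theorem dirichlet : ∃ c : ℝ, 0 < c ∧ ∀ S : ℂ → ℂ, Zc S →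
    c * ‖∫ z in D, (d.ρ z : ℂ) * S z‖ ^ 2 + d.μ * ∫ z in D, d.ρ z * ‖S z‖ ^ 2 ≤
      2 * ((∫ z in D, ‖wd (-I) S z‖ ^ 2) + ∫ z in D, ‖wd I S z‖ ^ 2) := by
  obtain ⟨c, hc, h⟩ := d.dirichlet_real
  refine ⟨c, hc, fun S hS => ?_⟩
  have h1 := h _ hS.re
  have h2 := h _ hS.im
  have H1 := H1_of_Zc (d := d) hS.re
  have H2 := H1_of_Zc (d := d) hS.im
  rw [Q_self] at h1 h2
  obtain ⟨C, hC⟩ := hS.bdd (c := I) (by simp)
  have hi := d.int_ρ_mul hS.1.continuousOn fun z hz => (hC z hz).2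
  have e1 : ‖∫ z in D, (d.ρ z : ℂ) * S z‖ ^ 2 =
      d.ell (fun w => (S w).re) ^ 2 + d.ell (fun w => (S w).im) ^ 2 := by
    rw [Complex.sq_norm, Complex.normSq_apply, re_int hi, im_int hi]
    simp [ell, sq]
  have e2 : ∫ z in D, d.ρ z * ‖S z‖ ^ 2 =
      (∫ z in D, d.ρ z * (S z).re ^ 2) + ∫ z in D, d.ρ z * (S z).im ^ 2 := by
    rw [← integral_add H1.2.1 H2.2.1]
    congr 1
    ext z
    rw [Complex.sq_norm, Complex.normSq_apply]
    ring
  have e3 : 2 * ((∫ z in D, ‖wd (-I) S z‖ ^ 2) + ∫ z in D, ‖wd I S z‖ ^ 2) =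
      (∫ z in D, gsq (fun w => (S w).re) z) + ∫ z in D, gsq (fun w => (S w).im) z := by
    rw [← integral_add H1.2.2 H2.2.2, ← integral_add (hS.int_wd_sq (by simp))
      (hS.int_wd_sq (by simp)), ← integral_const_mul]
    exact setIntegral_congr_fun measurableSet_D fun z hz =>
      (gsq_re_add_im (diffAt_of_C1 hS.1 hz)).symm
  rw [e1, e2, e3]
  linarith

theorem poincare {S : ℂ → ℂ} (hS : ContDiff ℝ 2 S) (h0 : ∀ z, ‖z‖ = 1 → (S z).im = 0)
    (hm : d.ell (fun w => (S w).re) = 0) :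
    d.μ * ∫ z in D, d.ρ z * ‖S z‖ ^ 2 ≤ 4 * ∫ z in D, ‖wd I S z‖ ^ 2 := by
  have hS1 : ContDiff ℝ 1 S := hS.of_le (by norm_num)
  obtain ⟨c, hc, h⟩ := d.dirichlet_real
  have hb : Zc fun w => ((S w).im : ℂ) :=
    zc_of_contDiff (contDiff_ofReal' (contDiff_im' hS1)) fun z hz => by simp [h0 z hz]
  have H1 := H1_of_contDiff (d := d) (contDiff_re' hS1)
  have H2 := H1_of_Zc (d := d) hb
  have h1 := Q_nonneg H1 hm
  have h2 := h _ hb
  rw [Q_self] at h1 h2
  have h3 : 0 ≤ c * d.ell (fun w => (S w).im) ^ 2 := by positivity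
  obtain ⟨C, -, hC⟩ := bdd_wd_of_contDiff hS1 (c := I) (by simp)
  obtain ⟨C', -, hC'⟩ := bdd_wd_of_contDiff hS1 (c := -I) (by simp)
  have i1 := int_wd_sq_of_bdd hS1.contDiffOn fun z hz => (hC z hz).1
  have i2 := int_wd_sq_of_bdd hS1.contDiffOn fun z hz => (hC' z hz).1
  have e2 : ∫ z in D, d.ρ z * ‖S z‖ ^ 2 =
      (∫ z in D, d.ρ z * (S z).re ^ 2) + ∫ z in D, d.ρ z * (S z).im ^ 2 := by
    rw [← integral_add H1.2.1 H2.2.1]
    congr 1
    ext z
    rw [Complex.sq_norm, Complex.normSq_apply]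
    ring
  have e3 : 2 * ((∫ z in D, ‖wd (-I) S z‖ ^ 2) + ∫ z in D, ‖wd I S z‖ ^ 2) =
      (∫ z in D, gsq (fun w => (S w).re) z) + ∫ z in D, gsq (fun w => (S w).im) z := by
    rw [← integral_add H1.2.2 H2.2.2, ← integral_add i2 i1, ← integral_const_mul]
    exact setIntegral_congr_fun measurableSet_D fun z _ =>
      (gsq_re_add_im (hS1.differentiable one_ne_zero z)).symm
  rw [cross_zero hS h0] at e3
  rw [e2]
  linarith

theorem hodge {A n : ℂ → ℂ} (hA : ContinuousOn A D) (hAi : IntegrableOn A D)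
    (hn : ContinuousOn n D) (hn2 : IntegrableOn (fun z => ‖n z‖ ^ 2) D)
    (h : ∀ S : ℂ → ℂ, ContDiff ℝ 2 S → (∀ z, ‖z‖ = 1 → (S z).im = 0) →
      (∫ z in D, (A z * wd I S z + deriv d.f z * n z * S z)).re = 0) :
    IntegrableOn (fun z => ‖A z‖ ^ 2) D ∧
      d.μ * ∫ z in D, ‖A z‖ ^ 2 ≤ 4 * ∫ z in D, ‖n z‖ ^ 2 := by
  have hμ := d.hμ
  have hN : 0 ≤ ∫ z in D, ‖n z‖ ^ 2 := integral_nonneg fun z => sq_nonneg _
  obtain ⟨h1, h2⟩ := density A hA hAi (√(∫ z in D, ‖n z‖ ^ 2) * (2 / √d.μ)) (by positivity)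
    (fun S hS h0 => by
      have hS1 : ContDiff ℝ 1 S := hS.of_le (by norm_num)
      set c := d.ell (fun w => (S w).re) / d.ell fun _ => 1 with hc
      set T : ℂ → ℂ := fun z => S z - c with hT
      have hT2 : ContDiff ℝ 2 T := hS.sub contDiff_const
      have hT1 : ContDiff ℝ 1 T := hT2.of_le (by norm_num)
      have hT0 : ∀ z, ‖z‖ = 1 → (T z).im = 0 := fun z hz => by simp [hT, h0 z hz]
      have hwd : ∀ z, wd I T z = wd I S z := fun z => by
        rw [hT, wd_sub I (hS1.differentiable one_ne_zero z) (differentiableAt_const _), wd_const,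
          sub_zero]
      have hm : d.ell (fun w => (T w).re) = 0 := by
        have := ell_comb (H1_of_contDiff (d := d) (contDiff_re' hS1)) d.H1_one 1 (-c)
        have e : (fun w => (T w).re) = fun w => 1 * (S w).re + -c * 1 := by
          ext w; simp [hT]; ring
        have hp := ell_one_pos (d := d)
        rw [e, this, hc]
        field_simp
        ring
      have hP := d.poincare hT2 hT0 hm
      simp only [hwd] at hP
      obtain ⟨C, -, hC⟩ := bdd_wd_of_contDiff hT1 (c := I) (by simp)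
      have hβ : IntegrableOn (fun z => (‖deriv d.f z‖ * ‖T z‖) ^ 2) D := by
        simp only [mul_pow]
        refine Integrable.mul_bdd (c := C ^ 2) d.hρ
          ((hT1.continuous.norm.pow 2).aestronglyMeasurable) ?_
        filter_upwards [ae_D] with z hz
        rw [norm_pow, norm_norm]
        exact pow_le_pow_left₀ (norm_nonneg _) (hC z hz).2 2
      obtain ⟨k1, k2⟩ := cs (c := fun z => deriv d.f z * n z * T z) (α := fun z => ‖n z‖)
        (β := fun z => ‖deriv d.f z‖ * ‖T z‖)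
        (((d.contOn_f'.mul hn).mul hT1.continuous.continuousOn).aestronglyMeasurable
          measurableSet_D) hn2 hβ (fun z _ => by rw [norm_mul, norm_mul]; apply le_of_eq; ring)
      have k3 : IntegrableOn (fun z => A z * wd I T z) D :=
        integrableOn_mul_bdd hAi (contOn_wd I hT1.contDiffOn) fun z hz => (hC z hz).1
      have k4 := h T hT2 hT0
      rw [integral_add k3 k1, add_re] at k4
      simp only [hwd] at k4
      have k5 : -(∫ z in D, deriv d.f z * n z * T z).re ≤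
          ∫ z in D, ‖deriv d.f z * n z * T z‖ :=
        (neg_le_abs _).trans ((abs_re_le_norm _).trans (norm_integral_le_integral_norm _))
      have k6 : √(∫ z in D, (‖deriv d.f z‖ * ‖T z‖) ^ 2) ≤
          2 / √d.μ * √(∫ z in D, ‖wd I S z‖ ^ 2) := by
        rw [Real.sqrt_le_left (by positivity), mul_pow, div_pow, Real.sq_sqrt hμ.le,
          Real.sq_sqrt (integral_nonneg fun z => sq_nonneg _), div_mul_eq_mul_div,
          le_div_iff₀ hμ]
        simp only [mul_pow]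
        simp only [ρ] at hP
        linarith
      calc _ ≤ _ := by linarith
        _ ≤ _ := k5
        _ ≤ _ := k2
        _ ≤ √(∫ z in D, ‖n z‖ ^ 2) * (2 / √d.μ * √(∫ z in D, ‖wd I S z‖ ^ 2)) := by gcongr
        _ = _ := by ring)
  refine ⟨h1, ?_⟩
  rw [mul_pow, div_pow, Real.sq_sqrt hμ.le, Real.sq_sqrt hN, ← mul_div_assoc,
    le_div_iff₀ hμ] at h2
  linarith

end Data

end Crest.Agent.R101
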