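import Mathlib

/-! The Langevin three-point inequality (pure real analysis, used by `R101/Kernel.lean`). -/

open Set Filter Topology
open Real

namespace Crest.Agent.R101

lemma ker_monoIoi {f f' : ℝ → ℝ} (hd : ∀ t, 0 < t → HasDerivAt f (f' t) t)
    (h0 : ∀ t, 0 < t → 0 ≤ f' t) : MonotoneOn f (Ioi 0) := by
  refine monotoneOn_of_hasDerivWithinAt_nonneg (f' := f') (convex_Ioi 0)
    (fun t ht => (hd t ht).continuousAt.continuousWithinAt) ?_ ?_
  · intro t ht
    rw [interior_Ioi] at ht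
    exact (hd t ht).hasDerivWithinAt
  · intro t ht
    rw [interior_Ioi] at ht
    exact h0 t ht

lemma ker_nonneg {f f' : ℝ → ℝ} (hd : ∀ t, HasDerivAt f (f' t) t)
    (h0 : ∀ t, 0 ≤ t → 0 ≤ f' t) (hf : 0 ≤ f 0) : ∀ t, 0 ≤ t → 0 ≤ f t := by
  intro t ht
  have : MonotoneOn f (Ici 0) := by
    refine monotoneOn_of_hasDerivWithinAt_nonneg (f' := f') (convex_Ici 0)
      (fun t _ => (hd t).continuousAt.continuousWithinAt) ?_ ?_
    · intro t _
      exact (hd t).hasDerivWithinAt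
    · intro t ht
      rw [interior_Ici] at ht
      exact h0 t (le_of_lt ht)
  exact hf.trans (this (mem_Ici.2 le_rfl) ht ht)

/-- A family of functions closed under differentiation. -/
noncomputable def kerF (a b c d e0 e1 e2 e3 f0 f1 f2 f3 : ℝ) (t : ℝ) : ℝ :=
  a * cosh (3 * t) + b * sinh (3 * t) + c * (t * cosh (3 * t)) + d * (t * sinh (3 * t))
    + (e0 + e1 * t + e2 * t ^ 2 + e3 * t ^ 3) * cosh t
    + (f0 + f1 * t + f2 * t ^ 2 + f3 * t ^ 3) * sinh t

lemma kerF_deriv (a b c d e0 e1 e2 e3 f0 f1 f2 f3 : ℝ) (t : ℝ) :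
    HasDerivAt (kerF a b c d e0 e1 e2 e3 f0 f1 f2 f3)
      (kerF (3 * b + c) (3 * a + d) (3 * d) (3 * c)
        (e1 + f0) (2 * e2 + f1) (3 * e3 + f2) f3
        (f1 + e0) (2 * f2 + e1) (3 * f3 + e2) e3 t) t := by
  have h3 : HasDerivAt (fun t : ℝ => 3 * t) 3 t := by
    simpa using (hasDerivAt_id t).const_mul (3 : ℝ)
  have hc3 := h3.cosh
  have hs3 := h3.sinh
  have hi := hasDerivAt_id' t
  have hp : ∀ u0 u1 u2 u3 : ℝ, HasDerivAt (fun t : ℝ => u0 + u1 * t + u2 * t ^ 2 + u3 * t ^ 3)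
      (u1 + 2 * u2 * t + 3 * u3 * t ^ 2) t := by
    intro u0 u1 u2 u3
    have := (((hi.const_mul u1).const_add u0).add ((hasDerivAt_pow 2 t).const_mul u2)).add
      ((hasDerivAt_pow 3 t).const_mul u3)
    refine this.congr_deriv ?_
    norm_num
    ring
  have := (((((hc3.const_mul a).add (hs3.const_mul b)).add ((hi.mul hc3).const_mul c)).add
    ((hi.mul hs3).const_mul d)).add ((hp e0 e1 e2 e3).mul (hasDerivAt_cosh t))).add
    ((hp f0 f1 f2 f3).mul (hasDerivAt_sinh t))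
  refine this.congr_deriv ?_
  simp only [kerF]
  ring

lemma kerF_step {a b c d e0 e1 e2 e3 f0 f1 f2 f3 : ℝ}
    (h : ∀ t, 0 ≤ t → 0 ≤ kerF (3 * b + c) (3 * a + d) (3 * d) (3 * c)
        (e1 + f0) (2 * e2 + f1) (3 * e3 + f2) f3
        (f1 + e0) (2 * f2 + e1) (3 * f3 + e2) e3 t) (h0 : 0 ≤ a + e0) :
    ∀ t, 0 ≤ t → 0 ≤ kerF a b c d e0 e1 e2 e3 f0 f1 f2 f3 t :=
  ker_nonneg (kerF_deriv a b c d e0 e1 e2 e3 f0 f1 f2 f3) h (by simpa [kerF] using h0)

lemma ker_g {t : ℝ} (ht : 0 ≤ t) :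
    0 ≤ t * cosh t * sinh t ^ 2 + t ^ 3 * cosh t - 2 * sinh t ^ 3 := by
  have key : ∀ t, 0 ≤ t → 0 ≤ kerF 0 (-1 / 2) (1 / 4) 0 0 (-1 / 4) 0 1 (3 / 2) 0 0 0 t := by
    refine kerF_step (kerF_step (kerF_step (kerF_step (kerF_step (kerF_step ?_ ?_) ?_) ?_) ?_) ?_) ?_
    · intro t ht
      have h1 := cosh_pos t
      have h2 := cosh_pos (3 * t)
      have h3 : 0 ≤ sinh t := sinh_nonneg_iff.2 ht
      have h4 : 0 ≤ sinh (3 * t) := sinh_nonneg_iff.2 (by positivity)
      norm_num [kerF]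
      positivity
    all_goals norm_num
  have := key t ht
  simp only [kerF, Real.cosh_three_mul, Real.sinh_three_mul] at this
  have hc := Real.cosh_sq t
  have e : t * cosh t * sinh t ^ 2 = t * cosh t * (cosh t ^ 2 - 1) := by rw [hc]; ring
  rw [e]
  nlinarith [this]

/-- The Langevin function. -/
noncomputable def Lg (t : ℝ) : ℝ := cosh t / sinh t - 1 / t

lemma Lg_nonneg {t : ℝ} (ht : 0 < t) : 0 ≤ Lg t := by
  have hs : 0 < sinh t := sinh_pos_iff.2 ht
  have key : ∀ t, 0 ≤ t → 0 ≤ kerF 0 0 0 0 0 1 0 0 (-1) 0 0 0 t := by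
    refine kerF_step ?_ (by norm_num)
    intro t ht
    have h3 : 0 ≤ sinh t := sinh_nonneg_iff.2 ht
    norm_num [kerF]
    positivity
  have := key t ht.le
  norm_num [kerF] at this
  rw [Lg, sub_nonneg, div_le_div_iff₀ ht hs]
  linarith

lemma Lg_lt_one {t : ℝ} (ht : 0 < t) : Lg t < 1 := by
  have hs : 0 < sinh t := sinh_pos_iff.2 ht
  have h1 : t < sinh t := self_lt_sinh_iff.2 ht
  have h2 : cosh t - sinh t = exp (-t) := Real.cosh_sub_sinh t
  have h3 : exp (-t) < 1 := exp_lt_one_iff.2 (by linarith)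
  have h4 : Lg t = 1 - (sinh t - t * (cosh t - sinh t)) / (t * sinh t) := by
    rw [Lg]; field_simp; ring
  rw [h4, h2]
  have : 0 < (sinh t - t * exp (-t)) / (t * sinh t) := by
    apply div_pos _ (by positivity)
    nlinarith
  linarith

lemma Lg_deriv {t : ℝ} (ht : 0 < t) : HasDerivAt Lg (1 / t ^ 2 - 1 / sinh t ^ 2) t := by
  have hs : 0 < sinh t := sinh_pos_iff.2 ht
  have h1 := (hasDerivAt_cosh t).div (hasDerivAt_sinh t) hs.ne'
  have h2 := (hasDerivAt_const t (1 : ℝ)).div (hasDerivAt_id' t) ht.ne'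
  refine (h1.sub h2).congr_deriv ?_
  have hc := Real.cosh_sq t
  field_simp
  nlinarith [hc]

lemma Lg_mono : MonotoneOn Lg (Ioi 0) := by
  refine ker_monoIoi (fun t ht => Lg_deriv ht) ?_
  intro t ht
  have h1 : t ≤ sinh t := self_le_sinh_iff.2 ht.le
  rw [sub_nonneg]
  gcongr

/-- `L'(t) sinh t`. -/
noncomputable def kerH (t : ℝ) : ℝ := sinh t / t ^ 2 - 1 / sinh t

lemma kerH_nonneg {t : ℝ} (ht : 0 < t) : 0 ≤ kerH t := by
  have hs : 0 < sinh t := sinh_pos_iff.2 ht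
  have h1 : t ≤ sinh t := self_le_sinh_iff.2 ht.le
  rw [kerH, sub_nonneg, div_le_div_iff₀ hs (by positivity)]
  nlinarith

lemma kerH_mono : MonotoneOn kerH (Ioi 0) := by
  refine ker_monoIoi (f' := fun t => (t * cosh t * sinh t ^ 2 + t ^ 3 * cosh t - 2 * sinh t ^ 3)
    / (t ^ 3 * sinh t ^ 2)) ?_ ?_
  · intro t ht
    have hs : 0 < sinh t := sinh_pos_iff.2 ht
    have h1 := (hasDerivAt_sinh t).div (hasDerivAt_pow 2 t) (by positivity)
    have h2 := (hasDerivAt_const t (1 : ℝ)).div (hasDerivAt_sinh t) hs.ne'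
    refine (h1.sub h2).congr_deriv ?_
    norm_num
    field_simp
    ring
  · intro t ht
    have hs : 0 < sinh t := sinh_pos_iff.2 ht
    exact div_nonneg (ker_g ht.le) (by positivity)

/-- The involution `sinh (τ d) = 1 / sinh d`. -/
noncomputable def kerT (d : ℝ) : ℝ := arsinh (1 / sinh d)

lemma kerT_pos {d : ℝ} (hd : 0 < d) : 0 < kerT d := by
  have hs : 0 < sinh d := sinh_pos_iff.2 hd
  exact arsinh_pos_iff.2 (by positivity)

lemma sinh_kerT (d : ℝ) : sinh (kerT d) = 1 / sinh d := sinh_arsinh _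

lemma ker_sqrt {d : ℝ} (hd : 0 < d) : √(1 + (1 / sinh d) ^ 2) = cosh d / sinh d := by
  have hs : 0 < sinh d := sinh_pos_iff.2 hd
  have hc := cosh_pos d
  rw [sqrt_eq_iff_mul_self_eq (by positivity) (by positivity)]
  have := Real.cosh_sq d
  field_simp
  linarith

lemma cosh_kerT {d : ℝ} (hd : 0 < d) : cosh (kerT d) = cosh d / sinh d := by
  rw [kerT, cosh_arsinh, ker_sqrt hd]

lemma kerT_kerT (d : ℝ) : kerT (kerT d) = d := by
  rw [kerT, sinh_kerT, one_div_one_div, arsinh_sinh]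

lemma kerT_anti {a b : ℝ} (ha : 0 < a) (hab : a ≤ b) : kerT b ≤ kerT a := by
  have hs : 0 < sinh a := sinh_pos_iff.2 ha
  have : sinh a ≤ sinh b := sinh_le_sinh.2 hab
  rw [kerT, kerT, arsinh_le_arsinh]
  gcongr

lemma kerT_deriv {d : ℝ} (hd : 0 < d) : HasDerivAt kerT (-sinh (kerT d)) d := by
  have hs : 0 < sinh d := sinh_pos_iff.2 hd
  have hc := cosh_pos d
  have h2 := (hasDerivAt_const d (1 : ℝ)).div (hasDerivAt_sinh d) hs.ne'
  have h3 := (hasDerivAt_arsinh (1 / sinh d)).comp d h2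
  refine h3.congr_deriv ?_
  rw [ker_sqrt hd, sinh_kerT]
  field_simp
  ring

/-- The angle function. -/
noncomputable def kerA (d : ℝ) : ℝ := arccos (Lg (kerT d))

/-- Its derivative. -/
noncomputable def kerA' (d : ℝ) : ℝ := kerH (kerT d) / √(1 - Lg (kerT d) ^ 2)

lemma Lg_sq_lt {t : ℝ} (ht : 0 < t) : 0 < 1 - Lg t ^ 2 := by
  have h1 := Lg_nonneg ht
  have h2 := Lg_lt_one ht
  nlinarith

lemma kerA_deriv {d : ℝ} (hd : 0 < d) : HasDerivAt kerA (kerA' d) d := by
  have ht := kerT_pos hd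
  have h1 := Lg_nonneg ht
  have h2 := Lg_lt_one ht
  have h3 := (hasDerivAt_arccos (x := Lg (kerT d)) (by linarith) h2.ne).comp d
    ((Lg_deriv ht).comp d (kerT_deriv hd))
  refine h3.congr_deriv ?_
  have hs : 0 < sinh (kerT d) := sinh_pos_iff.2 ht
  have hq : 0 < √(1 - Lg (kerT d) ^ 2) := sqrt_pos.2 (Lg_sq_lt ht)
  rw [kerA', kerH]
  field_simp

lemma kerA'_anti {a b : ℝ} (ha : 0 < a) (hab : a ≤ b) : kerA' b ≤ kerA' a := by
  have hb : 0 < b := ha.trans_le hab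
  have hT := kerT_anti ha hab
  have hta := kerT_pos ha
  have htb := kerT_pos hb
  have hH : kerH (kerT b) ≤ kerH (kerT a) := kerH_mono htb hta hT
  have hL : Lg (kerT b) ≤ Lg (kerT a) := Lg_mono htb hta hT
  have hq : 0 < √(1 - Lg (kerT a) ^ 2) := sqrt_pos.2 (Lg_sq_lt hta)
  have hL0 := Lg_nonneg htb
  have hH0 := kerH_nonneg hta
  rw [kerA', kerA']
  gcongr

lemma kerA_mono {a b : ℝ} (ha : 0 < a) (hab : a ≤ b) : kerA a ≤ kerA b :=
  arccos_le_arccos (Lg_mono (kerT_pos (ha.trans_le hab)) (kerT_pos ha) (kerT_anti ha hab))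

lemma kerA_subadd {a b : ℝ} (ha : 0 < a) (hb : 0 < b) : kerA (a + b) ≤ kerA a + kerA b := by
  have hmono : MonotoneOn (fun s => kerA s - kerA (s + b)) (Ioi 0) := by
    refine ker_monoIoi (f' := fun s => kerA' s - kerA' (s + b)) ?_ ?_
    · intro s hs
      exact (kerA_deriv hs).sub ((kerA_deriv (add_pos hs hb)).comp_add_const s b)
    · intro s hs
      exact sub_nonneg.2 (kerA'_anti hs (by linarith))
  have hlim : Tendsto (fun s => -kerA (s + b)) (𝓝[>] 0) (𝓝 (-kerA b)) := by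
    have h1 : ContinuousAt (fun s : ℝ => -kerA (s + b)) 0 := by
      refine ContinuousAt.neg ?_
      exact ContinuousAt.comp_of_eq (g := kerA) (f := fun s : ℝ => s + b)
        (kerA_deriv hb).continuousAt (by fun_prop) (by simp)
    simpa using h1.tendsto.mono_left nhdsWithin_le_nhds
  have : -kerA b ≤ kerA a - kerA (a + b) := by
    refine le_of_tendsto hlim ?_
    filter_upwards [Ioo_mem_nhdsGT ha] with s hs
    have h1 := hmono hs.1 ha hs.2.le
    have h2 : 0 ≤ kerA s := arccos_nonneg _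
    simp only at h1
    linarith
  linarith

/-- The three-point inequality for the Langevin function. -/
theorem langevin {a b c : ℝ} (ha : 0 < a) (hb : 0 < b) (hc : 0 < c)
    (h : |cosh c / sinh c - cosh a / sinh a * (cosh b / sinh b)| ≤ 1 / sinh a * (1 / sinh b)) :
    |Lg c - Lg a * Lg b| ≤ √(1 - Lg a ^ 2) * √(1 - Lg b ^ 2) := by
  have hA := kerT_pos ha
  have hB := kerT_pos hb
  have hC := kerT_pos hc
  rw [← cosh_kerT ha, ← cosh_kerT hb, ← cosh_kerT hc, ← sinh_kerT, ← sinh_kerT, abs_le] at h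
  have t1 : kerT c ≤ kerT a + kerT b := by
    have : cosh (kerT c) ≤ cosh (kerT a + kerT b) := by rw [cosh_add]; linarith [h.2]
    rwa [cosh_le_cosh, abs_of_pos hC, abs_of_pos (add_pos hA hB)] at this
  have t2 : |kerT a - kerT b| ≤ kerT c := by
    have : cosh (kerT a - kerT b) ≤ cosh (kerT c) := by rw [cosh_sub]; linarith [h.1]
    rwa [cosh_le_cosh, abs_of_pos hC] at this
  rw [abs_le] at t2
  have s1 : kerA (kerT c) ≤ kerA (kerT a) + kerA (kerT b) :=
    (kerA_mono hC t1).trans (kerA_subadd hA hB)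
  have s2 : kerA (kerT a) ≤ kerA (kerT b) + kerA (kerT c) :=
    (kerA_mono hA (by linarith [t2.2])).trans (kerA_subadd hB hC)
  have s3 : kerA (kerT b) ≤ kerA (kerT a) + kerA (kerT c) :=
    (kerA_mono hB (by linarith [t2.1])).trans (kerA_subadd hA hC)
  simp only [kerA, kerT_kerT] at s1 s2 s3
  have ca : ∀ t, 0 < t → cos (arccos (Lg t)) = Lg t := fun t ht =>
    cos_arccos (by linarith [Lg_nonneg ht]) (Lg_lt_one ht).le
  have pa : ∀ t, 0 < t → arccos (Lg t) ≤ π / 2 := fun t ht =>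
    arccos_le_pi_div_two.2 (Lg_nonneg ht)
  have u1 : cos (arccos (Lg a) + arccos (Lg b)) ≤ cos (arccos (Lg c)) :=
    cos_le_cos_of_nonneg_of_le_pi (arccos_nonneg _) (by linarith [pa a ha, pa b hb]) s1
  have u2 : cos (arccos (Lg c)) ≤ cos (arccos (Lg a) - arccos (Lg b)) := by
    rw [← cos_abs (arccos (Lg a) - arccos (Lg b))]
    exact cos_le_cos_of_nonneg_of_le_pi (abs_nonneg _) (arccos_le_pi _)
      (abs_le.2 ⟨by linarith, by linarith⟩)
  rw [cos_add, ca a ha, ca b hb, ca c hc, sin_arccos, sin_arccos] at u1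
  rw [cos_sub, ca a ha, ca b hb, ca c hc, sin_arccos, sin_arccos] at u2
  exact abs_le.2 ⟨by linarith, by linarith⟩

end Crest.Agent.R101
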