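import Crest.Agent.R101.Defs
import Crest.Agent.R101.KernelAux

open MeasureTheory Complex Metric Set Filter Topology
open scoped Real ComplexConjugate

namespace Crest.Agent.R101

lemma ker_facts {x : ℂ} (hx : x ∈ D) (hx0 : x ≠ 0) :
    0 < ‖x‖ ∧ ‖x‖ < 1 ∧ 0 < 1 - ‖x‖ ^ 2 ∧ 0 < tt x ∧
      Real.sinh (tt x) = (1 - ‖x‖ ^ 2) / (2 * ‖x‖) ∧
      Real.cosh (tt x) = (1 + ‖x‖ ^ 2) / (2 * ‖x‖) := by
  have h0 : 0 < ‖x‖ := norm_pos_iff.2 hx0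
  have h1 : ‖x‖ < 1 := by simpa using hx
  refine ⟨h0, h1, by nlinarith, ?_, ?_, ?_⟩
  · have := Real.log_neg h0 h1
    simp only [tt]; linarith
  · rw [tt, Real.sinh_neg, Real.sinh_log h0]; field_simp; ring
  · rw [tt, Real.cosh_neg, Real.cosh_log h0]; field_simp; ring

lemma ker_coth {x : ℂ} (hx : x ∈ D) (hx0 : x ≠ 0) :
    Real.cosh (tt x) / Real.sinh (tt x) = (1 + ‖x‖ ^ 2) / (1 - ‖x‖ ^ 2) := by
  obtain ⟨h0, h1, h2, h3, hs, hc⟩ := ker_facts hx hx0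
  rw [hs, hc]; field_simp

lemma ker_csch {x : ℂ} (hx : x ∈ D) (hx0 : x ≠ 0) :
    1 / Real.sinh (tt x) = 2 * ‖x‖ / (1 - ‖x‖ ^ 2) := by
  obtain ⟨h0, h1, h2, h3, hs, hc⟩ := ker_facts hx hx0
  rw [hs]; field_simp

lemma ker_kap {x : ℂ} (hx : x ∈ D) (hx0 : x ≠ 0) : kap x = 1 + tt x * Lg (tt x) := by
  obtain ⟨h0, h1, h2, h3, hs, hc⟩ := ker_facts hx hx0
  rw [Lg, ker_coth hx hx0, kap]; field_simp; ring

lemma ker_mm {x : ℂ} (hx : x ∈ D) (hx0 : x ≠ 0) :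
    ‖mm x‖ = tt x * (2 * ‖x‖ / (1 - ‖x‖ ^ 2)) := by
  obtain ⟨h0, h1, h2, h3, hs, hc⟩ := ker_facts hx hx0
  rw [mm, norm_mul, Complex.norm_real, Real.norm_of_nonneg (by positivity)]
  field_simp

lemma ker_diag {x : ℂ} (hx : x ∈ D) (hx0 : x ≠ 0) :
    2 * kap x - ‖mm x‖ ^ 2 - 1 = tt x ^ 2 * (1 - Lg (tt x) ^ 2) := by
  obtain ⟨h0, h1, h2, h3, hs, hc⟩ := ker_facts hx hx0
  rw [ker_mm hx hx0, Lg, ker_coth hx hx0, kap]; field_simp; ring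

lemma ker_pp {x : ℂ} (hx : x ∈ D) (hx0 : x ≠ 0) : pp x = tt x * √(1 - Lg (tt x) ^ 2) := by
  obtain ⟨h0, h1, h2, h3, hs, hc⟩ := ker_facts hx hx0
  rw [pp, ker_diag hx hx0, Real.sqrt_mul (sq_nonneg _), Real.sqrt_sq h3.le]

theorem kap_bounds {x : ℂ} (hx : x ∈ D) (hx0 : x ≠ 0) :
    0 ≤ kap x ∧ kap x ≤ 1 + tt x ∧ ‖mm x‖ ≤ 1 ∧ 0 < 2 * kap x - ‖mm x‖ ^ 2 - 1 := by
  obtain ⟨h0, h1, h2, h3, hs, hc⟩ := ker_facts hx hx0
  have l0 := Lg_nonneg h3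
  have l1 := Lg_lt_one h3
  refine ⟨?_, ?_, ?_, ?_⟩
  · rw [ker_kap hx hx0]; positivity
  · rw [ker_kap hx hx0]; nlinarith
  · rw [ker_mm hx hx0, ← ker_csch hx hx0, mul_one_div,
      div_le_one (Real.sinh_pos_iff.2 h3)]
    exact Real.self_le_sinh_iff.2 h3.le
  · rw [ker_diag hx hx0]
    exact mul_pos (by positivity) (Lg_sq_lt h3)

theorem kernel_ineq {x y : ℂ} (hx : x ∈ D) (hy : y ∈ D) (hx0 : x ≠ 0) (hy0 : y ≠ 0)
    (hxy : x ≠ y) :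
    |G x y * (kap x + kap y - 1 - (mm x * conj (mm y)).re) - tt x * tt y / (2 * π)|
      ≤ G x y * (pp x * pp y) := by
  obtain ⟨x0, x1, x2, x3, -, -⟩ := ker_facts hx hx0
  obtain ⟨y0, y1, y2, y3, -, -⟩ := ker_facts hy hy0
  have hM : 0 < ‖x - y‖ := norm_pos_iff.2 (sub_ne_zero.2 hxy)
  set q : ℝ := 1 + (1 - ‖x‖ ^ 2) * (1 - ‖y‖ ^ 2) / ‖x - y‖ ^ 2 with hq
  have hq1 : 1 < q := by
    have : 0 < (1 - ‖x‖ ^ 2) * (1 - ‖y‖ ^ 2) / ‖x - y‖ ^ 2 := by positivity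
    linarith
  set c : ℝ := Real.log q / 2 with hc
  have hc0 : 0 < c := by
    have := Real.log_pos hq1
    positivity
  have hG : G x y = c / (2 * π) := by
    rw [G, ← hq, hc]; field_simp; ring
  set P : ℝ := (x * conj y).re with hP
  have hPabs : |P| ≤ ‖x‖ * ‖y‖ := by
    have := Complex.abs_re_le_norm (x * conj y)
    rwa [norm_mul, Complex.norm_conj] at this
  have hnorm : ‖x - y‖ ^ 2 = ‖x‖ ^ 2 + ‖y‖ ^ 2 - 2 * P := by
    rw [← Complex.normSq_eq_norm_sq, ← Complex.normSq_eq_norm_sq, ← Complex.normSq_eq_norm_sq,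
      Complex.normSq_sub]
  have hcoth : Real.cosh c / Real.sinh c = (q + 1) / (q - 1) := by
    have e : Real.exp c * Real.exp c = q := by
      rw [← Real.exp_add, hc, add_halves, Real.exp_log (by linarith)]
    have hs : 0 < Real.sinh c := Real.sinh_pos_iff.2 hc0
    have he := Real.exp_pos c
    rw [div_eq_div_iff hs.ne' (by linarith), Real.cosh_eq, Real.sinh_eq, Real.exp_neg, ← e]
    field_simp
  have hcoth' : Real.cosh c / Real.sinh c =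
      (1 + ‖x‖ ^ 2) / (1 - ‖x‖ ^ 2) * ((1 + ‖y‖ ^ 2) / (1 - ‖y‖ ^ 2))
        - 4 * P / ((1 - ‖x‖ ^ 2) * (1 - ‖y‖ ^ 2)) := by
    have e1 : q - 1 = (1 - ‖x‖ ^ 2) * (1 - ‖y‖ ^ 2) / ‖x - y‖ ^ 2 := by rw [hq]; ring
    have e2 : q + 1 = ((1 + ‖x‖ ^ 2) * (1 + ‖y‖ ^ 2) - 4 * P) / ‖x - y‖ ^ 2 := by
      rw [hq]; field_simp; rw [hnorm]; ring
    rw [hcoth, e1, e2]
    field_simp
  have hL := langevin x3 y3 hc0 (by
    rw [hcoth', ker_coth hx hx0, ker_coth hy hy0, ker_csch hx hx0, ker_csch hy hy0,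
      sub_sub_cancel_left, abs_neg, abs_div, abs_of_pos (mul_pos x2 y2), abs_mul,
      div_mul_div_comm]
    refine div_le_div_of_nonneg_right ?_ (mul_pos x2 y2).le
    rw [abs_of_pos (by norm_num : (0 : ℝ) < 4)]
    linarith)
  have hre : (mm x * conj (mm y)).re =
      tt x * tt y * (4 * P / ((1 - ‖x‖ ^ 2) * (1 - ‖y‖ ^ 2))) := by
    have : mm x * conj (mm y) =
        ((2 * tt x / (1 - ‖x‖ ^ 2) * (2 * tt y / (1 - ‖y‖ ^ 2)) : ℝ) : ℂ) * (x * conj y) := by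
      rw [mm, mm, map_mul, Complex.conj_ofReal, Complex.ofReal_mul]; ring
    rw [this, Complex.re_ofReal_mul, ← hP]
    field_simp
    ring
  have hmain : G x y * (kap x + kap y - 1 - (mm x * conj (mm y)).re) - tt x * tt y / (2 * π)
      = G x y * (tt x * tt y) * (Lg c - Lg (tt x) * Lg (tt y)) := by
    rw [hre, hG, Lg, Lg, Lg, hcoth', ker_coth hx hx0, ker_coth hy hy0, kap, kap]
    have := Real.pi_pos
    field_simp
    ring
  have hG0 : 0 < G x y := by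
    rw [hG]; have := Real.pi_pos; positivity
  rw [hmain, abs_mul, abs_of_pos (by positivity), ker_pp hx hx0, ker_pp hy hy0]
  calc G x y * (tt x * tt y) * |Lg c - Lg (tt x) * Lg (tt y)|
      ≤ G x y * (tt x * tt y) * (√(1 - Lg (tt x) ^ 2) * √(1 - Lg (tt y) ^ 2)) := by gcongr
    _ = _ := by ring

end Crest.Agent.R101
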