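import Crest.Agent.R101.Poisson

/-! Cauchy-Schwarz, Fatou, and real and imaginary parts of test functions. -/

open MeasureTheory Complex Metric Set Filter Topology
open scoped Real ComplexConjugate

namespace Crest.Agent.R101

theorem iadd {E : Type*} [NormedAddCommGroup E] {f g : ℂ → E} (hf : IntegrableOn f D)
    (hg : IntegrableOn g D) : IntegrableOn (fun z => f z + g z) D := hf.add hg

theorem isub {E : Type*} [NormedAddCommGroup E] {f g : ℂ → E} (hf : IntegrableOn f D)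
    (hg : IntegrableOn g D) : IntegrableOn (fun z => f z - g z) D := hf.sub hg

theorem re_int {f : ℂ → ℂ} (hf : IntegrableOn f D) :
    (∫ z in D, f z).re = ∫ z in D, (f z).re := (integral_re hf).symm

theorem im_int {f : ℂ → ℂ} (hf : IntegrableOn f D) :
    (∫ z in D, f z).im = ∫ z in D, (f z).im := (integral_im hf).symm

theorem iconj {f : ℂ → ℂ} (hf : IntegrableOn f D) : IntegrableOn (fun z => conj (f z)) D :=
  conjCLE.toContinuousLinearMap.integrable_comp hf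

theorem cs {E : Type*} [NormedAddCommGroup E] [NormedSpace ℝ E] {c : ℂ → E} {α β : ℂ → ℝ}
    (hc : AEStronglyMeasurable c (volume.restrict D)) (hα : IntegrableOn (fun z => α z ^ 2) D)
    (hβ : IntegrableOn (fun z => β z ^ 2) D) (h : ∀ z ∈ D, ‖c z‖ ≤ α z * β z) :
    IntegrableOn c D ∧
      ∫ z in D, ‖c z‖ ≤ √(∫ z in D, α z ^ 2) * √(∫ z in D, β z ^ 2) := by
  have key : ∀ t : ℝ, 0 < t → ∀ᵐ z ∂(volume.restrict D),
      ‖c z‖ ≤ t / 2 * α z ^ 2 + t⁻¹ / 2 * β z ^ 2 := fun t ht => by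
    filter_upwards [ae_D] with z hz
    refine (h z hz).trans ?_
    have h1 : t * t⁻¹ = 1 := mul_inv_cancel₀ ht.ne'
    have h2 : 0 ≤ t⁻¹ * (t * α z - β z) ^ 2 := by positivity
    have h3 : t⁻¹ * (t * α z - β z) ^ 2 =
        (t * t⁻¹) * t * α z ^ 2 - 2 * (t * t⁻¹) * (α z * β z) + t⁻¹ * β z ^ 2 := by ring
    rw [h3, h1] at h2
    linarith
  have hi : IntegrableOn c D :=
    ((hα.const_mul (1 / 2)).add (hβ.const_mul (1⁻¹ / 2))).mono' hc (key 1 one_pos)
  refine ⟨hi, ?_⟩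
  set A := ∫ z in D, α z ^ 2
  set B := ∫ z in D, β z ^ 2
  have hA : 0 ≤ A := integral_nonneg fun z => sq_nonneg _
  have hB : 0 ≤ B := integral_nonneg fun z => sq_nonneg _
  have k2 : ∀ t : ℝ, 0 < t → ∫ z in D, ‖c z‖ ≤ t / 2 * A + t⁻¹ / 2 * B := fun t ht => by
    rw [← integral_const_mul, ← integral_const_mul,
      ← integral_add (hα.const_mul _) (hβ.const_mul _)]
    exact integral_mono_ae hi.norm ((hα.const_mul _).add (hβ.const_mul _)) (key t ht)
  have k3 : ∀ ε ∈ Ioi (0 : ℝ), ∫ z in D, ‖c z‖ ≤ (√A + ε) * (√B + ε) := fun ε hε => by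
    have hε : 0 < ε := hε
    have ha : 0 < √A + ε := by positivity
    have hb : 0 < √B + ε := by positivity
    refine (k2 ((√B + ε) / (√A + ε)) (by positivity)).trans ?_
    have e1 : A ≤ (√A + ε) ^ 2 := by nlinarith [Real.sq_sqrt hA, Real.sqrt_nonneg A]
    have e2 : B ≤ (√B + ε) ^ 2 := by nlinarith [Real.sq_sqrt hB, Real.sqrt_nonneg B]
    calc _ ≤ (√B + ε) / (√A + ε) / 2 * (√A + ε) ^ 2 +
          ((√B + ε) / (√A + ε))⁻¹ / 2 * (√B + ε) ^ 2 := by gcongr
      _ = _ := by field_simp; ring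
  have hcont : Continuous fun ε : ℝ => (√A + ε) * (√B + ε) := by fun_prop
  have hlim := (hcont.tendsto 0).mono_left (nhdsWithin_le_nhds (s := Ioi 0))
  have := ge_of_tendsto hlim (by filter_upwards [self_mem_nhdsWithin] with ε hε using k3 ε hε)
  simpa using this

theorem fatou {g : ℕ → ℂ → ℝ} {g₀ : ℂ → ℝ} {C : ℝ} (hi : ∀ k, IntegrableOn (g k) D)
    (h0 : ∀ k z, 0 ≤ g k z) (hlim : ∀ z ∈ D, Tendsto (fun k => g k z) atTop (𝓝 (g₀ z)))
    (hC : ∀ k, ∫ z in D, g k z ≤ C) : IntegrableOn g₀ D ∧ ∫ z in D, g₀ z ≤ C := by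
  have hlim' : ∀ᵐ z ∂(volume.restrict D), Tendsto (fun k => g k z) atTop (𝓝 (g₀ z)) := by
    filter_upwards [ae_D] with z hz using hlim z hz
  have hm : AEStronglyMeasurable g₀ (volume.restrict D) :=
    aestronglyMeasurable_of_tendsto_ae atTop (fun k => (hi k).1) hlim'
  have hnn : 0 ≤ᵐ[volume.restrict D] g₀ := by
    filter_upwards [hlim'] with z hz using ge_of_tendsto' hz fun k => h0 k z
  have hC0 : 0 ≤ C := (integral_nonneg (h0 0)).trans (hC 0)
  have h1 : ∫⁻ z in D, ENNReal.ofReal (g₀ z) ≤ ENNReal.ofReal C := by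
    calc _ = ∫⁻ z in D, liminf (fun k => ENNReal.ofReal (g k z)) atTop := by
          refine lintegral_congr_ae ?_
          filter_upwards [hlim'] with z hz
          exact ((ENNReal.continuous_ofReal.tendsto _).comp hz).liminf_eq.symm
      _ ≤ liminf (fun k => ∫⁻ z in D, ENNReal.ofReal (g k z)) atTop :=
          lintegral_liminf_le' fun k => (hi k).1.aemeasurable.ennreal_ofReal
      _ ≤ ENNReal.ofReal C := by
          refine liminf_le_of_frequently_le' (Frequently.of_forall fun k => ?_)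
          rw [← ofReal_integral_eq_lintegral_ofReal (hi k) (Eventually.of_forall (h0 k))]
          exact ENNReal.ofReal_le_ofReal (hC k)
  have hint : IntegrableOn g₀ D :=
    ⟨hm, (hasFiniteIntegral_iff_ofReal hnn).2 (h1.trans_lt ENNReal.ofReal_lt_top)⟩
  refine ⟨hint, ?_⟩
  rw [← ofReal_integral_eq_lintegral_ofReal hint hnn] at h1
  exact (ENNReal.ofReal_le_ofReal_iff hC0).1 h1

theorem Zc.add {S T : ℂ → ℂ} (hS : Zc S) (hT : Zc T) : Zc fun z => S z + T z := by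
  obtain ⟨h1, C, hC⟩ := hS
  obtain ⟨h2, K, hK⟩ := hT
  refine ⟨h1.add h2, C + K, fun z hz => ⟨?_, ?_⟩⟩
  · rw [fderiv_fun_add (diffAt_of_C1 h1 hz) (diffAt_of_C1 h2 hz)]
    exact (norm_add_le _ _).trans (add_le_add (hC z hz).1 (hK z hz).1)
  · refine (norm_add_le _ _).trans ?_
    linarith [(hC z hz).2, (hK z hz).2]

theorem ofReal_re_eq (w : ℂ) : (w.re : ℂ) = 1 / 2 * w + 1 / 2 * conj w := by
  apply Complex.ext <;> simp
  ring

theorem ofReal_im_eq (w : ℂ) : (w.im : ℂ) = -I / 2 * w + I / 2 * conj w := by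
  apply Complex.ext <;> simp <;> ring

theorem Zc.re {S : ℂ → ℂ} (hS : Zc S) : Zc fun z => ((S z).re : ℂ) := by
  simp only [ofReal_re_eq]
  exact (hS.mul_left contDiff_const).add (hS.conj.mul_left contDiff_const)

theorem Zc.im {S : ℂ → ℂ} (hS : Zc S) : Zc fun z => ((S z).im : ℂ) := by
  simp only [ofReal_im_eq]
  exact (hS.mul_left contDiff_const).add (hS.conj.mul_left contDiff_const)

theorem fderiv_re {S : ℂ → ℂ} {z : ℂ} (hS : DifferentiableAt ℝ S z) (v : ℂ) :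
    fderiv ℝ (fun w => (S w).re) z v = (fderiv ℝ S z v).re := by
  have := (reCLM.hasFDerivAt (x := S z)).comp z hS.hasFDerivAt
  have h2 : (fun w => (S w).re) = reCLM ∘ S := rfl
  rw [h2, this.fderiv]
  rfl

theorem fderiv_im {S : ℂ → ℂ} {z : ℂ} (hS : DifferentiableAt ℝ S z) (v : ℂ) :
    fderiv ℝ (fun w => (S w).im) z v = (fderiv ℝ S z v).im := by
  have := (imCLM.hasFDerivAt (x := S z)).comp z hS.hasFDerivAt
  have h2 : (fun w => (S w).im) = imCLM ∘ S := rfl
  rw [h2, this.fderiv]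
  rfl

theorem contDiffOn_re {n : WithTop ℕ∞} {S : ℂ → ℂ} {s : Set ℂ} (h : ContDiffOn ℝ n S s) :
    ContDiffOn ℝ n (fun w => (S w).re) s := reCLM.contDiff.comp_contDiffOn h

theorem contDiffOn_im {n : WithTop ℕ∞} {S : ℂ → ℂ} {s : Set ℂ} (h : ContDiffOn ℝ n S s) :
    ContDiffOn ℝ n (fun w => (S w).im) s := imCLM.contDiff.comp_contDiffOn h

theorem contDiff_re' {n : WithTop ℕ∞} {S : ℂ → ℂ} (h : ContDiff ℝ n S) :
    ContDiff ℝ n (fun w => (S w).re) := reCLM.contDiff.comp h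

theorem contDiff_im' {n : WithTop ℕ∞} {S : ℂ → ℂ} (h : ContDiff ℝ n S) :
    ContDiff ℝ n (fun w => (S w).im) := imCLM.contDiff.comp h

theorem contDiff_ofReal' {n : WithTop ℕ∞} {φ : ℂ → ℝ} (h : ContDiff ℝ n φ) :
    ContDiff ℝ n (fun w => (φ w : ℂ)) := ofRealCLM.contDiff.comp h

theorem gsq_re_add_im {S : ℂ → ℂ} {z : ℂ} (hS : DifferentiableAt ℝ S z) :
    gsq (fun w => (S w).re) z + gsq (fun w => (S w).im) z =
      2 * (‖wd (-I) S z‖ ^ 2 + ‖wd I S z‖ ^ 2) := by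
  simp only [gsq, fderiv_re hS, fderiv_im hS, wd, Complex.sq_norm, Complex.normSq_apply]
  simp
  ring

theorem cross_term {S : ℂ → ℂ} {z : ℂ} (hS : DifferentiableAt ℝ S z) :
    ‖wd I S z‖ ^ 2 - ‖wd (-I) S z‖ ^ 2 =
      4 * (wd I (fun w => ((S w).re : ℂ)) z * wd (-I) (fun w => ((S w).im : ℂ)) z).im := by
  rw [wd_ofReal I (φ := fun w => (S w).re) (reCLM.differentiableAt.comp z hS),
    wd_ofReal (-I) (φ := fun w => (S w).im) (imCLM.differentiableAt.comp z hS)]
  simp only [fderiv_re hS, fderiv_im hS, wd, Complex.sq_norm, Complex.normSq_apply]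
  simp
  ring

theorem wd_re_im (c : ℂ) {S : ℂ → ℂ} {z : ℂ} (hS : DifferentiableAt ℝ S z) :
    wd c S z = wd c (fun w => ((S w).re : ℂ)) z + I * wd c (fun w => ((S w).im : ℂ)) z := by
  have h1 : DifferentiableAt ℝ (fun w => ((S w).re : ℂ)) z :=
    diffAt_ofReal (φ := fun w => (S w).re) (reCLM.differentiableAt.comp z hS)
  have h2 : DifferentiableAt ℝ (fun w => ((S w).im : ℂ)) z :=
    diffAt_ofReal (φ := fun w => (S w).im) (imCLM.differentiableAt.comp z hS)
  rw [← wd_const_mul c I h2, ← wd_add c h1 (h2.const_mul I)]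
  congr 1
  ext w
  rw [mul_comm I, re_add_im]

theorem contDiff_wd (c : ℂ) {S : ℂ → ℂ} (hS : ContDiff ℝ 2 S) : ContDiff ℝ 1 (wd c S) := by
  have h : ContDiff ℝ 1 (fderiv ℝ S) := hS.fderiv_right (by norm_num)
  unfold wd
  exact ((h.clm_apply contDiff_const).add
    (contDiff_const.mul (h.clm_apply contDiff_const))).div_const _

theorem Sc.cc_wd {S : ℂ → ℂ} (hS : Sc S) (c : ℂ) : Cc (wd c S) :=
  ⟨(contDiff_wd c hS.1).contDiffOn, hS.cc.wd_vanish c⟩

theorem lap_real {a : ℂ → ℝ} (ha : ContDiff ℝ 2 a) (z : ℂ) :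
    (wd (-I) (wd I fun w => (a w : ℂ)) z).im = 0 := by
  have h : ContDiff ℝ 1 (fderiv ℝ a) := ha.fderiv_right (by norm_num)
  have hd : ∀ w, DifferentiableAt ℝ a w := fun w => ha.differentiable (by norm_num) w
  have e : (wd I fun w => (a w : ℂ)) =
      fun w => 1 / 2 * ((fderiv ℝ a w 1 : ℝ) : ℂ) + I / 2 * ((fderiv ℝ a w I : ℝ) : ℂ) := by
    ext w; rw [wd_ofReal I (hd w)]; ring
  have hv : ∀ v, DifferentiableAt ℝ (fun w => fderiv ℝ a w v) z := fun v =>
    (h.clm_apply contDiff_const).differentiable one_ne_zero z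
  have hf : ∀ v u, fderiv ℝ (fun w => fderiv ℝ a w v) z u = fderiv ℝ (fderiv ℝ a) z u v :=
    fun v u => by
      rw [fderiv_clm_apply (h.differentiable one_ne_zero z) (differentiableAt_const v)]
      simp
  have hsym : fderiv ℝ (fderiv ℝ a) z 1 I = fderiv ℝ (fderiv ℝ a) z I 1 :=
    (ha.contDiffAt.isSymmSndFDerivAt (by simp)) 1 I
  rw [e, wd_add _ ((diffAt_ofReal (hv 1)).const_mul _) ((diffAt_ofReal (hv I)).const_mul _),
    wd_const_mul _ _ (diffAt_ofReal (hv 1)), wd_const_mul _ _ (diffAt_ofReal (hv I)),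
    wd_ofReal _ (hv 1), wd_ofReal _ (hv I), hf, hf, hf, hf, hsym]
  simp
  ring

end Crest.Agent.R101
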