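import Crest.Agent.R101.Fields
import Crest.Agent.R101.Kernel

/-! The eigenfunction has no critical point at the centre of the disc. -/

open MeasureTheory Complex Metric Set Filter Topology
open scoped Real ComplexConjugate

namespace Crest.Agent.R101

theorem tt_nonneg {z : ℂ} (hz : z ∈ D) : 0 ≤ tt z :=
  neg_nonneg.2 (Real.log_nonpos (norm_nonneg _) (mem_D.1 hz).le)

theorem tt_le_one {z : ℂ} (hz : 1 / 2 ≤ ‖z‖) : tt z ≤ 1 := by
  have h0 : 0 < ‖z‖ := by linarith
  have h1 := Real.log_le_sub_one_of_pos (inv_pos.2 h0)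
  have h2 : ‖z‖⁻¹ ≤ 2 := by rw [inv_le_comm₀ h0 two_pos]; linarith
  rw [Real.log_inv] at h1
  unfold tt
  linarith

theorem contOn_tt : ContinuousOn tt (D \ {0}) :=
  (ContinuousOn.log continuous_norm.continuousOn fun _ hz => norm_ne_zero_iff.2 hz.2).neg

theorem contOn_kap : ContinuousOn kap (D \ {0}) :=
  (contOn_tt.mul (by fun_prop)).div (by fun_prop) fun _ hz => (one_sub_sq_pos hz.1).ne'

theorem contOn_mm : ContinuousOn mm (D \ {0}) :=
  (continuous_ofReal.comp_continuousOn' ((continuousOn_const.mul contOn_tt).div (by fun_prop)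
    fun _ hz => (one_sub_sq_pos hz.1).ne')).mul continuousOn_id

theorem contOn_pp : ContinuousOn pp (D \ {0}) :=
  (((continuousOn_const.mul contOn_kap).sub (contOn_mm.norm.pow 2)).sub continuousOn_const).sqrt

theorem pp_sq {z : ℂ} (hz : z ∈ D) (hz0 : z ≠ 0) : pp z ^ 2 = 2 * kap z - ‖mm z‖ ^ 2 - 1 :=
  Real.sq_sqrt (kap_bounds hz hz0).2.2.2.le

theorem pp_nonneg (z : ℂ) : 0 ≤ pp z := Real.sqrt_nonneg _

theorem pp_le {z : ℂ} (hz : z ∈ D) (hz0 : z ≠ 0) : pp z ≤ 1 + tt z := by
  have h1 := tt_nonneg hz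
  have h2 := (kap_bounds hz hz0).2.1
  apply Real.sqrt_le_iff.2
  exact ⟨by linarith, by nlinarith [sq_nonneg ‖mm z‖]⟩

theorem field_identity {z : ℂ} (hz : z ∈ D) (c kp km : ℂ) :
    conj (mm z) * (z * (c + z * kp) + conj km) + mm z * (kp + conj z * (c + conj (z * km))) =
      2 * kap z * (c + z * kp + conj (z * km)) - 2 * tt z * c := by
  have h1 : ((1 - ‖z‖ ^ 2 : ℝ) : ℂ) ≠ 0 := ofReal_ne_zero.2 (one_sub_sq_pos hz).ne'
  have h2 : ((‖z‖ : ℝ) : ℂ) ^ 2 = z * conj z := by
    rw [Complex.mul_conj, Complex.normSq_eq_norm_sq]; push_cast; ring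
  simp only [mm, kap, map_mul, conj_ofReal]
  push_cast at h1 ⊢
  rw [h2] at h1 ⊢
  field_simp
  ring

theorem lower_sq {V : ℝ} (hV : 0 < V) (W F : ℂ) :
    2 * (conj F * W).re - ‖F‖ ^ 2 / V ≤ V * ‖W‖ ^ 2 := by
  have h : 0 ≤ ‖(V : ℂ) * W - F‖ ^ 2 / V := by positivity
  have e : ‖(V : ℂ) * W - F‖ ^ 2 / V = V * ‖W‖ ^ 2 - 2 * (conj F * W).re + ‖F‖ ^ 2 / V := by
    simp only [Complex.sq_norm, Complex.normSq_apply]
    simp
    field_simp
    ring
  linarith

namespace Data

variable {d : Data}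

theorem P_zero (h0 : fderiv ℝ d.U 0 = 0) : d.P 0 = 0 := by
  rw [P, wd_ofReal _ (diffAt_of_C1 d.hU (by simp)), h0]; simp

theorem src_eq {z : ℂ} (hz : z ∈ D) : d.src z = d.μ * d.ρ z * d.v z := by
  rw [src, ← d.f'_mul_v hz, ← d.mul_conj_f']; ring

theorem conj_src_mul_v {z : ℂ} (hz : z ∈ D) :
    conj (d.src z) * d.v z = ((d.μ * ‖d.P z‖ ^ 2 : ℝ) : ℂ) := by
  have : conj (d.src z) * d.v z = d.μ * (conj (d.P z) * (deriv d.f z * d.v z)) := by
    simp only [src, map_mul, conj_conj, conj_ofReal]; ring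
  rw [this, d.f'_mul_v hz, Complex.conj_mul']
  push_cast
  ring

theorem SS_weight (h0 : fderiv ℝ d.U 0 = 0) {w : ℂ → ℂ} (hw : ContinuousOn w (D \ {0}))
    (hb : ∀ z ∈ D, z ≠ 0 → ‖w z‖ ≤ 1 + tt z) : d.SS fun z => w z * d.src z := by
  have hD0 : (0 : ℂ) ∈ D := by simp
  have hs0 : d.src 0 = 0 := by rw [src, P_zero h0, mul_zero]
  have hsd : DifferentiableAt ℝ d.src 0 := by
    have h1 : ContDiffOn ℝ 1 d.src D :=
      ((contDiffOn_const.mul d.conj_f'_C1).mul
        ((holo_C1 (holo_deriv d.hf)).mul d.v_C1.1)).congr fun z hz => by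
          rw [d.f'_mul_v hz, src]
    exact diffAt_of_C1 h1 hD0
  obtain ⟨C, hC⟩ := hsd.hasFDerivAt.isBigO_sub.bound
  simp only [hs0, sub_zero] at hC
  have hc : ContinuousOn (fun z => w z * d.src z) D := by
    intro z hz
    by_cases hz0 : z = 0
    · subst hz0
      apply ContinuousAt.continuousWithinAt
      rw [ContinuousAt, hs0, mul_zero]
      have hg : Continuous fun z : ℂ => C * (‖z‖ - ‖z‖ * Real.log ‖z‖) :=
        continuous_const.mul (continuous_norm.sub (Real.continuous_mul_log.comp continuous_norm))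
      refine squeeze_zero_norm' ?_ (by simpa using hg.tendsto 0)
      filter_upwards [hC, D_nhds hD0] with z h1 h2
      by_cases hz0 : z = 0
      · simp [hz0, hs0]
      · rw [norm_mul]
        have h3 := tt_nonneg h2
        calc _ ≤ (1 + tt z) * (C * ‖z‖) :=
              mul_le_mul (hb z h2 hz0) h1 (norm_nonneg _) (by linarith)
          _ = _ := by unfold tt; ring
    · have : D \ {0} ∈ 𝓝 z :=
        (isOpen_D.sdiff isClosed_singleton).mem_nhds ⟨hz, hz0⟩
      exact ((hw.continuousAt this).mul (d.contOn_src.continuousAt (D_nhds hz))).continuousWithinAt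
  have hg : ContinuousOn (fun z => ‖w z * d.src z‖ ^ 2 / d.ρ z) D :=
    (hc.norm.pow 2).div d.contOn_ρ fun z hz => (d.ρ_pos hz).ne'
  obtain ⟨M, hM⟩ := (isCompact_closedBall (0 : ℂ) (1 / 2)).exists_bound_of_continuousOn
    (hg.mono (closedBall_subset_ball (by norm_num)))
  have hM0 : 0 ≤ M := (norm_nonneg _).trans (hM 0 (by simp))
  refine ⟨hc, ((integrable_const M).add (d.SS_src.2.const_mul 4)).mono'
    (hg.aestronglyMeasurable measurableSet_D) ?_⟩
  filter_upwards [ae_D] with z hz
  have hρ := d.ρ_pos hz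
  simp only [Pi.add_apply]
  by_cases h : ‖z‖ ≤ 1 / 2
  · have := hM z (by simpa using h)
    have : 0 ≤ 4 * (‖d.src z‖ ^ 2 / d.ρ z) := by positivity
    linarith
  · have h' := (not_le.1 h).le
    have hz0 : z ≠ 0 := by rintro rfl; norm_num at h'
    have h1 : ‖w z‖ ≤ 2 := by linarith [hb z hz hz0, tt_le_one h']
    rw [Real.norm_eq_abs, abs_of_nonneg (by positivity), norm_mul, mul_pow, mul_div_assoc]
    have h2 : ‖w z‖ ^ 2 ≤ 4 := by nlinarith [norm_nonneg (w z)]
    have := mul_le_mul_of_nonneg_right h2 (show 0 ≤ ‖d.src z‖ ^ 2 / d.ρ z by positivity)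
    linarith

theorem kernel_bound {a : ℂ → ℂ} (ha : Adm a) (h1 : Adm fun z => (kap z : ℂ) * a z)
    (h2 : Adm fun z => mm z * a z) (h3 : Adm fun z => conj (mm z) * a z)
    (h4 : Adm fun z => (pp z : ℂ) * a z) {x : ℂ} (hx : x ∈ D) (hx0 : x ≠ 0) :
    ‖kap x * pot a x + pot (fun z => (kap z : ℂ) * a z) x - pot a x -
      (conj (mm x) * pot (fun z => mm z * a z) x + mm x * pot (fun z => conj (mm z) * a z) x) / 2 -
      tt x * pot a 0‖ ≤ pp x * (pot (fun z => (‖(pp z : ℂ) * a z‖ : ℂ)) x).re := by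
  have hD0 : (0 : ℂ) ∈ D := by simp
  have i0 := ha.integrable_G hx
  have i1 := h1.integrable_G hx
  have i2 := h2.integrable_G hx
  have i3 := h3.integrable_G hx
  have i4 := ha.integrable_G hD0
  have i5 : IntegrableOn (fun y => G x y * ‖(pp y : ℂ) * a y‖) D := by
    have := (h4.norm.integrable_G hx).re
    simpa only [← ofReal_mul, RCLike.re_to_complex, ofReal_re, IntegrableOn] using this
  have j1 := iadd (i0.const_mul (kap x : ℂ)) i1
  have j2 := iadd (i2.const_mul (conj (mm x))) (i3.const_mul (mm x))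
  rw [pot_ofReal, ofReal_re]
  simp only [pot]
  rw [← integral_const_mul, ← integral_const_mul, ← integral_const_mul, ← integral_const_mul,
    ← integral_const_mul, ← integral_add (i0.const_mul _) i1, ← integral_sub j1 i0,
    ← integral_add (i2.const_mul _) (i3.const_mul _), ← integral_div,
    ← integral_sub (isub j1 i0) (j2.div_const 2),
    ← integral_sub (isub (isub j1 i0) (j2.div_const 2)) (i4.const_mul _)]
  refine norm_integral_le_of_norm_le (i5.const_mul _) ?_
  filter_upwards [ae_D_ne x, ae_D_ne 0] with y hy hy0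
  have hk := kernel_ineq hx hy.1 hx0 hy0.2.symm hy.2
  have e : ((mm x * conj (mm y)).re : ℂ) = (conj (mm x) * mm y + mm x * conj (mm y)) / 2 := by
    rw [ofReal_re_eq]; simp only [map_mul, conj_conj]; ring
  calc _ = ‖((G x y * (kap x + kap y - 1 - (mm x * conj (mm y)).re) -
          tt x * tt y / (2 * π) : ℝ) : ℂ) * a y‖ := by
        congr 1
        rw [G_zero_left hy0.2.symm]
        push_cast
        rw [e]
        ring
    _ ≤ G x y * (pp x * pp y) * ‖a y‖ := by
        rw [norm_mul, norm_real, Real.norm_eq_abs]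
        gcongr
    _ = _ := by
        rw [norm_mul, norm_real, Real.norm_eq_abs, abs_of_nonneg (pp_nonneg y)]
        ring

end Data

open Data in
theorem disc (d : Data) : fderiv ℝ d.U 0 ≠ 0 := by
  intro h0
  have hD0 : (0 : ℂ) ∈ D := by simp
  have hμ := d.hμ
  obtain ⟨kp, km, c, hp, hm, hv, hn⟩ := d.decomp
  let e : Dec d := ⟨kp, km, c, hp, hm, hv, hn⟩
  have hc : c = -pot d.src 0 := by
    have := hv 0 hD0
    rw [v, P_zero h0] at this
    simp only [zero_div, zero_mul, map_zero, add_zero] at this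
    linear_combination -this
  have S0 := d.SS_src
  have S1 : d.SS fun z => (kap z : ℂ) * d.src z :=
    SS_weight h0 (continuous_ofReal.comp_continuousOn' contOn_kap) fun z hz hz0 => by
      rw [norm_real, Real.norm_eq_abs, abs_of_nonneg (kap_bounds hz hz0).1]
      exact (kap_bounds hz hz0).2.1
  have S2 : d.SS fun z => mm z * d.src z :=
    SS_weight h0 contOn_mm fun z hz hz0 => by linarith [(kap_bounds hz hz0).2.2.1, tt_nonneg hz]
  have S3 : d.SS fun z => conj (mm z) * d.src z :=
    SS_weight h0 (continuous_conj.comp_continuousOn' contOn_mm) fun z hz hz0 => by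
      rw [RCLike.norm_conj]
      linarith [(kap_bounds hz hz0).2.2.1, tt_nonneg hz]
  have S4 : d.SS fun z => (pp z : ℂ) * d.src z :=
    SS_weight h0 (continuous_ofReal.comp_continuousOn' contOn_pp) fun z hz hz0 => by
      rw [norm_real, Real.norm_eq_abs, abs_of_nonneg (pp_nonneg z)]
      exact pp_le hz hz0
  have S5 : d.SS fun z => (tt z : ℂ) * d.src z :=
    SS_weight h0 (continuous_ofReal.comp_continuousOn' contOn_tt) fun z hz hz0 => by
      rw [norm_real, Real.norm_eq_abs, abs_of_nonneg (tt_nonneg hz)]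
      linarith
  set γ := pot d.src 0 with hγ
  -- the pieces
  have hpp : ∀ z ∈ D, ‖(pp z : ℂ) * d.src z‖ ^ 2 / d.ρ z = d.μ ^ 2 * (pp z ^ 2 * ‖d.P z‖ ^ 2) :=
    fun z hz => by
      rw [norm_mul, mul_pow, mul_div_assoc, d.normSq_src hz, norm_real, Real.norm_eq_abs, sq_abs]
      ring
  have iA : IntegrableOn (fun z => pp z ^ 2 * ‖d.P z‖ ^ 2) D :=
    IntegrableOn.congr_fun (S4.2.div_const (d.μ ^ 2)) (fun z hz => by
      simp only [hpp z hz]; field_simp) measurableSet_D
  have hNN : d.NN (fun z => (‖(pp z : ℂ) * d.src z‖ : ℂ)) =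
      d.μ ^ 2 * ∫ z in D, pp z ^ 2 * ‖d.P z‖ ^ 2 := by
    rw [NN, ← integral_const_mul]
    refine setIntegral_congr_fun measurableSet_D fun z hz => ?_
    simp only [norm_real, norm_norm, hpp z hz]
  have hApos : 0 < ∫ z in D, pp z ^ 2 * ‖d.P z‖ ^ 2 := by
    refine lt_of_le_of_ne (integral_nonneg fun z => by positivity) fun h => ?_
    rw [eq_comm, integral_eq_zero_iff_of_nonneg (fun z => by positivity) iA] at h
    have h1 : ∫ z in D, ‖d.P z‖ ^ 2 = 0 := by
      refine integral_eq_zero_of_ae ?_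
      filter_upwards [h, ae_D_ne 0] with z h1 hz
      have h2 : 0 < pp z ^ 2 := by
        rw [pp_sq hz.1 hz.2.symm]; exact (kap_bounds hz.1 hz.2.symm).2.2.2
      exact (mul_eq_zero.1 h1).resolve_left h2.ne'
    rw [d.integral_P2] at h1
    linarith [d.hpos]
  have hstrict := strict_bound S4.norm (fun z _ => by simp only [norm_real, norm_norm])
    (by rw [hNN]; positivity)
  have ht : ∫ z in D, (tt z : ℂ) * d.src z = 2 * π * γ := by
    rw [hγ, pot, ← integral_const_mul]
    refine integral_congr_ae ?_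
    filter_upwards [ae_D_ne 0] with z hz
    have : (π : ℂ) ≠ 0 := ofReal_ne_zero.2 Real.pi_ne_zero
    rw [G_zero_left hz.2.symm]
    push_cast
    field_simp
  have iT : IntegrableOn (fun z => conj ((tt z : ℂ) * d.src z) * γ) D :=
    (iconj S5.adm.2).mul_const γ
  have hT : (∫ z in D, conj ((tt z : ℂ) * d.src z) * γ).re = 2 * π * ‖γ‖ ^ 2 := by
    rw [integral_mul_const, integral_conj, ht]
    simp only [map_mul, conj_ofReal, map_ofNat, mul_assoc, Complex.conj_mul']
    norm_cast
  have i00 := S0.int_pair S0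
  have i10 := S1.int_pair S0
  have i01 := S0.int_pair S1
  have i22 := S2.int_pair S2
  have i33 := S3.int_pair S3
  have hsym : (∫ z in D, conj (d.src z) * pot (fun z => (kap z : ℂ) * d.src z) z).re =
      (∫ z in D, conj ((kap z : ℂ) * d.src z) * pot d.src z).re := by
    rw [green_symm S0 S1, conj_re]
  -- upper and lower bounds
  obtain ⟨iU, hU⟩ := e.upper S2 S3
  have hec : ‖e.c‖ = ‖γ‖ := by change ‖c‖ = _; rw [hc, norm_neg]
  rw [hec] at hU
  have l1 : IntegrableOn (fun z => 2 * d.μ * (pp z ^ 2 * ‖d.P z‖ ^ 2)) D := iA.const_mul _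
  have l2 : IntegrableOn (fun z => 2 * d.μ * ‖d.P z‖ ^ 2) D := d.int_P2.const_mul _
  have l3 := iadd (iadd (iadd (i10.const_mul (-4)) (iT.const_mul 4)) (i22.const_mul 2))
    (i33.const_mul 2)
  have l4 : IntegrableOn (fun z => (-4 * (conj ((kap z : ℂ) * d.src z) * pot d.src z) +
      4 * (conj ((tt z : ℂ) * d.src z) * γ) +
      2 * (conj (mm z * d.src z) * pot (fun z => mm z * d.src z) z) +
      2 * (conj (conj (mm z) * d.src z) * pot (fun z => conj (mm z) * d.src z) z)).re) D := l3.re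
  have hL := integral_mono_ae (iadd (iadd l1 l2) l4) (iU.const_mul d.μ) (by
    filter_upwards [ae_D_ne 0] with z hz
    have hV : 0 < d.μ * d.ρ z := mul_pos hμ (d.ρ_pos hz.1)
    have a1 := lower_sq hV (e.Wp (fun z => mm z * d.src z) z) (mm z * d.src z)
    have a2 := lower_sq hV (e.Wm (fun z => conj (mm z) * d.src z) z) (conj (mm z) * d.src z)
    have a3 : ‖mm z * d.src z‖ ^ 2 / (d.μ * d.ρ z) = d.μ * (‖mm z‖ ^ 2 * ‖d.P z‖ ^ 2) := by
      rw [norm_mul, mul_pow, mul_comm d.μ (d.ρ z), ← div_div, mul_div_assoc, mul_div_assoc,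
        d.normSq_src hz.1]
      field_simp
    have a4 : ‖conj (mm z) * d.src z‖ = ‖mm z * d.src z‖ := by simp
    have a5 : conj (mm z * d.src z) * e.Wp (fun z => mm z * d.src z) z +
        conj (conj (mm z) * d.src z) * e.Wm (fun z => conj (mm z) * d.src z) z =
        ((2 * kap z * (d.μ * ‖d.P z‖ ^ 2) : ℝ) : ℂ) +
        (-4 * (conj ((kap z : ℂ) * d.src z) * pot d.src z) +
          4 * (conj ((tt z : ℂ) * d.src z) * γ) +
          2 * (conj (mm z * d.src z) * pot (fun z => mm z * d.src z) z) +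
          2 * (conj (conj (mm z) * d.src z) * pot (fun z => conj (mm z) * d.src z) z)) / 2 := by
      have b1 := field_identity hz.1 c (kp z) (km z)
      have b2 := conj_src_mul_v (d := d) hz.1
      rw [hv z hz.1] at b2
      rw [ofReal_mul, ← b2]
      simp only [Dec.Wp, Dec.Wm, e, map_mul, conj_conj, conj_ofReal] at b1 ⊢
      push_cast
      linear_combination conj (d.src z) * b1 - 2 * tt z * conj (d.src z) * hc
    have a6 := congrArg Complex.re a5
    rw [add_re, add_re, ofReal_re, div_ofNat_re] at a6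
    rw [a4] at a2
    rw [a3] at a1 a2
    rw [pp_sq hz.1 hz.2.symm]
    linarith)
  rw [integral_add (iadd l1 l2) l4, integral_add l1 l2, integral_const_mul, integral_const_mul,
    integral_const_mul, ← re_int l3,
    integral_add (iadd (iadd (i10.const_mul (-4)) (iT.const_mul 4)) (i22.const_mul 2))
      (i33.const_mul 2),
    integral_add (iadd (i10.const_mul (-4)) (iT.const_mul 4)) (i22.const_mul 2),
    integral_add (i10.const_mul (-4)) (iT.const_mul 4), integral_const_mul, integral_const_mul,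
    integral_const_mul, integral_const_mul] at hL
  simp only [add_re, neg_mul, neg_re, mul_re, re_ofNat, im_ofNat, zero_mul, sub_zero, hT] at hL
  -- kernel bound
  have m1 := isub (isub (isub (iadd i10 i01) i00) ((iadd i22 i33).div_const 2)) iT
  have hK := integral_mono_ae m1.re (S4.norm.int_pair S4.norm).re (by
    filter_upwards [ae_D_ne 0] with z hz
    have a1 := kernel_bound S0.adm S1.adm S2.adm S3.adm S4.adm hz.1 hz.2.symm
    simp only [RCLike.re_to_complex, conj_ofReal, re_ofReal_mul]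
    refine le_trans (le_of_eq ?_) (((re_le_norm (conj (d.src z) * _)).trans
      ((norm_mul _ _).le.trans (mul_le_mul_of_nonneg_left a1 (norm_nonneg _)))).trans (le_of_eq ?_))
    · congr 1
      simp only [map_mul, conj_conj, conj_ofReal]
      ring
    · rw [norm_mul (pp z : ℂ), norm_real, Real.norm_eq_abs, abs_of_nonneg (pp_nonneg z),
        RCLike.norm_conj]
      ring)
  simp only [RCLike.re_to_complex] at hK
  rw [← re_int m1, ← re_int (S4.norm.int_pair S4.norm),
    integral_sub (isub (isub (iadd i10 i01) i00) ((iadd i22 i33).div_const 2)) iT,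
    integral_sub (isub (iadd i10 i01) i00) ((iadd i22 i33).div_const 2),
    integral_sub (iadd i10 i01) i00, integral_add i10 i01, integral_div, integral_add i22 i33] at hK
  simp only [add_re, sub_re, div_ofNat_re, hT, hsym] at hK
  rw [hNN] at hstrict
  have hfin := mul_le_mul_of_nonneg_left (show d.μ * ∫ z in D, pp z ^ 2 * ‖d.P z‖ ^ 2 ≤ _ from
    le_trans (by linarith) hK) hμ.le
  linarith

end Crest.Agent.R101
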