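import Crest.Agent.R101.L2
import Crest.Agent.R101.Density

/-! The quadratic form of the Neumann problem: weak equation, strict Dirichlet bound, and the
inequality for tangential fields. -/

open MeasureTheory Complex Metric Set Filter Topology
open scoped Real ComplexConjugate

namespace Crest.Agent.R101

namespace Data

variable (d : Data)

/-- The conformal weight. -/
noncomputable def ρ (z : ℂ) : ℝ := ‖deriv d.f z‖ ^ 2

/-- Finite energy functions. -/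
def H1 (φ : ℂ → ℝ) : Prop :=
  ContDiffOn ℝ 1 φ D ∧ IntegrableOn (fun z => d.ρ z * φ z ^ 2) D ∧ IntegrableOn (gsq φ) D

/-- The quadratic form. -/
noncomputable def Q (φ ψ : ℂ → ℝ) : ℝ :=
  (∫ z in D, gdot φ ψ z) - d.μ * ∫ z in D, d.ρ z * (φ z * ψ z)

/-- The weighted mean. -/
noncomputable def ell (φ : ℂ → ℝ) : ℝ := ∫ z in D, d.ρ z * φ z

theorem ρ_nonneg (z : ℂ) : 0 ≤ d.ρ z := sq_nonneg _

theorem ρ_pos {z : ℂ} (hz : z ∈ D) : 0 < d.ρ z := pow_pos (norm_pos_iff.2 (d.hf' z hz)) 2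

theorem contOn_f' : ContinuousOn (deriv d.f) D := (holo_deriv d.hf).continuousOn

theorem contOn_ρ : ContinuousOn d.ρ D := d.contOn_f'.norm.pow 2

theorem int_ρ : IntegrableOn d.ρ D := d.hρ

theorem int_ρ_pos : 0 < ∫ z in D, d.ρ z := by
  rw [setIntegral_pos_iff_support_of_nonneg_ae (Eventually.of_forall d.ρ_nonneg) d.int_ρ]
  have : Function.support d.ρ ∩ D = D :=
    inter_eq_right.2 fun z hz => (d.ρ_pos hz).ne'
  rw [this]
  exact measure_ball_pos _ _ one_pos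

theorem H1_U : d.H1 d.U := ⟨d.hU, d.hU2, d.hUg⟩

theorem H1_one : d.H1 fun _ => 1 :=
  ⟨contDiffOn_const, by simpa using d.int_ρ, by
    have : gsq (fun _ => 1) = fun _ => 0 := by ext z; simp [gsq]
    rw [this]; exact integrableOn_zero⟩

variable {d}

theorem contOn_gdot {φ ψ : ℂ → ℝ} (hφ : ContDiffOn ℝ 1 φ D) (hψ : ContDiffOn ℝ 1 ψ D) :
    ContinuousOn (gdot φ ψ) D := by
  have h1 := contOn_fderiv hφ
  have h2 := contOn_fderiv hψ
  unfold gdot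
  exact ((h1.clm_apply continuousOn_const).mul (h2.clm_apply continuousOn_const)).add
    ((h1.clm_apply continuousOn_const).mul (h2.clm_apply continuousOn_const))

theorem gdot_self (φ : ℂ → ℝ) : gdot φ φ = gsq φ := by ext z; simp [gdot, gsq, sq]

theorem H1.int_gdot {φ ψ : ℂ → ℝ} (hφ : d.H1 φ) (hψ : d.H1 ψ) : IntegrableOn (gdot φ ψ) D := by
  refine (hφ.2.2.add hψ.2.2).mono'
    ((contOn_gdot hφ.1 hψ.1).aestronglyMeasurable measurableSet_D) (Eventually.of_forall fun z => ?_)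
  simp only [gdot, gsq, Pi.add_apply, Real.norm_eq_abs]
  rw [abs_le]
  constructor
  · nlinarith [sq_nonneg (fderiv ℝ φ z 1 + fderiv ℝ ψ z 1), sq_nonneg (fderiv ℝ φ z I + fderiv ℝ ψ z I),
      sq_nonneg (fderiv ℝ φ z 1), sq_nonneg (fderiv ℝ ψ z 1), sq_nonneg (fderiv ℝ φ z I),
      sq_nonneg (fderiv ℝ ψ z I)]
  · nlinarith [sq_nonneg (fderiv ℝ φ z 1 - fderiv ℝ ψ z 1), sq_nonneg (fderiv ℝ φ z I - fderiv ℝ ψ z I),
      sq_nonneg (fderiv ℝ φ z 1), sq_nonneg (fderiv ℝ ψ z 1), sq_nonneg (fderiv ℝ φ z I),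
      sq_nonneg (fderiv ℝ ψ z I)]

theorem H1.int_mul {φ ψ : ℂ → ℝ} (hφ : d.H1 φ) (hψ : d.H1 ψ) :
    IntegrableOn (fun z => d.ρ z * (φ z * ψ z)) D := by
  refine (hφ.2.1.add hψ.2.1).mono' ((d.contOn_ρ.mul
    (hφ.1.continuousOn.mul hψ.1.continuousOn)).aestronglyMeasurable measurableSet_D)
    (Eventually.of_forall fun z => ?_)
  simp only [Pi.add_apply, Real.norm_eq_abs]
  rw [abs_mul, abs_of_nonneg (d.ρ_nonneg z), ← mul_add]
  refine mul_le_mul_of_nonneg_left ?_ (d.ρ_nonneg z)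
  rw [abs_le]
  constructor <;> nlinarith [sq_nonneg (φ z + ψ z), sq_nonneg (φ z - ψ z)]

theorem H1.int_ell {φ : ℂ → ℝ} (hφ : d.H1 φ) : IntegrableOn (fun z => d.ρ z * φ z) D := by
  simpa using hφ.int_mul d.H1_one

theorem gdot_comb {φ ψ : ℂ → ℝ} (χ : ℂ → ℝ) (hφ : ContDiffOn ℝ 1 φ D) (hψ : ContDiffOn ℝ 1 ψ D)
    (s t : ℝ) {z : ℂ} (hz : z ∈ D) :
    gdot χ (fun w => s * φ w + t * ψ w) z = s * gdot χ φ z + t * gdot χ ψ z := by
  have := ((diffAt_of_C1 hφ hz).hasFDerivAt.const_mul s).add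
    ((diffAt_of_C1 hψ hz).hasFDerivAt.const_mul t)
  have h2 : fderiv ℝ (fun w => s * φ w + t * ψ w) z = _ := this.fderiv
  simp only [gdot, h2, _root_.add_apply, _root_.smul_apply, smul_eq_mul]
  ring

theorem gdot_comm (φ ψ : ℂ → ℝ) : gdot φ ψ = gdot ψ φ := by ext z; simp [gdot, mul_comm]

theorem H1.comb {φ ψ : ℂ → ℝ} (hφ : d.H1 φ) (hψ : d.H1 ψ) (s t : ℝ) :
    d.H1 fun w => s * φ w + t * ψ w := by
  have hc : ContDiffOn ℝ 1 (fun w => s * φ w + t * ψ w) D :=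
    (contDiffOn_const.mul hφ.1).add (contDiffOn_const.mul hψ.1)
  refine ⟨hc, ?_, ?_⟩
  · refine IntegrableOn.congr_fun (((hφ.2.1.const_mul (s ^ 2)).add
      ((hφ.int_mul hψ).const_mul (2 * s * t))).add (hψ.2.1.const_mul (t ^ 2))) (fun z _ => ?_)
      measurableSet_D
    simp only [Pi.add_apply]
    ring
  · refine IntegrableOn.congr_fun (((hφ.2.2.const_mul (s ^ 2)).add
      ((hφ.int_gdot hψ).const_mul (2 * s * t))).add (hψ.2.2.const_mul (t ^ 2))) (fun z hz => ?_)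
      measurableSet_D
    simp only [Pi.add_apply]
    rw [← gdot_self (fun w => s * φ w + t * ψ w), gdot_comb _ hφ.1 hψ.1 s t hz,
      gdot_comm (fun w => s * φ w + t * ψ w) φ, gdot_comm (fun w => s * φ w + t * ψ w) ψ,
      gdot_comb _ hφ.1 hψ.1 s t hz, gdot_comb _ hφ.1 hψ.1 s t hz,
      gdot_self, gdot_self, gdot_comm ψ φ]
    ring

theorem Q_comm (φ ψ : ℂ → ℝ) : d.Q φ ψ = d.Q ψ φ := by
  simp only [Q, gdot_comm φ ψ, mul_comm (φ _) (ψ _)]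

theorem Q_comb {χ φ ψ : ℂ → ℝ} (hχ : d.H1 χ) (hφ : d.H1 φ) (hψ : d.H1 ψ) (s t : ℝ) :
    d.Q χ (fun w => s * φ w + t * ψ w) = s * d.Q χ φ + t * d.Q χ ψ := by
  have h1 : ∫ z in D, gdot χ (fun w => s * φ w + t * ψ w) z =
      s * (∫ z in D, gdot χ φ z) + t * ∫ z in D, gdot χ ψ z := by
    rw [← integral_const_mul, ← integral_const_mul, ← integral_add ((hχ.int_gdot hφ).const_mul s)
      ((hχ.int_gdot hψ).const_mul t)]
    exact setIntegral_congr_fun measurableSet_D fun z hz => gdot_comb χ hφ.1 hψ.1 s t hz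
  have h2 : ∫ z in D, d.ρ z * (χ z * (s * φ z + t * ψ z)) =
      s * (∫ z in D, d.ρ z * (χ z * φ z)) + t * ∫ z in D, d.ρ z * (χ z * ψ z) := by
    rw [← integral_const_mul, ← integral_const_mul, ← integral_add ((hχ.int_mul hφ).const_mul s)
      ((hχ.int_mul hψ).const_mul t)]
    congr 1
    ext z
    ring
  simp only [Q, h1, h2]
  ring

theorem Q_comb_self {φ ψ : ℂ → ℝ} (hφ : d.H1 φ) (hψ : d.H1 ψ) (s t : ℝ) :
    d.Q (fun w => s * φ w + t * ψ w) (fun w => s * φ w + t * ψ w) =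
      s ^ 2 * d.Q φ φ + 2 * s * t * d.Q φ ψ + t ^ 2 * d.Q ψ ψ := by
  rw [Q_comb (hφ.comb hψ s t) hφ hψ, Q_comm (fun w => s * φ w + t * ψ w) φ,
    Q_comm (fun w => s * φ w + t * ψ w) ψ, Q_comb hφ hφ hψ, Q_comb hψ hφ hψ,
    Q_comm ψ φ]
  ring

theorem ell_comb {φ ψ : ℂ → ℝ} (hφ : d.H1 φ) (hψ : d.H1 ψ) (s t : ℝ) :
    d.ell (fun w => s * φ w + t * ψ w) = s * d.ell φ + t * d.ell ψ := by
  simp only [ell]
  rw [← integral_const_mul, ← integral_const_mul, ← integral_add (hφ.int_ell.const_mul s)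
    (hψ.int_ell.const_mul t)]
  congr 1
  ext z
  ring

theorem Q_self (φ : ℂ → ℝ) :
    d.Q φ φ = (∫ z in D, gsq φ z) - d.μ * ∫ z in D, d.ρ z * φ z ^ 2 := by
  simp only [Q, gdot_self, sq]

theorem Q_nonneg {φ : ℂ → ℝ} (hφ : d.H1 φ) (h0 : d.ell φ = 0) : 0 ≤ d.Q φ φ := by
  rw [Q_self, sub_nonneg]
  exact d.hN φ hφ.1 hφ.2.1 hφ.2.2 h0

theorem Q_U_U : d.Q d.U d.U = 0 := by
  rw [Q_self, d.hE]; exact sub_self _

theorem ell_U : d.ell d.U = 0 := d.hmean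

theorem ell_one_pos : 0 < d.ell fun _ => 1 := by simpa [ell] using d.int_ρ_pos

theorem Q_one (φ : ℂ → ℝ) : d.Q φ (fun _ => 1) = -(d.μ * d.ell φ) := by
  simp [Q, gdot, ell]

/-- The weak Neumann equation. -/
theorem weakU {φ : ℂ → ℝ} (hφ : d.H1 φ) : d.Q d.U φ = 0 := by
  have key : ∀ ψ, d.H1 ψ → d.ell ψ = 0 → d.Q d.U ψ = 0 := fun ψ hψ h0 => by
    have h : ∀ t : ℝ, 0 ≤ d.Q ψ ψ * (t * t) + 2 * d.Q d.U ψ * t + 0 := fun t => by
      have := Q_nonneg (d.H1_U.comb hψ 1 t) (by rw [ell_comb d.H1_U hψ, ell_U, h0]; ring)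
      rw [Q_comb_self d.H1_U hψ, Q_U_U] at this
      linarith
    have := discrim_le_zero h
    simp only [discrim] at this
    nlinarith [sq_nonneg (d.Q d.U ψ)]
  have hp := ell_one_pos (d := d)
  have := key _ (hφ.comb d.H1_one 1 (-(d.ell φ / d.ell fun _ => 1))) (by
    rw [ell_comb hφ d.H1_one]; field_simp; ring)
  rw [Q_comb d.H1_U hφ d.H1_one, Q_one, ell_U] at this
  linarith

theorem H1_of_bdd {φ : ℂ → ℝ} (hφ : ContDiffOn ℝ 1 φ D) {C : ℝ} (hC : ∀ z ∈ D, |φ z| ≤ C)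
    (hg : IntegrableOn (gsq φ) D) : d.H1 φ := by
  refine ⟨hφ, (d.int_ρ.mul_const (C ^ 2)).mono' ((d.contOn_ρ.mul
    (hφ.continuousOn.pow 2)).aestronglyMeasurable measurableSet_D) ?_, hg⟩
  filter_upwards [ae_D] with z hz
  rw [Real.norm_eq_abs, abs_of_nonneg (mul_nonneg (d.ρ_nonneg z) (sq_nonneg _)), ← sq_abs (φ z)]
  exact mul_le_mul_of_nonneg_left (pow_le_pow_left₀ (abs_nonneg _) (hC z hz) 2) (d.ρ_nonneg z)

theorem H1_of_bdd' {φ : ℂ → ℝ} (hφ : ContDiffOn ℝ 1 φ D) {C : ℝ}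
    (hC : ∀ z ∈ D, ‖wd I (fun w => (φ w : ℂ)) z‖ ≤ C ∧ ‖(φ z : ℂ)‖ ≤ C) : d.H1 φ := by
  refine H1_of_bdd hφ (C := C) (fun z hz => by simpa using (hC z hz).2) ?_
  refine integrableOn_of_bdd (by rw [← gdot_self]; exact contOn_gdot hφ hφ) (M := 4 * C ^ 2)
    fun z hz => ?_
  rw [← normSq_wd_I_ofReal (diffAt_of_C1 hφ hz), Real.norm_eq_abs, abs_of_nonneg (by positivity)]
  gcongr
  exact (hC z hz).1

theorem H1_of_Zc {φ : ℂ → ℝ} (h : Zc fun w => (φ w : ℂ)) : d.H1 φ := by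
  obtain ⟨C, hC⟩ := h.bdd (c := I) (by simp)
  exact H1_of_bdd' (contDiffOn_re h.1) hC

theorem H1_of_contDiff {φ : ℂ → ℝ} (h : ContDiff ℝ 1 φ) : d.H1 φ := by
  obtain ⟨C, -, hC⟩ := bdd_of_contDiff (contDiff_ofReal' h)
  exact H1_of_bdd' h.contDiffOn (C := C) fun z hz =>
    ⟨(norm_wd_le (by simp) _ z).trans (hC z (mem_D.1 hz).le).1, (hC z (mem_D.1 hz).le).2⟩

end Data

end Crest.Agent.R101
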