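import Crest.Agent.R101.Potential

/-! Boundary decay, weak Poisson equation and truncation for Green potentials. -/

open MeasureTheory Complex Metric Set Filter Topology
open scoped Real ComplexConjugate

namespace Crest.Agent.R101

theorem Adm.add {F H : ℂ → ℂ} (hF : Adm F) (hH : Adm H) : Adm fun z => F z + H z :=
  ⟨hF.1.add hH.1, hF.2.add hH.2⟩

theorem Adm.sub {F H : ℂ → ℂ} (hF : Adm F) (hH : Adm H) : Adm fun z => F z - H z :=
  ⟨hF.1.sub hH.1, hF.2.sub hH.2⟩

theorem Adm.conj {F : ℂ → ℂ} (hF : Adm F) : Adm fun z => conj (F z) :=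
  ⟨continuous_conj.comp_continuousOn' hF.1, by
    have := conjCLE.toContinuousLinearMap.integrable_comp hF.2
    simpa [IntegrableOn] using this⟩

theorem Adm.norm {F : ℂ → ℂ} (hF : Adm F) : Adm fun z => (‖F z‖ : ℂ) :=
  ⟨continuous_ofReal.comp_continuousOn' hF.1.norm, hF.2.norm.ofReal⟩

theorem norm_eta_le (k : ℕ) (z : ℂ) : ‖(eta k z : ℂ)‖ ≤ 1 := by
  rw [norm_real, Real.norm_eq_abs, abs_of_nonneg (eta_nonneg k z)]; exact eta_le_one k z

theorem norm_eta_mul_le (k : ℕ) (z a : ℂ) : ‖(eta k z : ℂ) * a‖ ≤ ‖a‖ := by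
  rw [norm_mul]; exact mul_le_of_le_one_left (norm_nonneg _) (norm_eta_le k z)

theorem eta_mul_bdd {F : ℂ → ℂ} (hF : ContinuousOn F D) (k : ℕ) :
    ContinuousOn (fun z => (eta k z : ℂ) * F z) D ∧
      ∃ M : ℝ, ∀ z ∈ D, ‖(eta k z : ℂ) * F z‖ ≤ M := by
  have hc : ContinuousOn (fun z => (eta k z : ℂ) * F z) D :=
    (continuous_ofReal.comp (continuous_eta k)).continuousOn.mul hF
  obtain ⟨R, hR, h0⟩ := eta_vanish k
  exact ⟨hc, bdd_of_vanish hc hR fun z _ hz => by simp [h0 z hz]⟩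

theorem adm_eta_mul {F : ℂ → ℂ} (hF : ContinuousOn F D) (k : ℕ) :
    Adm fun z => (eta k z : ℂ) * F z := by
  obtain ⟨hc, M, hM⟩ := eta_mul_bdd hF k
  exact ⟨hc, integrableOn_of_bdd hc hM⟩

theorem Adm.pot_sub {F H : ℂ → ℂ} (hF : Adm F) (hH : Adm H) {x : ℂ} (hx : x ∈ D) :
    pot (fun z => F z - H z) x = pot F x - pot H x := by
  simp only [pot, mul_sub]
  exact integral_sub (hF.integrable_G hx) (hH.integrable_G hx)

theorem pot_conj (F : ℂ → ℂ) (x : ℂ) : pot (fun z => conj (F z)) x = conj (pot F x) := by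
  simp only [pot, ← integral_conj, map_mul, conj_ofReal]

theorem pot_ofReal (Φ : ℂ → ℝ) (x : ℂ) :
    pot (fun z => (Φ z : ℂ)) x = ((∫ y in D, G x y * Φ y : ℝ) : ℂ) := by
  simp only [pot, ← ofReal_mul]
  exact integral_ofReal

theorem norm_pot_le {F : ℂ → ℂ} {Φ : ℂ → ℝ} (hΦ : Adm fun z => (Φ z : ℂ))
    (h : ∀ z ∈ D, ‖F z‖ ≤ Φ z) {x : ℂ} (hx : x ∈ D) :
    ‖pot F x‖ ≤ ‖pot (fun z => (Φ z : ℂ)) x‖ := by
  have hi : IntegrableOn (fun y => G x y * Φ y) D := by
    have := (hΦ.integrable_G hx).re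
    simpa [IntegrableOn] using this
  rw [pot_ofReal, norm_real, Real.norm_eq_abs]
  refine le_trans (norm_integral_le_of_norm_le hi ?_) (le_abs_self _)
  filter_upwards [ae_D] with y hy
  rw [norm_mul, norm_real, Real.norm_eq_abs, abs_of_nonneg (G_nonneg hx hy)]
  exact mul_le_mul_of_nonneg_left (h y hy) (G_nonneg hx hy)

theorem zc_pot {F : ℂ → ℂ} (hFc : ContinuousOn F D) {M : ℝ} (hM : ∀ z ∈ D, ‖F z‖ ≤ M) :
    Zc (pot F) := by
  have hF : Adm F := ⟨hFc, integrableOn_of_bdd hFc hM⟩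
  have hM0 : 0 ≤ M := (norm_nonneg _).trans (hM 0 (by simp))
  set K := ∫ w in ball (0 : ℂ) 2, ‖w‖⁻¹ with hK
  have hK0 : 0 ≤ K := integral_nonneg fun w => by positivity
  have hs : ∀ x ∈ D, ∫ y in D, ‖x - y‖⁻¹ * ‖F y‖ ≤ M * K := fun x hx => by
    have := (sing_bound (r := fun w => ‖w‖⁻¹) (by fun_prop) (fun w => by positivity)
      (fun w => le_rfl) (δ := 2) (c := 2⁻¹) (by positivity) hM0
      (fun w hw => inv_anti₀ two_pos hw) hF.2 hx (fun y hy _ => hM y hy)).1
    obtain ⟨h1, h2⟩ := shift_bound (r := fun w => ‖w‖⁻¹) (by fun_prop) (fun w => by positivity)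
      (fun w => le_rfl) hx
    calc _ ≤ ∫ y in D, M * ‖x - y‖⁻¹ := by
          refine setIntegral_mono_on this (h1.const_mul M) measurableSet_D fun y hy => ?_
          rw [mul_comm M]
          gcongr
          exact hM y hy
      _ ≤ M * K := by rw [integral_const_mul]; gcongr
  have hd : ∀ x ∈ D, ‖fderiv ℝ (pot F) x‖ ≤ M * K := fun x hx => by
    rw [(hF.hasFDerivAt_pot hx).fderiv]
    refine le_trans (norm_integral_le_of_norm_le (hF.integrable_sing hx) ?_) (hs x hx)
    filter_upwards [ae_D_ne x] with y hy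
    rw [norm_dk]
    gcongr
    exact norm_ge_le le_rfl hx hy.1 hy.2
  have hv : ∀ x ∈ D, ‖pot F x‖ ≤ √(1 - ‖x‖ ^ 2) * (M * K) := fun x hx => by
    refine le_trans (norm_integral_le_of_norm_le
      ((hF.integrable_sing hx).const_mul √(1 - ‖x‖ ^ 2)) ?_) ?_
    · filter_upwards [ae_D_ne x] with y hy
      rw [norm_mul, norm_real, Real.norm_eq_abs, abs_of_nonneg (G_nonneg hx hy.1), ← mul_assoc,
        ← Ge_zero]
      gcongr
      exact Ge_le le_rfl hx hy.1 hy.2
    · rw [integral_const_mul]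
      gcongr
      exact hs x hx
  refine ⟨hF.contDiffOn_pot, M * K, fun x hx => ⟨hd x hx, ?_⟩⟩
  have hx1 := mem_D.1 hx
  obtain ⟨w, hw1, hw⟩ : ∃ w : ℂ, ‖w‖ = 1 ∧ x = (‖x‖ : ℝ) • w := by
    by_cases h : x = 0
    · exact ⟨1, by simp, by simp [h]⟩
    · have hz0 : 0 < ‖x‖ := norm_pos_iff.2 h
      refine ⟨(‖x‖⁻¹ : ℝ) • x, ?_, ?_⟩
      · rw [norm_smul, Real.norm_eq_abs, abs_of_pos (inv_pos.2 hz0), inv_mul_cancel₀ hz0.ne']
      · rw [smul_smul, mul_inv_cancel₀ hz0.ne', one_smul]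
  have key : ∀ s ∈ Ioo ‖x‖ 1, ‖pot F x‖ ≤ M * K * (s - ‖x‖) + √(1 - s ^ 2) * (M * K) := by
    intro s hs
    have hs0 : 0 ≤ s := (norm_nonneg x).trans hs.1.le
    have hn : ‖s • w‖ = s := by rw [norm_smul, hw1, mul_one, Real.norm_eq_abs, abs_of_nonneg hs0]
    have hsD : s • w ∈ D := by rw [mem_D, hn]; exact hs.2
    have h1 := (convex_ball (0 : ℂ) 1).norm_image_sub_le_of_norm_fderiv_le (𝕜 := ℝ) (f := pot F)
      (fun z hz => diffAt_of_C1 hF.contDiffOn_pot hz) hd hsD hx
    have h2 : ‖x - s • w‖ = s - ‖x‖ := by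
      conv_lhs => rw [hw]
      rw [← sub_smul, norm_smul, hw1, mul_one, Real.norm_eq_abs, abs_of_nonpos (by linarith [hs.1])]
      ring
    have h3 := hv _ hsD
    rw [hn] at h3
    rw [h2] at h1
    linarith [norm_le_norm_sub_add (pot F x) (pot F (s • w))]
  have hc : Continuous fun s : ℝ => M * K * (s - ‖x‖) + √(1 - s ^ 2) * (M * K) := by fun_prop
  have hlim := (hc.tendsto 1).mono_left (nhdsWithin_le_nhds (s := Iio 1))
  have := ge_of_tendsto hlim (by
    filter_upwards [Ioo_mem_nhdsLT hx1] with s hs using key s hs)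
  simpa using this

theorem zc_pot_eta {F : ℂ → ℂ} (hF : ContinuousOn F D) (k : ℕ) :
    Zc (pot fun z => (eta k z : ℂ) * F z) := by
  obtain ⟨hc, M, hM⟩ := eta_mul_bdd hF k
  exact zc_pot hc hM

theorem Adm.tendsto_pot {F : ℂ → ℂ} (hF : Adm F) {x : ℂ} (hx : x ∈ D) :
    Tendsto (fun k => pot (fun z => (eta k z : ℂ) * F z) x) atTop (𝓝 (pot F x)) := by
  refine tendsto_integral_of_dominated_convergence (fun y => ‖(G x y : ℂ) * F y‖)
    (fun k => ((adm_eta_mul hF.1 k).integrable_G hx).1) (hF.integrable_G hx).norm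
    (fun k => Eventually.of_forall fun y => ?_) ?_
  · rw [norm_mul, norm_mul (G x y : ℂ) (F y)]
    gcongr
    exact norm_eta_mul_le k y _
  · filter_upwards [ae_D] with y hy
    refine tendsto_const_nhds.congr' ?_
    filter_upwards [eta_tendsto hy] with k hk
    simp [hk]

theorem Adm.tendsto_wd_pot {F : ℂ → ℂ} (hF : Adm F) {x : ℂ} (hx : x ∈ D) :
    Tendsto (fun k => wd I (pot fun z => (eta k z : ℂ) * F z) x) atTop (𝓝 (wd I (pot F) x)) := by
  simp only [(adm_eta_mul hF.1 _).wd_pot hx, hF.wd_pot hx]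
  refine Tendsto.div_const ?_ 2
  refine tendsto_integral_of_dominated_convergence (fun y => ‖ge 0 x y * F y‖)
    (fun k => ((adm_eta_mul hF.1 k).integrable_ge hx).1) (hF.integrable_ge hx).norm
    (fun k => Eventually.of_forall fun y => ?_) ?_
  · rw [norm_mul, norm_mul (ge 0 x y) (F y)]
    gcongr
    exact norm_eta_mul_le k y _
  · filter_upwards [ae_D] with y hy
    refine tendsto_const_nhds.congr' ?_
    filter_upwards [eta_tendsto hy] with k hk
    simp [hk]

theorem ge_test {S : ℂ → ℂ} (hS : Cc S) {y : ℂ} (hy : y ∈ D) :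
    2 * ∫ x in D, ge 0 x y * wd (-I) S x = S y := by
  have hne : ∀ x ∈ D, 1 - x * conj y ≠ 0 := fun x hx h => by
    have h1 : ‖x * conj y‖ = 1 := by rw [← sub_eq_zero.1 h, norm_one]
    rw [norm_mul, RCLike.norm_conj] at h1
    nlinarith [mem_D.1 hx, mem_D.1 hy, norm_nonneg x, norm_nonneg y]
  have hh : DifferentiableOn ℂ (fun x => conj y / (1 - x * conj y)) D :=
    DifferentiableOn.div (by fun_prop) (by fun_prop) hne
  have hA : ContDiffOn ℝ 1 (fun x => conj (conj y / (1 - x * conj y))) D :=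
    contDiffOn_conj (holo_C1 hh)
  have h1 : ∫ x in D, conj (conj y / (1 - x * conj y)) * wd (-I) S x = 0 := by
    rw [← ibp (-I) hA hS]
    refine setIntegral_congr_fun measurableSet_D fun x hx => ?_
    rw [wd_negI_antiholo (holo_at hh hx)]
    ring
  have h2 : ∫ x in D, conj (1 / (x - y)) * wd (-I) S x = -π * S y := by
    have := congrArg conj (pompeiu _ hS.conj hy)
    rw [← integral_conj] at this
    simp only [wd_I_conj, map_div₀, conj_conj, map_mul, map_neg, conj_ofReal] at this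
    rw [← this]
    refine setIntegral_congr_fun measurableSet_D fun x _ => ?_
    simp only [map_div₀, map_one]
    ring
  have hi1 : IntegrableOn (fun x => conj (conj y / (1 - x * conj y)) * wd (-I) S x) D :=
    hS.integrableOn_mul_wd hA.continuousOn _
  have hi2 : IntegrableOn (fun x => conj (1 / (x - y)) * wd (-I) S x) D := by
    have hW : Adm (wd (-I) S) := ⟨contOn_wd _ hS.1, hS.integrableOn_wd _⟩
    refine (hW.integrable_sing hy).mono' (AEStronglyMeasurable.mul ?_ hW.2.1)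
      (Eventually.of_forall fun x => ?_)
    · exact (continuous_conj.measurable.comp (by fun_prop)).aestronglyMeasurable
    · rw [norm_mul, RCLike.norm_conj, norm_div, norm_one, one_div, norm_sub_rev]
  have h3 : ∫ x in D, ge 0 x y * wd (-I) S x = -(1 / (2 * π)) *
      ((∫ x in D, conj (conj y / (1 - x * conj y)) * wd (-I) S x) +
        ∫ x in D, conj (1 / (x - y)) * wd (-I) S x) := by
    rw [← integral_add hi1 hi2, ← integral_const_mul]
    refine setIntegral_congr_fun measurableSet_D fun x hx => ?_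
    rw [ge_zero_eq hx hy]
    ring
  rw [h3, h1, h2]
  have : (π : ℂ) ≠ 0 := ofReal_ne_zero.2 Real.pi_ne_zero
  field_simp
  ring

/-- Weak Poisson equation. -/
theorem Adm.poisson {F : ℂ → ℂ} (hF : Adm F) {S : ℂ → ℂ} (hS : Cc S) :
    4 * ∫ x in D, wd I (pot F) x * wd (-I) S x = ∫ y in D, F y * S y := by
  obtain ⟨R, hR, h0⟩ := hS.wd_vanish (-I)
  have hWc := contOn_wd (-I) hS.1
  obtain ⟨C, hC⟩ := bdd_of_vanish hWc hR h0
  have hC0 : 0 ≤ C := (norm_nonneg _).trans (hC 0 (by simp))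
  set K := ∫ w in ball (0 : ℂ) 2, ‖w‖⁻¹ with hK
  have hm : AEStronglyMeasurable (Function.uncurry fun x y => ge 0 x y * F y * wd (-I) S x)
      ((volume.restrict D).prod (volume.restrict D)) :=
    ((measurable_ge 0).aestronglyMeasurable.mul hF.2.1.comp_snd).mul
      (hWc.aestronglyMeasurable measurableSet_D).comp_fst
  have hb : ∀ y ∈ D, ∀ᵐ x ∂(volume.restrict D),
      ‖ge 0 x y * F y * wd (-I) S x‖ ≤ C * ‖F y‖ * ‖y - x‖⁻¹ := fun y hy => by
    filter_upwards [ae_D_ne y] with x hx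
    rw [norm_mul, norm_mul, norm_sub_rev]
    calc _ ≤ ‖x - y‖⁻¹ * ‖F y‖ * C := by
          gcongr
          · exact norm_ge_le le_rfl hx.1 hy hx.2.symm
          · exact hC x hx.1
      _ = _ := by ring
  have hsh := fun y (hy : y ∈ D) => shift_bound (r := fun w => ‖w‖⁻¹) (by fun_prop)
    (fun w => by positivity) (fun w => le_rfl) hy
  have hix : ∀ y ∈ D, IntegrableOn (fun x => ge 0 x y * F y * wd (-I) S x) D := fun y hy => by
    refine ((hsh y hy).1.const_mul (C * ‖F y‖)).mono' ?_ (hb y hy)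
    have : Measurable fun x => ge 0 x y := by unfold ge QQ; fun_prop
    exact (this.aestronglyMeasurable.mul_const _).mul (hWc.aestronglyMeasurable measurableSet_D)
  have hint : Integrable (Function.uncurry fun x y => ge 0 x y * F y * wd (-I) S x)
      ((volume.restrict D).prod (volume.restrict D)) := by
    rw [integrable_prod_iff' hm]
    refine ⟨by filter_upwards [ae_D] with y hy using hix y hy, ?_⟩
    refine ((hF.2.norm.const_mul C).mul_const K).mono' hm.prod_swap.norm.integral_prod_right' ?_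
    filter_upwards [ae_D] with y hy
    rw [Real.norm_eq_abs, abs_of_nonneg (integral_nonneg fun x => norm_nonneg _)]
    calc _ ≤ ∫ x in D, C * ‖F y‖ * ‖y - x‖⁻¹ :=
          integral_mono_ae (hix y hy).norm ((hsh y hy).1.const_mul _) (hb y hy)
      _ ≤ _ := by
          rw [integral_const_mul]
          gcongr
          exact (hsh y hy).2
  have h1 : ∫ x in D, wd I (pot F) x * wd (-I) S x =
      (∫ x in D, ∫ y in D, ge 0 x y * F y * wd (-I) S x) / 2 := by
    rw [← integral_div]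
    refine setIntegral_congr_fun measurableSet_D fun x hx => ?_
    rw [hF.wd_pot hx, integral_mul_const]
    ring
  rw [h1, integral_integral_swap hint, ← mul_div_assoc, ← integral_const_mul, ← integral_div]
  refine setIntegral_congr_fun measurableSet_D fun y hy => ?_
  rw [← ge_test hS hy, ← integral_const_mul, ← integral_const_mul, ← integral_const_mul,
    ← integral_div]
  refine setIntegral_congr_fun measurableSet_D fun x _ => ?_
  ring

end Crest.Agent.R101
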