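import Crest.Agent.R101.Green
import Crest.Agent.R101.Pompeiu

/-! The Green potential of a continuous integrable density is `C¹` and solves the Poisson
equation weakly. -/

open MeasureTheory Complex Metric Set Filter Topology
open scoped Real ComplexConjugate

namespace Crest.Agent.R101

/-- Continuous and integrable on the disc. -/
def Adm (F : ℂ → ℂ) : Prop := ContinuousOn F D ∧ IntegrableOn F D

theorem integrableOn_inv_norm : IntegrableOn (fun w : ℂ => ‖w‖⁻¹) (ball 0 2) := by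
  refine integrableOn_ball_of_norm_le_rpow (C := 1) (α := 1) (by simp) (by simp)
    (Eventually.of_forall fun w => ?_) (by fun_prop)
  rw [norm_inv, norm_norm, Real.rpow_neg_one, one_mul]

theorem ae_D : ∀ᵐ y ∂(volume.restrict D), y ∈ D := ae_restrict_mem measurableSet_D

theorem ae_D_ne (x : ℂ) : ∀ᵐ y ∂(volume.restrict D), y ∈ D ∧ x ≠ y := by
  have : ∀ᵐ y ∂(volume : Measure ℂ), x ≠ y := by
    have := (Set.countable_singleton x).ae_notMem (volume : Measure ℂ)
    filter_upwards [this] with y hy h using hy (by simp [h])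
  exact ae_D.and (ae_restrict_of_ae this)

theorem local_bdd {F : ℂ → ℂ} (hF : ContinuousOn F D) {x₀ : ℂ} (hx : x₀ ∈ D) :
    ∃ δ M : ℝ, 0 < δ ∧ 0 ≤ M ∧ ball x₀ δ ⊆ D ∧
      ∀ x ∈ ball x₀ δ, ∀ y ∈ D, ‖x - y‖ < δ → ‖F y‖ ≤ M := by
  have h1 := mem_D.1 hx
  set δ := (1 - ‖x₀‖) / 3 with hδ
  have hδ0 : 0 < δ := by linarith
  have hsub : closedBall x₀ (2 * δ) ⊆ D := by
    apply closedBall_subset_ball'
    rw [dist_zero_right]; linarith
  obtain ⟨M, hM⟩ := (isCompact_closedBall x₀ (2 * δ)).exists_bound_of_continuousOn (hF.mono hsub)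
  refine ⟨δ, max M 0, hδ0, le_max_right _ _,
    (ball_subset_closedBall.trans (closedBall_subset_closedBall (by linarith))).trans hsub,
    fun x hx y _ hxy => (hM y ?_).trans (le_max_left _ _)⟩
  rw [mem_closedBall, dist_eq_norm]
  rw [mem_ball, dist_eq_norm] at hx
  calc ‖y - x₀‖ = ‖(x - x₀) - (x - y)‖ := by congr 1; ring
    _ ≤ ‖x - x₀‖ + ‖x - y‖ := norm_sub_le _ _
    _ ≤ 2 * δ := by linarith

theorem sub_mem_ball_two {x y : ℂ} (hx : x ∈ D) (hy : y ∈ D) : x - y ∈ ball (0 : ℂ) 2 := by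
  rw [mem_ball_zero_iff]
  linarith [norm_sub_le x y, mem_D.1 hx, mem_D.1 hy]

theorem shift_bound {r : ℂ → ℝ} (hr : Measurable r) (h0 : ∀ w, 0 ≤ r w) (h1 : ∀ w, r w ≤ ‖w‖⁻¹)
    {x : ℂ} (hx : x ∈ D) :
    IntegrableOn (fun y => r (x - y)) D ∧ ∫ y in D, r (x - y) ≤ ∫ w in ball (0 : ℂ) 2, r w := by
  have hi : IntegrableOn r (ball 0 2) :=
    integrableOn_inv_norm.mono' hr.aestronglyMeasurable (Eventually.of_forall fun w => by
      rw [Real.norm_eq_abs, abs_of_nonneg (h0 w)]; exact h1 w)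
  have hi2 : Integrable ((ball (0 : ℂ) 2).indicator r) :=
    (integrable_indicator_iff measurableSet_ball).2 hi
  have hi3 := hi2.comp_sub_left x
  have heq : ∀ y ∈ D, (ball (0 : ℂ) 2).indicator r (x - y) = r (x - y) := fun y hy =>
    indicator_of_mem (sub_mem_ball_two hx hy) r
  refine ⟨(hi3.integrableOn (s := D)).congr_fun heq measurableSet_D, ?_⟩
  rw [← setIntegral_congr_fun measurableSet_D heq,
    ← integral_indicator (s := ball (0 : ℂ) 2) measurableSet_ball,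
    ← integral_sub_left_eq_self ((ball (0 : ℂ) 2).indicator r) volume x]
  exact setIntegral_le_integral hi3
    (Eventually.of_forall fun y => indicator_nonneg (fun w _ => h0 w) _)

theorem sing_bound {r : ℂ → ℝ} (hr : Measurable r) (h0 : ∀ w, 0 ≤ r w) (h1 : ∀ w, r w ≤ ‖w‖⁻¹)
    {δ c M : ℝ} (hc0 : 0 ≤ c) (hM0 : 0 ≤ M) (hc : ∀ w, δ ≤ ‖w‖ → r w ≤ c) {F : ℂ → ℂ}
    (hF : IntegrableOn F D) {x : ℂ} (hx : x ∈ D) (hM : ∀ y ∈ D, ‖x - y‖ < δ → ‖F y‖ ≤ M) :
    IntegrableOn (fun y => r (x - y) * ‖F y‖) D ∧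
      ∫ y in D, r (x - y) * ‖F y‖ ≤ M * (∫ w in ball (0 : ℂ) 2, r w) + c * ∫ y in D, ‖F y‖ := by
  obtain ⟨hi, hle⟩ := shift_bound hr h0 h1 hx
  have hb : IntegrableOn (fun y => M * r (x - y) + c * ‖F y‖) D :=
    (hi.const_mul M).add (hF.norm.const_mul c)
  have hpt : ∀ y ∈ D, r (x - y) * ‖F y‖ ≤ M * r (x - y) + c * ‖F y‖ := fun y hy => by
    by_cases h : ‖x - y‖ < δ
    · have := mul_le_mul_of_nonneg_left (hM y hy h) (h0 (x - y))
      have : 0 ≤ c * ‖F y‖ := by positivity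
      linarith
    · have := mul_le_mul_of_nonneg_right (hc _ (not_lt.1 h)) (norm_nonneg (F y))
      have : 0 ≤ M * r (x - y) := mul_nonneg hM0 (h0 _)
      linarith
  have hint : IntegrableOn (fun y => r (x - y) * ‖F y‖) D :=
    hb.mono' (hi.1.mul hF.norm.1) (by
      filter_upwards [ae_D] with y hy
      rw [Real.norm_eq_abs, abs_of_nonneg (mul_nonneg (h0 _) (norm_nonneg _))]
      exact hpt y hy)
  refine ⟨hint, (setIntegral_mono_on hint hb measurableSet_D hpt).trans ?_⟩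
  rw [integral_add (hi.const_mul M) (hF.norm.const_mul c), integral_const_mul, integral_const_mul]
  gcongr

theorem Adm.integrable_sing {F : ℂ → ℂ} (hF : Adm F) {x : ℂ} (hx : x ∈ D) :
    IntegrableOn (fun y => ‖x - y‖⁻¹ * ‖F y‖) D := by
  obtain ⟨δ, M, hδ, hM0, -, hM⟩ := local_bdd hF.1 hx
  exact (sing_bound (r := fun w => ‖w‖⁻¹) (by fun_prop) (fun w => by positivity)
    (fun w => le_rfl) (c := δ⁻¹) (by positivity) hM0 (fun w hw => inv_anti₀ hδ hw) hF.2 hx
    (hM x (mem_ball_self hδ))).1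

theorem measurable_Ge' (ε : ℝ) (x : ℂ) : Measurable fun y => (Ge ε x y : ℂ) := by
  unfold Ge; fun_prop

theorem measurable_ge' (ε : ℝ) (x : ℂ) : Measurable fun y => ge ε x y := by
  unfold ge QQ; fun_prop

theorem Adm.integrable_Ge {F : ℂ → ℂ} (hF : Adm F) {ε : ℝ} (hε : 0 ≤ ε) {x : ℂ} (hx : x ∈ D) :
    IntegrableOn (fun y => (Ge ε x y : ℂ) * F y) D := by
  refine (hF.integrable_sing hx).mono' ((measurable_Ge' ε x).aestronglyMeasurable.mul hF.2.1) ?_
  filter_upwards [ae_D_ne x] with y hy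
  rw [norm_mul, norm_real, Real.norm_eq_abs, abs_of_nonneg (Ge_nonneg hε hx hy.1)]
  gcongr
  exact Ge_le' hε hx hy.1 hy.2

theorem Adm.integrable_G {F : ℂ → ℂ} (hF : Adm F) {x : ℂ} (hx : x ∈ D) :
    IntegrableOn (fun y => (G x y : ℂ) * F y) D := by
  simpa only [Ge_zero] using hF.integrable_Ge le_rfl hx

theorem Adm.integrable_ge {F : ℂ → ℂ} (hF : Adm F) {x : ℂ} (hx : x ∈ D) :
    IntegrableOn (fun y => ge 0 x y * F y) D := by
  refine (hF.integrable_sing hx).mono' ((measurable_ge' 0 x).aestronglyMeasurable.mul hF.2.1) ?_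
  filter_upwards [ae_D_ne x] with y hy
  rw [norm_mul]
  gcongr
  exact norm_ge_le le_rfl hx hy.1 hy.2

/-- The derivative kernel. -/
noncomputable def dk (a b : ℂ) : ℂ →L[ℝ] ℂ := (innerSL ℝ a).smulRight b

theorem norm_dk (a b : ℂ) : ‖dk a b‖ = ‖a‖ * ‖b‖ := by
  rw [dk, ContinuousLinearMap.norm_smulRight_apply, innerSL_apply_norm]

theorem dk_sub (a a' b : ℂ) : dk a b - dk a' b = dk (a - a') b := by
  ext w
  simp only [dk, _root_.sub_apply, ContinuousLinearMap.smulRight_apply, innerSL_apply_apply,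
    inner_sub_left, sub_smul]

theorem continuous_dk : Continuous fun p : ℂ × ℂ => dk p.1 p.2 := by
  have h := (ContinuousLinearMap.smulRightL ℝ ℂ ℂ).continuous₂
  exact h.comp (((innerSL ℝ (E := ℂ)).continuous.comp continuous_fst).prodMk continuous_snd)

theorem aesm_dk {F : ℂ → ℂ} (hF : Adm F) (ε : ℝ) (x : ℂ) :
    AEStronglyMeasurable (fun y => dk (ge ε x y) (F y)) (volume.restrict D) := by
  have := continuous_dk.comp_aestronglyMeasurable
    ((measurable_ge' ε x).aestronglyMeasurable.prodMk hF.2.1)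
  simpa only using this

theorem Adm.integrable_dk {F : ℂ → ℂ} (hF : Adm F) {ε : ℝ} (hε : 0 ≤ ε) {x : ℂ} (hx : x ∈ D) :
    IntegrableOn (fun y => dk (ge ε x y) (F y)) D := by
  refine (hF.integrable_sing hx).mono' (aesm_dk hF ε x) ?_
  filter_upwards [ae_D_ne x] with y hy
  rw [norm_dk]
  gcongr
  exact norm_ge_le hε hx hy.1 hy.2

theorem Adm.hasFDerivAt_eps {F : ℂ → ℂ} (hF : Adm F) {ε : ℝ} (hε : 0 < ε) {x : ℂ} (hx : x ∈ D) :
    HasFDerivAt (fun x => ∫ y in D, (Ge ε x y : ℂ) * F y) (∫ y in D, dk (ge ε x y) (F y)) x := by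
  refine hasFDerivAt_integral_of_dominated_of_fderiv_le (F' := fun x y => dk (ge ε x y) (F y))
    (bound := fun y => (1 + ε⁻¹) * ‖F y‖) (D_nhds hx)
    (Eventually.of_forall fun x => (measurable_Ge' ε x).aestronglyMeasurable.mul hF.2.1)
    (hF.integrable_Ge hε.le hx) (aesm_dk hF ε x) ?_ (hF.2.norm.const_mul _) ?_
  · filter_upwards [ae_D] with y hy x hx
    rw [norm_dk]
    gcongr
    exact norm_ge_le' hε hx hy
  · filter_upwards [ae_D] with y hy x hx
    have := (hasFDerivAt_Ge hε hx hy).smul_const (F y)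
    simpa only [real_smul, dk] using this

theorem Adm.continuousOn_eps {F : ℂ → ℂ} (hF : Adm F) {ε : ℝ} (hε : 0 < ε) :
    ContinuousOn (fun x => ∫ y in D, dk (ge ε x y) (F y)) D := by
  refine continuousOn_of_dominated (bound := fun y => (1 + ε⁻¹) * ‖F y‖)
    (fun x _ => aesm_dk hF ε x) (fun x hx => ?_) (hF.2.norm.const_mul _) ?_
  · filter_upwards [ae_D] with y hy
    rw [norm_dk]
    gcongr
    exact norm_ge_le' hε hx hy
  · filter_upwards [ae_D] with y hy
    have := continuous_dk.comp_continuousOn'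
      ((continuousOn_ge hε hy).prodMk (continuousOn_const (c := F y)))
    simpa only using this

theorem tendsto_int_rr {e : ℕ → ℝ} (he0 : ∀ n, 0 ≤ e n) (he : Tendsto e atTop (𝓝 0)) :
    Tendsto (fun n => ∫ w in ball (0 : ℂ) 2, rr (e n) w) atTop (𝓝 0) := by
  have := tendsto_integral_of_dominated_convergence (μ := volume.restrict (ball (0 : ℂ) 2))
    (F := fun n w => rr (e n) w) (f := fun _ => 0) (fun w => ‖w‖⁻¹)
    (fun n => (measurable_rr _).aestronglyMeasurable) integrableOn_inv_norm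
    (fun n => Eventually.of_forall fun w => by
      rw [Real.norm_eq_abs, abs_of_nonneg (rr_nonneg (he0 n) w)]; exact rr_le (he0 n) w)
    (Eventually.of_forall fun w => tendsto_rr w he)
  simpa using this

theorem Adm.tendstoUnif {F : ℂ → ℂ} (hF : Adm F) {x₀ : ℂ} (hx : x₀ ∈ D) :
    ∃ δ : ℝ, 0 < δ ∧ ball x₀ δ ⊆ D ∧ TendstoUniformlyOn
      (fun (n : ℕ) x => ∫ y in D, dk (ge (1 / ((n : ℝ) + 1)) x y) (F y))
      (fun x => ∫ y in D, dk (ge 0 x y) (F y)) atTop (ball x₀ δ) := by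
  obtain ⟨δ, M, hδ, hM0, hsub, hM⟩ := local_bdd hF.1 hx
  refine ⟨δ, hδ, hsub, ?_⟩
  have he0 : ∀ n : ℕ, (0 : ℝ) ≤ 1 / ((n : ℝ) + 1) := fun n => by positivity
  have he : Tendsto (fun n : ℕ => 1 / ((n : ℝ) + 1)) atTop (𝓝 0) :=
    tendsto_one_div_add_atTop_nhds_zero_nat
  have hlim : Tendsto (fun n : ℕ => M * (∫ w in ball (0 : ℂ) 2, rr (1 / ((n : ℝ) + 1)) w) +
      1 / ((n : ℝ) + 1) / δ ^ 3 * ∫ y in D, ‖F y‖) atTop (𝓝 0) := by
    have := ((tendsto_int_rr he0 he).const_mul M).add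
      ((he.div_const (δ ^ 3)).mul_const (∫ y in D, ‖F y‖))
    simpa using this
  rw [Metric.tendstoUniformlyOn_iff]
  intro η hη
  filter_upwards [hlim.eventually (gt_mem_nhds hη)] with n hn x hx
  have hxD := hsub hx
  obtain ⟨hi, hle⟩ := sing_bound (measurable_rr _) (rr_nonneg (he0 n)) (rr_le (he0 n))
    (c := 1 / ((n : ℝ) + 1) / δ ^ 3) (by positivity) hM0
    (fun w hw => rr_le_far (he0 n) hδ hw) hF.2 hxD (hM x hx)
  rw [dist_comm, dist_eq_norm, ← integral_sub (hF.integrable_dk (he0 n) hxD)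
    (hF.integrable_dk le_rfl hxD)]
  refine lt_of_le_of_lt (le_trans (norm_integral_le_of_norm_le hi ?_) hle) hn
  filter_upwards [ae_D_ne x] with y hy
  rw [dk_sub, norm_dk]
  gcongr
  exact norm_ge_sub_le (he0 n) hxD hy.1 hy.2

theorem Adm.hasFDerivAt_pot {F : ℂ → ℂ} (hF : Adm F) {x : ℂ} (hx : x ∈ D) :
    HasFDerivAt (pot F) (∫ y in D, dk (ge 0 x y) (F y)) x := by
  obtain ⟨δ, hδ, hsub, hU⟩ := hF.tendstoUnif hx
  refine hasFDerivAt_of_tendstoUniformlyOn isOpen_ball hU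
    (f := fun (n : ℕ) x => ∫ y in D, (Ge (1 / ((n : ℝ) + 1)) x y : ℂ) * F y)
    (fun n z hz => hF.hasFDerivAt_eps (by positivity) (hsub hz)) (fun z hz => ?_)
    (mem_ball_self hδ)
  have hzD := hsub hz
  refine tendsto_integral_of_dominated_convergence (fun y => ‖z - y‖⁻¹ * ‖F y‖)
    (fun n => (measurable_Ge' _ z).aestronglyMeasurable.mul hF.2.1) (hF.integrable_sing hzD)
    (fun n => ?_) ?_
  · filter_upwards [ae_D_ne z] with y hy
    rw [norm_mul, norm_real, Real.norm_eq_abs, abs_of_nonneg (Ge_nonneg (by positivity) hzD hy.1)]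
    gcongr
    exact Ge_le' (by positivity) hzD hy.1 hy.2
  · filter_upwards [ae_D_ne z] with y hy
    exact ((continuous_ofReal.tendsto _).comp (tendsto_Ge hy.2 hzD hy.1
      tendsto_one_div_add_atTop_nhds_zero_nat)).mul_const _

theorem Adm.continuousOn_deriv {F : ℂ → ℂ} (hF : Adm F) :
    ContinuousOn (fun x => ∫ y in D, dk (ge 0 x y) (F y)) D := by
  intro x hx
  obtain ⟨δ, hδ, hsub, hU⟩ := hF.tendstoUnif hx
  have := hU.continuousOn (Eventually.of_forall fun n : ℕ =>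
    (hF.continuousOn_eps (ε := 1 / ((n : ℝ) + 1)) (by positivity)).mono hsub).frequently
  exact (this.continuousAt (ball_mem_nhds x hδ)).continuousWithinAt

theorem Adm.contDiffOn_pot {F : ℂ → ℂ} (hF : Adm F) : ContDiffOn ℝ 1 (pot F) D := by
  rw [show (1 : WithTop ℕ∞) = 0 + 1 by simp, contDiffOn_succ_iff_fderiv_of_isOpen isOpen_D]
  refine ⟨fun x hx => (hF.hasFDerivAt_pot hx).differentiableAt.differentiableWithinAt,
    by simp, ?_⟩
  rw [contDiffOn_zero]
  exact hF.continuousOn_deriv.congr fun x hx => (hF.hasFDerivAt_pot hx).fderiv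

theorem Adm.wd_pot {F : ℂ → ℂ} (hF : Adm F) {x : ℂ} (hx : x ∈ D) :
    wd I (pot F) x = (∫ y in D, ge 0 x y * F y) / 2 := by
  have hi := hF.integrable_dk le_rfl hx
  rw [wd_of_hasFDerivAt I (hF.hasFDerivAt_pot hx), ContinuousLinearMap.integral_apply hi,
    ContinuousLinearMap.integral_apply hi, ← integral_const_mul, ← integral_add
      (hi.apply_continuousLinearMap 1) ((hi.apply_continuousLinearMap I).const_mul I)]
  congr 2
  ext y
  simp only [dk, ContinuousLinearMap.smulRight_apply, innerSL_apply_apply, real_smul]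
  have : ge 0 x y = (inner ℝ (ge 0 x y) (1 : ℂ) : ℝ) + I * (inner ℝ (ge 0 x y) I : ℝ) := by
    apply Complex.ext <;> simp
  conv_rhs => rw [this]
  ring

end Crest.Agent.R101
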