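import Crest.Agent.R101.Defs
import Crest.Agent.Lib.RMT.Basic

open MeasureTheory Complex Metric Set Filter Topology
open scoped Real ComplexConjugate Gradient

namespace Crest.Agent.R101

/-- The identification of `ℂ` with the Euclidean plane. -/
noncomputable abbrev trE : ℂ ≃ₗᵢ[ℝ] EuclideanSpace ℝ (Fin 2) := Complex.orthonormalBasisOneI.repr

theorem tr_det (c : ℂ) : |(c • (1 : ℂ →L[ℝ] ℂ)).det| = ‖c‖ ^ 2 := by
  have : (c • (1 : ℂ →L[ℝ] ℂ)).det = normSq c := by
    rw [ContinuousLinearMap.det, ← LinearMap.det_toMatrix Complex.basisOneI,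
      Matrix.det_fin_two]
    simp [LinearMap.toMatrix_apply, normSq_apply]
  rw [this, normSq_eq_norm_sq, abs_of_nonneg (by positivity)]

theorem tr_change {Ω : Set (EuclideanSpace ℝ (Fin 2))} {F : ℂ → ℂ} (hF : DifferentiableOn ℂ F D)
    (hinj : InjOn F D) (him : F '' D = trE ⁻¹' Ω) (w : EuclideanSpace ℝ (Fin 2) → ℝ) :
    (IntegrableOn w Ω ↔ IntegrableOn (fun z => ‖deriv F z‖ ^ 2 * w (trE (F z))) D) ∧
      ∫ x in Ω, w x = ∫ z in D, ‖deriv F z‖ ^ 2 * w (trE (F z)) := by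
  have hmp : MeasurePreserving trE volume volume := trE.measurePreserving
  have hme : MeasurableEmbedding trE := trE.toHomeomorph.measurableEmbedding
  have hd : ∀ z ∈ D, HasFDerivWithinAt F (deriv F z • (1 : ℂ →L[ℝ] ℂ)) D z := fun z hz =>
    ((hF.differentiableAt (isOpen_ball.mem_nhds hz)).hasDerivAt.complexToReal_fderiv
      ).hasFDerivWithinAt
  constructor
  · rw [← hmp.integrableOn_comp_preimage hme, ← him,
      integrableOn_image_iff_integrableOn_abs_det_fderiv_smul volume measurableSet_ball hd hinj]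
    simp only [tr_det, smul_eq_mul, Function.comp]
  · rw [← hmp.setIntegral_preimage_emb hme, ← him,
      integral_image_eq_integral_abs_det_fderiv_smul volume measurableSet_ball hd hinj]
    simp only [tr_det, smul_eq_mul]

theorem tr_fderiv {F : ℂ → ℂ} {z : ℂ} (hF : DifferentiableAt ℂ F z)
    {w : EuclideanSpace ℝ (Fin 2) → ℝ} (hw : DifferentiableAt ℝ w (trE (F z))) (v : ℂ) :
    fderiv ℝ (fun z => w (trE (F z))) z v
      = (deriv F z * v * conj (trE.symm (∇ w (trE (F z))))).re := by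
  have h1 : HasFDerivAt F (deriv F z • (1 : ℂ →L[ℝ] ℂ)) z := hF.hasDerivAt.complexToReal_fderiv
  have h2 : HasFDerivAt (fun z => trE (F z))
      ((trE.toContinuousLinearEquiv : ℂ →L[ℝ] EuclideanSpace ℝ (Fin 2)).comp
        (deriv F z • (1 : ℂ →L[ℝ] ℂ))) z :=
    (trE.toContinuousLinearEquiv.hasFDerivAt (x := F z)).comp z h1
  have h3 := (hw.hasGradientAt.hasFDerivAt).comp z h2
  have h4 : HasFDerivAt (fun z => w (trE (F z))) _ z := h3
  rw [h4.fderiv, ← Complex.inner, ← trE.inner_map_map, LinearIsometryEquiv.apply_symm_apply]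
  simp

theorem tr_gsq {F : ℂ → ℂ} {z : ℂ} (hF : DifferentiableAt ℂ F z)
    {w : EuclideanSpace ℝ (Fin 2) → ℝ} (hw : DifferentiableAt ℝ w (trE (F z))) :
    gsq (fun z => w (trE (F z))) z = ‖deriv F z‖ ^ 2 * ‖∇ w (trE (F z))‖ ^ 2 := by
  rw [gsq, tr_fderiv hF hw, tr_fderiv hF hw, ← trE.symm.norm_map (∇ w (trE (F z))),
    ← normSq_eq_norm_sq, ← normSq_eq_norm_sq]
  simp only [normSq_apply, mul_re, mul_im, conj_re, conj_im, one_re, one_im, I_re, I_im]
  ring

theorem transport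
    (Ω : Set (EuclideanSpace ℝ (Fin 2))) (hopen : IsOpen Ω)
    (hbdd : Bornology.IsBounded Ω) (hsc : IsSimplyConnected Ω)
    (u : EuclideanSpace ℝ (Fin 2) → ℝ) (hu : ContDiffOn ℝ 1 u Ω)
    (huL2 : IntegrableOn (fun x => u x ^ 2) Ω) (hgradL2 : IntegrableOn (fun x => ‖∇ u x‖ ^ 2) Ω)
    (hmean : ∫ x in Ω, u x = 0) (hnz : ∃ x ∈ Ω, u x ≠ 0)
    (hmin : ∀ v : EuclideanSpace ℝ (Fin 2) → ℝ, ContDiffOn ℝ 1 v Ω →
      IntegrableOn (fun x => v x ^ 2) Ω → IntegrableOn (fun x => ‖∇ v x‖ ^ 2) Ω →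
      ∫ x in Ω, v x = 0 →
      (∫ x in Ω, ‖∇ u x‖ ^ 2) * (∫ x in Ω, v x ^ 2) ≤ (∫ x in Ω, ‖∇ v x‖ ^ 2) * (∫ x in Ω, u x ^ 2))
    (x : EuclideanSpace ℝ (Fin 2)) (hx : x ∈ Ω) (h0 : ∇ u x = 0) :
    ∃ d : Data, fderiv ℝ d.U 0 = 0 := by
  set U0 : Set ℂ := trE ⁻¹' Ω with hU0
  have hU0o : IsOpen U0 := hopen.preimage trE.continuous
  have hU0s : IsSimplyConnected U0 :=
    (trE.toHomeomorph.isSimplyConnected_preimage (s := Ω)).2 hsc
  have hU0b : Bornology.IsBounded U0 := trE.antilipschitz.isBounded_preimage hbdd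
  have hxU : trE.symm x ∈ U0 := by
    simpa only [hU0, mem_preimage, LinearIsometryEquiv.apply_symm_apply] using hx
  obtain ⟨g, F, hg, hF, hgm, hFm, hFg, hgF, hg0⟩ :=
    Crest.Agent.Lib.RMT.riemann_mapping hU0o hU0s hU0b hxU
  have hinj : InjOn F D := fun a ha b hb hab => by rw [← hgF a ha, hab, hgF b hb]
  have him : F '' D = trE ⁻¹' Ω := by
    apply Subset.antisymm hFm.image_subset
    intro y hy
    exact ⟨g y, hgm hy, hFg y hy⟩
  have hF0 : F 0 = trE.symm x := by rw [← hg0]; exact hFg _ hxU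
  have hFd : ∀ z ∈ D, DifferentiableAt ℂ F z := fun z hz =>
    hF.differentiableAt (isOpen_ball.mem_nhds hz)
  have hdiff : ∀ w : EuclideanSpace ℝ (Fin 2) → ℝ, ContDiffOn ℝ 1 w Ω → ∀ y ∈ Ω,
      DifferentiableAt ℝ w y := fun w hw y hy =>
    (hw.differentiableOn one_ne_zero).differentiableAt (hopen.mem_nhds hy)
  have hch := tr_change hF hinj him
  have hvol : volume Ω ≠ ⊤ := hbdd.measure_lt_top.ne
  have hA : 0 < ∫ x in Ω, u x ^ 2 := by
    refine lt_of_le_of_ne (integral_nonneg fun x => sq_nonneg _) fun h => ?_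
    have h1 := (integral_eq_zero_iff_of_nonneg (fun x => sq_nonneg (u x)) huL2).1 h.symm
    have h2 := Measure.eqOn_open_of_ae_eq h1 hopen (hu.continuousOn.pow 2) continuousOn_const
    obtain ⟨y, hy, hy0⟩ := hnz
    exact hy0 (pow_eq_zero_iff (two_ne_zero) |>.1 (h2 hy))
  have hB : 0 < ∫ x in Ω, ‖∇ u x‖ ^ 2 := by
    refine lt_of_le_of_ne (integral_nonneg fun x => sq_nonneg _) fun h => ?_
    have h1 := (integral_eq_zero_iff_of_nonneg (fun x => sq_nonneg ‖∇ u x‖) hgradL2).1 h.symm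
    have hc : ContinuousOn (fun x => ‖∇ u x‖ ^ 2) Ω := by
      have h3 : ContinuousOn (fderiv ℝ u) Ω := hu.continuousOn_fderiv_of_isOpen hopen le_rfl
      have h4 : ContinuousOn (fun x => ∇ u x) Ω :=
        (InnerProductSpace.toDual ℝ (EuclideanSpace ℝ (Fin 2))).symm.continuous.comp_continuousOn h3
      exact h4.norm.pow 2
    have h2 := Measure.eqOn_open_of_ae_eq h1 hopen hc continuousOn_const
    have h3 : Ω.EqOn (fderiv ℝ u) 0 := by
      intro y hy
      have h4 : ‖∇ u y‖ = 0 := pow_eq_zero_iff (two_ne_zero) |>.1 (h2 hy)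
      rw [norm_eq_zero] at h4
      have h5 := (hdiff u hu y hy).hasGradientAt.hasFDerivAt.fderiv
      rw [h5, h4]; simp
    obtain ⟨a, ha⟩ := hopen.exists_is_const_of_fderiv_eq_zero
      hsc.isPathConnected.isConnected.isPreconnected (hu.differentiableOn one_ne_zero) h3
    rw [setIntegral_congr_fun hopen.measurableSet (g := fun _ => a) ha, setIntegral_const,
      smul_eq_mul] at hmean
    have h6 : volume.real Ω ≠ 0 := by
      rw [Measure.real, ENNReal.toReal_ne_zero]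
      exact ⟨(hopen.measure_pos volume ⟨x, hx⟩).ne', hvol⟩
    obtain ⟨y, hy, hy0⟩ := hnz
    exact hy0 (by rw [ha y hy]; exact (mul_eq_zero.1 hmean).resolve_left h6)
  have hFC : ContDiffOn ℝ 1 F D := (hF.contDiffOn isOpen_ball).restrict_scalars ℝ
  have hgC : ContDiffOn ℝ 1 g U0 := (hg.contDiffOn hU0o).restrict_scalars ℝ
  have hgs : ∀ w : EuclideanSpace ℝ (Fin 2) → ℝ, ContDiffOn ℝ 1 w Ω → ∀ z ∈ D,
      gsq (fun z => w (trE (F z))) z = ‖deriv F z‖ ^ 2 * ‖∇ w (trE (F z))‖ ^ 2 :=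
    fun w hw z hz => tr_gsq (hFd z hz) (hdiff w hw _ (hFm hz))
  have hBe : ∫ z in D, gsq (fun z => u (trE (F z))) z = ∫ x in Ω, ‖∇ u x‖ ^ 2 := by
    rw [(hch _).2]
    exact setIntegral_congr_fun measurableSet_ball (hgs u hu)
  refine ⟨⟨F, fun z => u (trE (F z)), (∫ x in Ω, ‖∇ u x‖ ^ 2) / ∫ x in Ω, u x ^ 2, hF,
    fun z hz => Crest.Agent.Lib.RMT.deriv_ne_zero_of_injOn isOpen_ball hF hinj hz,
    ?_, ?_, div_pos hB hA, ?_, (hch _).1.1 huL2, ?_, ?_, ?_, ?_, ?_⟩, ?_⟩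
  · obtain ⟨M, hM⟩ := hU0b.exists_norm_le
    exact ⟨M, fun z hz => hM _ (hFm hz)⟩
  · have := (hch (fun _ => (1 : ℝ))).1.1 (integrableOn_const hvol)
    simpa using this
  · exact hu.comp (trE.contDiff.comp_contDiffOn hFC) hFm
  · exact ((hch _).1.1 hgradL2).congr_fun (fun z hz => (hgs u hu z hz).symm) measurableSet_ball
  · rw [← (hch u).2]; exact hmean
  · rw [hBe, ← (hch (fun x => u x ^ 2)).2]
    field_simp
  · rw [hBe]; exact hB
  · intro φ hφ hφ2 hφg hφm
    set v : EuclideanSpace ℝ (Fin 2) → ℝ := fun y => φ (g (trE.symm y)) with hv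
    have hmaps : MapsTo trE.symm Ω U0 := by
      intro y hy
      simpa only [hU0, mem_preimage, LinearIsometryEquiv.apply_symm_apply] using hy
    have hvC : ContDiffOn ℝ 1 v Ω :=
      hφ.comp (hgC.comp trE.symm.contDiff.contDiffOn hmaps) (hgm.comp hmaps)
    have hvφ : ∀ z ∈ D, v (trE (F z)) = φ z := by
      intro z hz
      simp only [hv, LinearIsometryEquiv.symm_apply_apply, hgF z hz]
    have hgφ : ∀ z ∈ D, gsq φ z = ‖deriv F z‖ ^ 2 * ‖∇ v (trE (F z))‖ ^ 2 := by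
      intro z hz
      rw [← hgs v hvC z hz]
      have : φ =ᶠ[𝓝 z] fun z => v (trE (F z)) := by
        filter_upwards [isOpen_ball.mem_nhds hz] with y hy using (hvφ y hy).symm
      simp only [gsq, this.fderiv_eq]
    have e1 : ∫ y in Ω, v y ^ 2 = ∫ z in D, ‖deriv F z‖ ^ 2 * φ z ^ 2 := by
      rw [(hch _).2]
      exact setIntegral_congr_fun measurableSet_ball fun z hz => by simp only [hvφ z hz]
    have e2 : ∫ y in Ω, ‖∇ v y‖ ^ 2 = ∫ z in D, gsq φ z := by
      rw [(hch _).2]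
      exact setIntegral_congr_fun measurableSet_ball fun z hz => (hgφ z hz).symm
    have h1 := hmin v hvC
      ((hch _).1.2 (hφ2.congr_fun (fun z hz => by simp only [hvφ z hz]) measurableSet_ball))
      ((hch _).1.2 (hφg.congr_fun hgφ measurableSet_ball))
      (by
        rw [(hch _).2, ← hφm]
        exact setIntegral_congr_fun measurableSet_ball fun z hz => by simp only [hvφ z hz])
    rw [e1, e2] at h1
    rw [div_mul_eq_mul_div, div_le_iff₀ hA]
    exact h1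
  · have hz : (0 : ℂ) ∈ D := mem_ball_self one_pos
    have hx' : trE (F 0) = x := by rw [hF0, LinearIsometryEquiv.apply_symm_apply]
    ext v
    · show fderiv ℝ (fun z => u (trE (F z))) 0 v = 0
      rw [tr_fderiv (hFd 0 hz) (hdiff u hu _ (hFm hz)), hx', h0]
      simp

end Crest.Agent.R101
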