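import Crest.Agent.R101.Hodge

/-! Green potentials of densities that are square integrable against the inverse weight. -/

open MeasureTheory Complex Metric Set Filter Topology
open scoped Real ComplexConjugate

namespace Crest.Agent.R101

namespace Data

variable (d : Data)

/-- Admissible sources. -/
def SS (F : ℂ → ℂ) : Prop := ContinuousOn F D ∧ IntegrableOn (fun z => ‖F z‖ ^ 2 / d.ρ z) D

/-- Weighted norm of a source. -/
noncomputable def NN (F : ℂ → ℂ) : ℝ := ∫ z in D, ‖F z‖ ^ 2 / d.ρ z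

theorem NN_nonneg (F : ℂ → ℂ) : 0 ≤ d.NN F :=
  integral_nonneg fun z => div_nonneg (sq_nonneg _) (d.ρ_nonneg z)

theorem cs_w {E : Type*} [NormedAddCommGroup E] [NormedSpace ℝ E] {c : ℂ → E} {a b : ℂ → ℂ}
    (hc : AEStronglyMeasurable c (volume.restrict D))
    (ha : IntegrableOn (fun z => ‖a z‖ ^ 2 / d.ρ z) D)
    (hb : IntegrableOn (fun z => d.ρ z * ‖b z‖ ^ 2) D) (h : ∀ z ∈ D, ‖c z‖ ≤ ‖a z‖ * ‖b z‖) :
    IntegrableOn c D ∧ ∫ z in D, ‖c z‖ ≤ √(d.NN a) * √(∫ z in D, d.ρ z * ‖b z‖ ^ 2) := by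
  have := cs (α := fun z => ‖a z‖ / ‖deriv d.f z‖) (β := fun z => ‖deriv d.f z‖ * ‖b z‖) hc
    (by simpa only [div_pow, ρ] using ha) (by simpa only [mul_pow, ρ] using hb) (fun z hz => by
      have : ‖deriv d.f z‖ ≠ 0 := norm_ne_zero_iff.2 (d.hf' z hz)
      refine (h z hz).trans (le_of_eq ?_)
      field_simp)
  simpa only [div_pow, mul_pow, ρ, NN] using this

variable {d}

theorem SS.adm {F : ℂ → ℂ} (hF : d.SS F) : Adm F :=
  ⟨hF.1, (d.cs_w (b := fun _ => 1) (hF.1.aestronglyMeasurable measurableSet_D) hF.2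
    (by simpa using d.int_ρ) (by simp)).1⟩

theorem SS.mono {F H : ℂ → ℂ} (hF : d.SS F) (hH : ContinuousOn H D) {C : ℝ}
    (h : ∀ z ∈ D, ‖H z‖ ≤ C * ‖F z‖) : d.SS H ∧ d.NN H ≤ C ^ 2 * d.NN F := by
  have hpt : ∀ z ∈ D, ‖H z‖ ^ 2 / d.ρ z ≤ C ^ 2 * (‖F z‖ ^ 2 / d.ρ z) := fun z hz => by
    rw [← mul_div_assoc, ← mul_pow]
    exact div_le_div_of_nonneg_right (pow_le_pow_left₀ (norm_nonneg _) (h z hz) 2) (d.ρ_nonneg z)
  have hi : IntegrableOn (fun z => ‖H z‖ ^ 2 / d.ρ z) D := by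
    refine (hF.2.const_mul (C ^ 2)).mono' (((hH.norm.pow 2).div d.contOn_ρ
      fun z hz => (d.ρ_pos hz).ne').aestronglyMeasurable measurableSet_D) ?_
    filter_upwards [ae_D] with z hz
    rw [Real.norm_eq_abs, abs_of_nonneg (div_nonneg (sq_nonneg _) (d.ρ_nonneg z))]
    exact hpt z hz
  refine ⟨⟨hH, hi⟩, ?_⟩
  rw [NN, NN, ← integral_const_mul]
  exact setIntegral_mono_on hi (hF.2.const_mul _) measurableSet_D hpt

theorem SS.cut {F : ℂ → ℂ} (hF : d.SS F) (k : ℕ) :
    (d.SS fun z => (eta k z : ℂ) * F z) ∧ (d.NN fun z => (eta k z : ℂ) * F z) ≤ d.NN F := by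
  simpa using hF.mono (eta_mul_bdd hF.1 k).1 (C := 1) fun z _ => by
    simpa only [one_mul] using norm_eta_mul_le k z (F z)

theorem norm_sub_eta_le (k : ℕ) (z a : ℂ) : ‖a - (eta k z : ℂ) * a‖ ≤ ‖a‖ := by
  have : a - (eta k z : ℂ) * a = ((1 - eta k z : ℝ) : ℂ) * a := by push_cast; ring
  rw [this, norm_mul, norm_real, Real.norm_eq_abs, abs_of_nonneg (by linarith [eta_le_one k z])]
  exact mul_le_of_le_one_left (norm_nonneg _) (by linarith [eta_nonneg k z])

theorem SS.rest {F : ℂ → ℂ} (hF : d.SS F) (k : ℕ) : d.SS fun z => F z - (eta k z : ℂ) * F z :=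
  (hF.mono (H := fun z => F z - (eta k z : ℂ) * F z) (hF.1.sub (eta_mul_bdd hF.1 k).1) (C := 1)
    fun z _ => by
    simpa only [one_mul] using norm_sub_eta_le k z (F z)).1

theorem SS.tendsto_rest {F : ℂ → ℂ} (hF : d.SS F) :
    Tendsto (fun k => d.NN fun z => F z - (eta k z : ℂ) * F z) atTop (𝓝 0) := by
  have := tendsto_integral_of_dominated_convergence (μ := volume.restrict D)
    (F := fun k z => ‖F z - (eta k z : ℂ) * F z‖ ^ 2 / d.ρ z) (f := fun _ => 0)
    (fun z => ‖F z‖ ^ 2 / d.ρ z) (fun k => (hF.rest k).2.1) hF.2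
    (fun k => Eventually.of_forall fun z => by
      rw [Real.norm_eq_abs, abs_of_nonneg (div_nonneg (sq_nonneg _) (d.ρ_nonneg z))]
      exact div_le_div_of_nonneg_right
        (pow_le_pow_left₀ (norm_nonneg _) (norm_sub_eta_le k z _) 2) (d.ρ_nonneg z))
    (by
      filter_upwards [ae_D] with z hz
      refine tendsto_const_nhds.congr' ?_
      filter_upwards [eta_tendsto hz] with k hk
      simp [hk])
  simpa [NN] using this

theorem SS.conj {F : ℂ → ℂ} (hF : d.SS F) : d.SS fun z => conj (F z) :=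
  ⟨hF.adm.conj.1, by simpa using hF.2⟩

theorem SS.norm {F : ℂ → ℂ} (hF : d.SS F) : d.SS fun z => (‖F z‖ : ℂ) :=
  ⟨hF.adm.norm.1, by simpa using hF.2⟩

theorem energy_of_zc {F : ℂ → ℂ} (hF : Adm F) (hz : Zc (pot F)) :
    ((4 * ∫ z in D, ‖wd I (pot F) z‖ ^ 2 : ℝ) : ℂ) = ∫ z in D, F z * conj (pot F z) := by
  obtain ⟨C, hC⟩ := hz.bdd (c := I) (by simp)
  have i1 : IntegrableOn (fun z => 4 * wd I (pot F) z) D :=
    (integrableOn_of_bdd (contOn_wd I hz.1) fun z hz => (hC z hz).1).const_mul 4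
  have i2 : IntegrableOn (fun z => -F z) D := hF.2.neg
  have h := extend_weak (c := -I) (by simp) i1 i2 (fun S hS => by
    rw [integral_add (hS.integrableOn_mul_wd (A := fun z => 4 * wd I (pot F) z)
      (continuousOn_const.mul (contOn_wd I hz.1)) _)
      (hS.integrableOn_mul (A := fun z => -F z) hF.1.neg)]
    simp only [mul_assoc, neg_mul]
    rw [integral_const_mul, integral_neg, hF.poisson hS]
    ring) hz.conj
  obtain ⟨K, hK⟩ := hz.conj.bdd (c := -I) (by simp)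
  rw [integral_add (integrableOn_mul_bdd i1 (contOn_wd _ hz.conj.1) fun z hz => (hK z hz).1)
    (integrableOn_mul_bdd i2 hz.conj.1.continuousOn fun z hz => (hK z hz).2)] at h
  simp only [mul_assoc, neg_mul, wd_negI_conj, Complex.mul_conj, ← Complex.sq_norm] at h
  rw [integral_const_mul, integral_neg, integral_complex_ofReal] at h
  push_cast
  linear_combination h

theorem basic_est {c : ℝ} (hc : ∀ S : ℂ → ℂ, Zc S →
    c * ‖∫ z in D, (d.ρ z : ℂ) * S z‖ ^ 2 + d.μ * ∫ z in D, d.ρ z * ‖S z‖ ^ 2 ≤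
      2 * ((∫ z in D, ‖wd (-I) S z‖ ^ 2) + ∫ z in D, ‖wd I S z‖ ^ 2))
    {F : ℂ → ℂ} (hF : d.SS F) (hz : Zc (pot F)) :
    IntegrableOn (fun z => d.ρ z * ‖pot F z‖ ^ 2) D ∧
    c * ‖∫ z in D, (d.ρ z : ℂ) * pot F z‖ ^ 2 + d.μ * ∫ z in D, d.ρ z * ‖pot F z‖ ^ 2 ≤
      4 * ∫ z in D, ‖wd I (pot F) z‖ ^ 2 ∧
    4 * ∫ z in D, ‖wd I (pot F) z‖ ^ 2 ≤ √(d.NN F) * √(∫ z in D, d.ρ z * ‖pot F z‖ ^ 2) := by
  have h1 := energy_of_zc hF.adm hz
  have e : (pot fun z => conj (F z)) = fun z => conj (pot F z) := funext (pot_conj F)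
  have h2 := energy_of_zc hF.adm.conj (by rw [e]; exact hz.conj)
  have h3 : ∫ z in D, ‖wd (-I) (pot F) z‖ ^ 2 = ∫ z in D, ‖wd I (pot F) z‖ ^ 2 := by
    simp only [e, wd_I_conj, RCLike.norm_conj, ← map_mul, integral_conj, ← h1, conj_ofReal,
      ofReal_inj] at h2
    linarith
  obtain ⟨C, hC⟩ := hz.bdd (c := I) (by simp)
  have i1 : IntegrableOn (fun z => d.ρ z * ‖pot F z‖ ^ 2) D := by
    refine Integrable.mul_bdd (c := C ^ 2) d.int_ρ
      ((hz.1.continuousOn.norm.pow 2).aestronglyMeasurable measurableSet_D) ?_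
    filter_upwards [ae_D] with z hz
    rw [norm_pow, norm_norm]
    exact pow_le_pow_left₀ (norm_nonneg _) (hC z hz).2 2
  refine ⟨i1, ?_, ?_⟩
  · have := hc _ hz
    rw [h3] at this
    linarith
  · refine le_trans ?_ (d.cs_w (c := fun z => F z * conj (pot F z))
      ((hF.1.mul hz.conj.1.continuousOn).aestronglyMeasurable measurableSet_D) hF.2 i1
      fun z _ => by simp).2
    refine le_trans ?_ (norm_integral_le_integral_norm _)
    rw [← h1, norm_real]
    exact le_abs_self _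

theorem aux_est {μ X N E : ℝ} (hμ : 0 < μ) (hX : 0 ≤ X) (hN : 0 ≤ N) (h1 : μ * X ≤ E)
    (h2 : E ≤ √N * √X) : μ ^ 2 * X ≤ N ∧ μ * E ≤ N := by
  have a := Real.sqrt_nonneg X
  have b := Real.sqrt_nonneg N
  have c := Real.sq_sqrt hX
  have e := Real.sq_sqrt hN
  have k : μ * √X ≤ √N := by
    by_contra hcon
    have hlt := not_le.1 hcon
    have hx : 0 < √X := by
      by_contra h0
      have : √X = 0 := le_antisymm (not_lt.1 h0) a
      rw [this] at hlt; linarith
    nlinarith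
  constructor
  · calc μ ^ 2 * X = (μ * √X) ^ 2 := by rw [mul_pow, c]
      _ ≤ √N ^ 2 := pow_le_pow_left₀ (by positivity) k 2
      _ = N := e
  · nlinarith

theorem SS.est {F : ℂ → ℂ} (hF : d.SS F) :
    (IntegrableOn (fun z => d.ρ z * ‖pot F z‖ ^ 2) D ∧
      ∫ z in D, d.ρ z * ‖pot F z‖ ^ 2 ≤ d.NN F / d.μ ^ 2) ∧
    IntegrableOn (fun z => ‖wd I (pot F) z‖ ^ 2) D ∧
      ∫ z in D, ‖wd I (pot F) z‖ ^ 2 ≤ d.NN F / (4 * d.μ) := by
  obtain ⟨c, hc0, hc⟩ := d.dirichlet
  have hμ := d.hμ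
  have hk := fun k => basic_est hc (hF.cut k).1 (zc_pot_eta hF.1 k)
  have hk2 := fun k => aux_est hμ
    (integral_nonneg fun z => mul_nonneg (d.ρ_nonneg z) (sq_nonneg _)) (d.NN_nonneg _)
    (le_trans (le_add_of_nonneg_left (by positivity)) (hk k).2.1) (hk k).2.2
  refine ⟨fatou (fun k => (hk k).1) (fun k z => mul_nonneg (d.ρ_nonneg z) (sq_nonneg _))
    (fun z hz => ((hF.adm.tendsto_pot hz).norm.pow 2).const_mul _) fun k => ?_,
    fatou (fun k => (zc_pot_eta hF.1 k).int_wd_sq (c := I) (by simp)) (fun k z => sq_nonneg _)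
    (fun z hz => (hF.adm.tendsto_wd_pot hz).norm.pow 2) fun k => ?_⟩
  · rw [le_div_iff₀ (by positivity)]
    linarith [(hk2 k).1, (hF.cut k).2]
  · rw [le_div_iff₀ (by positivity)]
    linarith [(hk2 k).2, (hF.cut k).2]

theorem int_of_sq {A : ℂ → ℂ} (hA : AEStronglyMeasurable A (volume.restrict D))
    (hA2 : IntegrableOn (fun z => ‖A z‖ ^ 2) D) : IntegrableOn A D :=
  (cs (α := fun z => ‖A z‖) (β := fun _ => 1) hA hA2 (by simp) (by simp)).1

theorem SS.pair_bound {A B F : ℂ → ℂ} (hA : ContinuousOn A D)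
    (hA2 : IntegrableOn (fun z => ‖A z‖ ^ 2) D) (hB : d.SS B) (hF : d.SS F) :
    IntegrableOn (fun z => A z * wd I (pot F) z) D ∧ IntegrableOn (fun z => B z * pot F z) D ∧
    ‖∫ z in D, (A z * wd I (pot F) z + B z * pot F z)‖ ≤
      √(∫ z in D, ‖A z‖ ^ 2) * √(d.NN F / (4 * d.μ)) + √(d.NN B) * √(d.NN F / d.μ ^ 2) := by
  obtain ⟨⟨h1, h2⟩, h3, h4⟩ := hF.est
  have hC := hF.adm.contDiffOn_pot
  obtain ⟨k1, k2⟩ := cs (c := fun z => A z * wd I (pot F) z) (α := fun z => ‖A z‖)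
    (β := fun z => ‖wd I (pot F) z‖)
    ((hA.mul (contOn_wd I hC)).aestronglyMeasurable measurableSet_D) hA2 h3
    fun z _ => (norm_mul _ _).le
  obtain ⟨k3, k4⟩ := d.cs_w (c := fun z => B z * pot F z)
    ((hB.1.mul hC.continuousOn).aestronglyMeasurable measurableSet_D) hB.2 h1
    fun z _ => (norm_mul _ _).le
  refine ⟨k1, k3, ?_⟩
  rw [integral_add k1 k3]
  refine (norm_add_le _ _).trans (add_le_add ?_ ?_)
  · refine (norm_integral_le_integral_norm _).trans (k2.trans ?_)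
    gcongr
  · refine (norm_integral_le_integral_norm _).trans (k4.trans ?_)
    gcongr

/-- Weak identities extend to potentials of admissible sources. -/
theorem extend_pot {A B F : ℂ → ℂ} (hA : ContinuousOn A D)
    (hA2 : IntegrableOn (fun z => ‖A z‖ ^ 2) D) (hB : d.SS B)
    (h : ∀ S, Cc S → ∫ z in D, (A z * wd I S z + B z * S z) = 0) (hF : d.SS F) :
    ∫ z in D, (A z * wd I (pot F) z + B z * pot F z) = 0 := by
  have hAi := int_of_sq (hA.aestronglyMeasurable measurableSet_D) hA2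
  have hk : ∀ k, ∫ z in D, (A z * wd I (pot F) z + B z * pot F z) =
      ∫ z in D, (A z * wd I (pot fun z => F z - (eta k z : ℂ) * F z) z +
        B z * pot (fun z => F z - (eta k z : ℂ) * F z) z) := fun k => by
    have h0 := extend_weak (c := I) (by simp) hAi hB.adm.2 h (zc_pot_eta hF.1 k)
    obtain ⟨i1, i2, -⟩ := SS.pair_bound hA hA2 hB hF
    obtain ⟨i3, i4, -⟩ := SS.pair_bound hA hA2 hB (hF.cut k).1
    rw [← sub_zero (∫ z in D, (A z * wd I (pot F) z + B z * pot F z)), ← h0,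
      ← integral_sub (iadd i1 i2) (iadd i3 i4)]
    refine setIntegral_congr_fun measurableSet_D fun z hz => ?_
    have e := fun w hw => hF.adm.pot_sub (hF.cut k).1.adm (x := w) hw
    rw [wd_congr_D I e hz, e z hz, wd_sub I (diffAt_of_C1 hF.adm.contDiffOn_pot hz)
      (diffAt_of_C1 (hF.cut k).1.adm.contDiffOn_pot hz)]
    ring
  have hlim : Tendsto (fun k => √(∫ z in D, ‖A z‖ ^ 2) *
      √((d.NN fun z => F z - (eta k z : ℂ) * F z) / (4 * d.μ)) +
      √(d.NN B) * √((d.NN fun z => F z - (eta k z : ℂ) * F z) / d.μ ^ 2)) atTop (𝓝 0) := by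
    have := (((hF.tendsto_rest.div_const (4 * d.μ)).sqrt).const_mul √(∫ z in D, ‖A z‖ ^ 2)).add
      (((hF.tendsto_rest.div_const (d.μ ^ 2)).sqrt).const_mul √(d.NN B))
    simpa using this
  refine norm_le_zero_iff.1 (ge_of_tendsto' hlim fun k => ?_)
  rw [hk k]
  exact (SS.pair_bound hA hA2 hB (hF.rest k)).2.2

theorem SS.neg {F : ℂ → ℂ} (hF : d.SS F) : d.SS fun z => -F z :=
  ⟨hF.1.neg, by simpa using hF.2⟩

/-- Green's identity for two potentials. -/
theorem green_pair {a b : ℂ → ℂ} (ha : d.SS a) (hb : d.SS b) :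
    4 * ∫ z in D, conj (wd I (pot a) z) * wd I (pot b) z = ∫ z in D, conj (a z) * pot b z := by
  have hc : ContinuousOn (fun z => 4 * conj (wd I (pot a) z)) D :=
    continuousOn_const.mul (continuous_conj.comp_continuousOn' (contOn_wd I ha.adm.contDiffOn_pot))
  have h2 : IntegrableOn (fun z => ‖4 * conj (wd I (pot a) z)‖ ^ 2) D := by
    simp only [norm_mul, mul_pow, RCLike.norm_conj]
    exact ha.est.2.1.const_mul _
  have h := extend_pot hc h2 ha.conj.neg (fun S hS => by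
    rw [integral_add (hS.integrableOn_mul_wd hc _) (hS.integrableOn_mul ha.conj.neg.1)]
    have := congrArg conj (ha.adm.poisson hS.conj)
    simp only [wd_negI_conj, map_mul, ← integral_conj, conj_conj, map_ofNat] at this
    simp only [mul_assoc, neg_mul]
    rw [integral_const_mul, integral_neg, this]
    ring) hb
  obtain ⟨i1, i2, -⟩ := SS.pair_bound hc h2 ha.conj.neg hb
  rw [integral_add i1 i2] at h
  simp only [mul_assoc, neg_mul] at h
  rw [integral_const_mul, integral_neg] at h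
  linear_combination h

theorem green_symm {a b : ℂ → ℂ} (ha : d.SS a) (hb : d.SS b) :
    ∫ z in D, conj (a z) * pot b z = conj (∫ z in D, conj (b z) * pot a z) := by
  rw [← green_pair ha hb, ← green_pair hb ha, map_mul, ← integral_conj]
  simp only [map_mul, conj_conj, map_ofNat, mul_comm]

theorem green_self {a : ℂ → ℂ} (ha : d.SS a) :
    4 * ∫ z in D, ‖wd I (pot a) z‖ ^ 2 = (∫ z in D, conj (a z) * pot a z).re := by
  rw [← green_pair ha ha]
  simp only [Complex.conj_mul', ← ofReal_pow]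
  rw [integral_complex_ofReal]
  simp

theorem SS.int_pair {a b : ℂ → ℂ} (ha : d.SS a) (hb : d.SS b) :
    IntegrableOn (fun z => conj (a z) * pot b z) D :=
  (SS.pair_bound (A := fun _ => 0) continuousOn_const (by simp) ha.conj hb).2.1

/-- Integration by parts against a potential. -/
theorem ibp_pot {A F : ℂ → ℂ} (hA : ContDiffOn ℝ 1 A D)
    (hA2 : IntegrableOn (fun z => ‖A z‖ ^ 2) D) (hB : d.SS (wd I A)) (hF : d.SS F) :
    ∫ z in D, (A z * wd I (pot F) z + wd I A z * pot F z) = 0 :=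
  extend_pot hA.continuousOn hA2 hB (fun _ hS => ibp I hA hS) hF

/-- The strict bound. -/
theorem strict_bound {F : ℂ → ℂ} (hF : d.SS F) (hpos : ∀ z ∈ D, F z = (‖F z‖ : ℂ))
    (hN : 0 < d.NN F) : d.μ * (∫ z in D, conj (F z) * pot F z).re < d.NN F := by
  obtain ⟨c, hc0, hc⟩ := d.dirichlet
  have hμ := d.hμ
  have hk := fun k => basic_est hc (hF.cut k).1 (zc_pot_eta hF.1 k)
  have hle : ∀ k, ∀ z ∈ D, ‖pot (fun z => (eta k z : ℂ) * F z) z‖ ≤
      ‖pot (fun z => (‖F z‖ : ℂ)) z‖ := fun k z hz =>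
    norm_pot_le hF.norm.adm (fun w _ => norm_eta_mul_le k w _) hz
  have hρS : d.SS fun z => (d.ρ z : ℂ) :=
    ⟨continuous_ofReal.comp_continuousOn' d.contOn_ρ, d.int_ρ.congr_fun (fun z hz => by
      have := (d.ρ_pos hz).ne'
      simp only [norm_real, Real.norm_eq_abs, sq_abs]
      field_simp) measurableSet_D⟩
  have lim : ∀ a : ℕ → ℂ → ℂ, ∀ a₀ : ℂ → ℂ, d.SS a₀ → (∀ k, d.SS (a k)) →
      (∀ k z, ‖a k z‖ ≤ ‖a₀ z‖) → (∀ z ∈ D, ∀ᶠ k in atTop, a k z = a₀ z) →
      Tendsto (fun k => ∫ z in D, conj (a k z) * pot (fun z => (eta k z : ℂ) * F z) z) atTop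
        (𝓝 (∫ z in D, conj (a₀ z) * pot F z)) := fun a a₀ h0 h1 h2 h3 => by
    refine tendsto_integral_of_dominated_convergence
      (fun z => ‖conj (a₀ z) * pot (fun z => (‖F z‖ : ℂ)) z‖)
      (fun k => ((h1 k).int_pair (hF.cut k).1).1) (h0.int_pair hF.norm).norm (fun k => ?_) ?_
    · filter_upwards [ae_D] with z hz
      simp only [norm_mul, RCLike.norm_conj]
      exact mul_le_mul (h2 k z) (hle k z hz) (norm_nonneg _) (norm_nonneg _)
    · filter_upwards [ae_D] with z hz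
      refine ((hF.adm.tendsto_pot hz).const_mul (conj (a₀ z))).congr' ?_
      filter_upwards [h3 z hz] with k hk
      rw [hk]
  have l1 := lim (fun k z => (eta k z : ℂ) * F z) F hF (fun k => (hF.cut k).1)
    (fun k z => norm_eta_mul_le k z _) (fun z hz => by
      filter_upwards [eta_tendsto hz] with k hk
      simp [hk])
  have l2 := lim (fun _ z => (d.ρ z : ℂ)) _ hρS (fun _ => hρS) (fun _ _ => le_rfl)
    (fun _ _ => Eventually.of_forall fun _ => rfl)
  simp only [conj_ofReal] at l2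
  set E := (∫ z in D, conj (F z) * pot F z).re with hE
  set L := ‖∫ z in D, (d.ρ z : ℂ) * pot F z‖ with hL
  have key : d.μ * E ^ 2 + d.NN F * (c * L ^ 2) ≤ d.NN F * E := by
    have t1 := (continuous_re.tendsto _).comp l1
    refine le_of_tendsto_of_tendsto' (((t1.pow 2).const_mul d.μ).add
      (((l2.norm.pow 2).const_mul c).const_mul (d.NN F))) (t1.const_mul (d.NN F)) fun k => ?_
    simp only [Function.comp]
    rw [← green_self (hF.cut k).1]
    obtain ⟨-, h1, h2⟩ := hk k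
    have h3 := (hF.cut k).2
    set Ek := 4 * ∫ z in D, ‖wd I (pot fun z => (eta k z : ℂ) * F z) z‖ ^ 2
    set X := ∫ z in D, d.ρ z * ‖pot (fun z => (eta k z : ℂ) * F z) z‖ ^ 2
    have hX : 0 ≤ X := integral_nonneg fun z => mul_nonneg (d.ρ_nonneg z) (sq_nonneg _)
    have hEk : 0 ≤ Ek := mul_nonneg (by norm_num) (integral_nonneg fun z => sq_nonneg _)
    have h4 : Ek ^ 2 ≤ d.NN F * X := by
      calc Ek ^ 2 ≤ _ := pow_le_pow_left₀ hEk h2 2
        _ = (d.NN fun z => (eta k z : ℂ) * F z) * X := by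
          rw [mul_pow, Real.sq_sqrt (d.NN_nonneg _), Real.sq_sqrt hX]
        _ ≤ _ := by gcongr
    nlinarith
  have hE0 : 0 ≤ E := by
    rw [hE, ← green_self hF]
    exact mul_nonneg (by norm_num) (integral_nonneg fun z => sq_nonneg _)
  by_cases hL0 : L = 0
  · have hp : ∀ z ∈ D, pot F z = ((∫ y in D, G z y * ‖F y‖ : ℝ) : ℂ) := fun z hz => by
      rw [← pot_ofReal]
      exact setIntegral_congr_fun measurableSet_D fun y hy => by simp only [← hpos y hy]
    have hp0 : ∀ z ∈ D, 0 ≤ ∫ y in D, G z y * ‖F y‖ := fun z hz =>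
      setIntegral_nonneg measurableSet_D fun y hy => mul_nonneg (G_nonneg hz hy) (norm_nonneg _)
    have hi := hρS.int_pair hF
    simp only [conj_ofReal] at hi
    have h1 : ∫ z in D, ((d.ρ z : ℂ) * pot F z).re = 0 := by
      rw [← re_int hi, norm_eq_zero.1 hL0, zero_re]
    rw [integral_eq_zero_iff_of_nonneg_ae (f := fun z => ((d.ρ z : ℂ) * pot F z).re) (by
      filter_upwards [ae_D] with z hz
      rw [hp z hz, ← ofReal_mul, ofReal_re]
      exact mul_nonneg (d.ρ_nonneg z) (hp0 z hz)) hi.re] at h1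
    have h2 : ∫ z in D, conj (F z) * pot F z = 0 := by
      refine integral_eq_zero_of_ae ?_
      filter_upwards [ae_D, h1] with z hz h
      rw [hp z hz, ← ofReal_mul, ofReal_re, Pi.zero_apply, mul_eq_zero] at h
      rw [hp z hz, h.resolve_left (d.ρ_pos hz).ne']
      simp
    rw [hE, h2]
    simpa using hN
  · have : 0 < d.NN F * (c * L ^ 2) := by positivity
    by_contra hcon
    have := mul_le_mul_of_nonneg_right (not_lt.1 hcon) hE0
    nlinarith

end Data

end Crest.Agent.R101
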