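import Crest.Agent.R101.Defs

/-! Wirtinger calculus on the disc: product and chain rules, integration by parts, cut-offs. -/

open MeasureTheory Complex Metric Set Filter Topology
open scoped Real ComplexConjugate

namespace Crest.Agent.R101

theorem isOpen_D : IsOpen D := isOpen_ball

theorem measurableSet_D : MeasurableSet D := measurableSet_ball

theorem mem_D {z : ℂ} : z ∈ D ↔ ‖z‖ < 1 := mem_ball_zero_iff

theorem D_nhds {z : ℂ} (hz : z ∈ D) : D ∈ 𝓝 z := isOpen_D.mem_nhds hz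

theorem diffAt_of_C1 {E : Type*} [NormedAddCommGroup E] [NormedSpace ℝ E] {g : ℂ → E}
    (hg : ContDiffOn ℝ 1 g D) {z : ℂ} (hz : z ∈ D) : DifferentiableAt ℝ g z :=
  (hg.contDiffAt (D_nhds hz)).differentiableAt one_ne_zero

theorem contOn_fderiv {E : Type*} [NormedAddCommGroup E] [NormedSpace ℝ E] {g : ℂ → E}
    (hg : ContDiffOn ℝ 1 g D) : ContinuousOn (fderiv ℝ g) D :=
  hg.continuousOn_fderiv_of_isOpen isOpen_D le_rfl

theorem contOn_wd (c : ℂ) {g : ℂ → ℂ} (hg : ContDiffOn ℝ 1 g D) : ContinuousOn (wd c g) D := by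
  have h := contOn_fderiv hg
  unfold wd
  exact (((h.clm_apply continuousOn_const).add
    (continuousOn_const.mul (h.clm_apply continuousOn_const))).div_const _)

theorem wd_of_hasFDerivAt (c : ℂ) {g : ℂ → ℂ} {L : ℂ →L[ℝ] ℂ} {z : ℂ} (h : HasFDerivAt g L z) :
    wd c g z = (L 1 + c * L I) / 2 := by
  rw [wd, h.fderiv]

theorem wd_congr (c : ℂ) {g g' : ℂ → ℂ} {z : ℂ} (h : g =ᶠ[𝓝 z] g') : wd c g z = wd c g' z := by
  rw [wd, wd, h.fderiv_eq]

theorem wd_congr_D (c : ℂ) {g g' : ℂ → ℂ} (h : ∀ z ∈ D, g z = g' z) {z : ℂ} (hz : z ∈ D) :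
    wd c g z = wd c g' z :=
  wd_congr c (by filter_upwards [D_nhds hz] with w hw using h w hw)

theorem wd_const (c a z : ℂ) : wd c (fun _ => a) z = 0 := by
  simp [wd]

theorem wd_add (c : ℂ) {g h : ℂ → ℂ} {z : ℂ} (hg : DifferentiableAt ℝ g z)
    (hh : DifferentiableAt ℝ h z) : wd c (fun w => g w + h w) z = wd c g z + wd c h z := by
  rw [wd_of_hasFDerivAt c (hg.hasFDerivAt.fun_add hh.hasFDerivAt), wd, wd]
  simp only [_root_.add_apply]
  ring

theorem wd_sub (c : ℂ) {g h : ℂ → ℂ} {z : ℂ} (hg : DifferentiableAt ℝ g z)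
    (hh : DifferentiableAt ℝ h z) : wd c (fun w => g w - h w) z = wd c g z - wd c h z := by
  rw [wd_of_hasFDerivAt c (hg.hasFDerivAt.fun_sub hh.hasFDerivAt), wd, wd]
  simp only [_root_.sub_apply]
  ring

theorem wd_mul (c : ℂ) {g h : ℂ → ℂ} {z : ℂ} (hg : DifferentiableAt ℝ g z)
    (hh : DifferentiableAt ℝ h z) :
    wd c (fun w => g w * h w) z = wd c g z * h z + g z * wd c h z := by
  rw [wd_of_hasFDerivAt c (hg.hasFDerivAt.fun_mul hh.hasFDerivAt), wd, wd]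
  simp only [_root_.add_apply, _root_.smul_apply, smul_eq_mul]
  ring

theorem wd_const_mul (c a : ℂ) {g : ℂ → ℂ} {z : ℂ} (hg : DifferentiableAt ℝ g z) :
    wd c (fun w => a * g w) z = a * wd c g z := by
  rw [wd_mul c (differentiableAt_const a) hg, wd_const]
  ring

theorem diffAt_conj {g : ℂ → ℂ} {z : ℂ} (hg : DifferentiableAt ℝ g z) :
    DifferentiableAt ℝ (fun w => conj (g w)) z :=
  (conjCLE.differentiableAt (x := g z)).comp z hg

theorem contDiffOn_conj {n : WithTop ℕ∞} {g : ℂ → ℂ} {s : Set ℂ} (hg : ContDiffOn ℝ n g s) :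
    ContDiffOn ℝ n (fun w => conj (g w)) s :=
  conjCLE.contDiff.comp_contDiffOn hg

theorem contDiff_conj' {n : WithTop ℕ∞} {g : ℂ → ℂ} (hg : ContDiff ℝ n g) :
    ContDiff ℝ n (fun w => conj (g w)) :=
  conjCLE.contDiff.comp hg

theorem fderiv_conj (g : ℂ → ℂ) (z w : ℂ) :
    fderiv ℝ (fun w => conj (g w)) z w = conj (fderiv ℝ g z w) := by
  have := conjCLE.comp_fderiv (f := g) (x := z)
  have h2 : (fun w => conj (g w)) = conjCLE ∘ g := rfl
  rw [h2, this]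
  rfl

theorem wd_conj (c : ℂ) (g : ℂ → ℂ) (z : ℂ) :
    wd c (fun w => conj (g w)) z = conj (wd (conj c) g z) := by
  rw [wd, wd, fderiv_conj, fderiv_conj]
  simp [map_ofNat]

theorem wd_I_conj (g : ℂ → ℂ) (z : ℂ) :
    wd I (fun w => conj (g w)) z = conj (wd (-I) g z) := by
  rw [wd_conj, conj_I]

theorem wd_negI_conj (g : ℂ → ℂ) (z : ℂ) :
    wd (-I) (fun w => conj (g w)) z = conj (wd I g z) := by
  rw [wd_conj]; simp

theorem wd_holo (c : ℂ) {h : ℂ → ℂ} {h' z : ℂ} (hh : HasDerivAt h h' z) :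
    wd c h z = h' * (1 + c * I) / 2 := by
  have := (hh.hasFDerivAt.restrictScalars ℝ)
  rw [wd_of_hasFDerivAt c this]
  simp
  ring

theorem wd_I_holo {h : ℂ → ℂ} {z : ℂ} (hh : DifferentiableAt ℂ h z) : wd I h z = 0 := by
  rw [wd_holo I hh.hasDerivAt]; simp

theorem wd_negI_holo {h : ℂ → ℂ} {z : ℂ} (hh : DifferentiableAt ℂ h z) :
    wd (-I) h z = deriv h z := by
  rw [wd_holo (-I) hh.hasDerivAt]
  have : (1 + -I * I : ℂ) = 2 := by rw [neg_mul, I_mul_I]; norm_num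
  rw [this]; ring

theorem wd_I_antiholo {h : ℂ → ℂ} {z : ℂ} (hh : DifferentiableAt ℂ h z) :
    wd I (fun w => conj (h w)) z = conj (deriv h z) := by
  rw [wd_I_conj, wd_negI_holo hh]

theorem wd_negI_antiholo {h : ℂ → ℂ} {z : ℂ} (hh : DifferentiableAt ℂ h z) :
    wd (-I) (fun w => conj (h w)) z = 0 := by
  rw [wd_negI_conj, wd_I_holo hh, map_zero]

theorem clm_apply_eq (L : ℂ →L[ℝ] ℂ) (w : ℂ) : L w = w.re * L 1 + w.im * L I := by
  conv_lhs => rw [show w = w.re • (1 : ℂ) + w.im • I by simp]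
  rw [map_add, map_smul, map_smul]
  simp

theorem wd_I_comp {g f : ℂ → ℂ} {z : ℂ} (hg : DifferentiableAt ℝ g (f z))
    (hf : DifferentiableAt ℂ f z) :
    wd I (fun w => g (f w)) z = wd I g (f z) * conj (deriv f z) := by
  have h1 := hg.hasFDerivAt.comp z (hf.hasDerivAt.hasFDerivAt.restrictScalars ℝ)
  rw [wd_of_hasFDerivAt I (g := fun w => g (f w)) h1, wd]
  simp only [ContinuousLinearMap.comp_apply, ContinuousLinearMap.coe_restrictScalars',
    ContinuousLinearMap.toSpanSingleton_apply, smul_eq_mul, one_mul]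
  rw [clm_apply_eq _ (deriv f z), clm_apply_eq _ (I * deriv f z)]
  set a := deriv f z
  have : conj a = a.re - a.im * I := by
    apply Complex.ext <;> simp
  rw [this]
  simp only [mul_re, I_re, zero_mul, I_im, one_mul, zero_sub, ofReal_neg, mul_im, zero_add]
  linear_combination (fderiv ℝ g (f z) I * a.im / 2) * I_mul_I

theorem wd_negI_comp {g f : ℂ → ℂ} {z : ℂ} (hg : DifferentiableAt ℝ g (f z))
    (hf : DifferentiableAt ℂ f z) :
    wd (-I) (fun w => g (f w)) z = wd (-I) g (f z) * deriv f z := by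
  have h1 := hg.hasFDerivAt.comp z (hf.hasDerivAt.hasFDerivAt.restrictScalars ℝ)
  rw [wd_of_hasFDerivAt (-I) (g := fun w => g (f w)) h1, wd]
  simp only [ContinuousLinearMap.comp_apply, ContinuousLinearMap.coe_restrictScalars',
    ContinuousLinearMap.toSpanSingleton_apply, smul_eq_mul, one_mul]
  rw [clm_apply_eq _ (deriv f z), clm_apply_eq _ (I * deriv f z)]
  set a := deriv f z
  have : a = a.re + a.im * I := by simp
  conv_rhs => rw [this]
  simp only [mul_re, I_re, zero_mul, I_im, one_mul, zero_sub, ofReal_neg, mul_im, zero_add]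
  linear_combination (fderiv ℝ g (f z) I * a.im / 2) * I_mul_I

theorem norm_wd_le {c : ℂ} (hc : ‖c‖ ≤ 1) (g : ℂ → ℂ) (z : ℂ) :
    ‖wd c g z‖ ≤ ‖fderiv ℝ g z‖ := by
  rw [wd, norm_div]
  have h1 := (fderiv ℝ g z).le_opNorm 1
  have h2 := (fderiv ℝ g z).le_opNorm I
  have h3 := norm_add_le (fderiv ℝ g z 1) (c * fderiv ℝ g z I)
  rw [norm_mul] at h3
  simp only [norm_one, mul_one, norm_I] at h1 h2
  have h4 : ‖c‖ * ‖fderiv ℝ g z I‖ ≤ 1 * ‖fderiv ℝ g z‖ :=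
    mul_le_mul hc h2 (norm_nonneg _) zero_le_one
  simp only [Complex.norm_ofNat]
  linarith

theorem fderiv_ofReal_comp {φ : ℂ → ℝ} {z : ℂ} (hφ : DifferentiableAt ℝ φ z) (w : ℂ) :
    fderiv ℝ (fun z => (φ z : ℂ)) z w = (fderiv ℝ φ z w : ℂ) := by
  have := (ofRealCLM.hasFDerivAt (x := φ z)).comp z hφ.hasFDerivAt
  have h2 : (fun z => (φ z : ℂ)) = ofRealCLM ∘ φ := rfl
  rw [h2, this.fderiv]
  rfl

theorem wd_ofReal (c : ℂ) {φ : ℂ → ℝ} {z : ℂ} (hφ : DifferentiableAt ℝ φ z) :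
    wd c (fun z => (φ z : ℂ)) z = ((fderiv ℝ φ z 1 : ℝ) + c * (fderiv ℝ φ z I : ℝ)) / 2 := by
  rw [wd, fderiv_ofReal_comp hφ, fderiv_ofReal_comp hφ]

theorem contDiffOn_ofReal {n : WithTop ℕ∞} {φ : ℂ → ℝ} {s : Set ℂ} (h : ContDiffOn ℝ n φ s) :
    ContDiffOn ℝ n (fun z => (φ z : ℂ)) s :=
  ofRealCLM.contDiff.comp_contDiffOn h

theorem diffAt_ofReal {φ : ℂ → ℝ} {z : ℂ} (hφ : DifferentiableAt ℝ φ z) :
    DifferentiableAt ℝ (fun z => (φ z : ℂ)) z :=
  (ofRealCLM.differentiableAt (x := φ z)).comp z hφ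

theorem normSq_wd_I_ofReal {φ : ℂ → ℝ} {z : ℂ} (hφ : DifferentiableAt ℝ φ z) :
    4 * ‖wd I (fun z => (φ z : ℂ)) z‖ ^ 2 = gsq φ z := by
  rw [wd_ofReal I hφ, gsq, Complex.sq_norm, Complex.normSq_apply]
  simp
  ring

theorem normSq_wd_negI_ofReal {φ : ℂ → ℝ} {z : ℂ} (hφ : DifferentiableAt ℝ φ z) :
    4 * ‖wd (-I) (fun z => (φ z : ℂ)) z‖ ^ 2 = gsq φ z := by
  rw [wd_ofReal (-I) hφ, gsq, Complex.sq_norm, Complex.normSq_apply]
  simp
  ring

theorem re_wd_mul_wd {φ ψ : ℂ → ℝ} {z : ℂ} (hφ : DifferentiableAt ℝ φ z)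
    (hψ : DifferentiableAt ℝ ψ z) :
    4 * (wd (-I) (fun z => (φ z : ℂ)) z * wd I (fun z => (ψ z : ℂ)) z).re = gdot φ ψ z := by
  rw [wd_ofReal (-I) hφ, wd_ofReal I hψ, gdot]
  simp
  ring

theorem holo_C1 {h : ℂ → ℂ} (hh : DifferentiableOn ℂ h D) {n : WithTop ℕ∞} :
    ContDiffOn ℝ n h D :=
  ((hh.analyticOnNhd isOpen_D).contDiffOn_of_completeSpace.of_le le_top).restrict_scalars ℝ

theorem holo_at {h : ℂ → ℂ} (hh : DifferentiableOn ℂ h D) {z : ℂ} (hz : z ∈ D) :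
    DifferentiableAt ℂ h z := hh.differentiableAt (D_nhds hz)

theorem holo_deriv {h : ℂ → ℂ} (hh : DifferentiableOn ℂ h D) :
    DifferentiableOn ℂ (deriv h) D := hh.deriv isOpen_D

end Crest.Agent.R101
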